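import Mathlib
import Vale.Agent.P150.Fast.Defs

/-!
The Gibbs property at one site forces the local magnetisation to be the hyperbolic tangent of the
cavity field: two test functions suffice (P150).
-/

open MeasureTheory ProbabilityTheory Real

namespace Vale.Agent.P150.Fast

/-- Expectation under the normal law with mean `a` and variance `v`. -/
noncomputable def nE (a v : ℝ) (F : ℝ → ℝ) : ℝ := ∫ g, F (a + √v * g) ∂gaussianReal 0 1

theorem abs_tanh_sub_le (a b : ℝ) : |tanh a - tanh b| ≤ |a - b| := by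
  have hd : ∀ x : ℝ, HasDerivAt tanh (1 / cosh x ^ 2) x := fun x => by
    rw [show tanh = fun t => sinh t / cosh t from funext tanh_eq_sinh_div_cosh]
    refine ((hasDerivAt_sinh x).div (hasDerivAt_cosh x) (cosh_pos x).ne').congr_deriv ?_
    congr 1
    linear_combination cosh_sq_sub_sinh_sq x
  have h := Convex.norm_image_sub_le_of_norm_hasDerivWithin_le (C := 1) (s := Set.univ)
    (fun x _ => (hd x).hasDerivWithinAt) (fun x _ => ?_) convex_univ (Set.mem_univ b) (Set.mem_univ a)
  · simpa [Real.norm_eq_abs] using h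
  · rw [Real.norm_eq_abs, abs_of_nonneg (by positivity), div_le_one (by positivity)]
    exact one_le_pow₀ (one_le_cosh x)

/-- The algebra of the two tests: `μp`, `μm` are the two candidates for the cavity field. -/
theorem gibbs_algebra {p q μp μm δ B : ℝ} (hp : 0 ≤ p) (hpq : p + q = 1) (hB : 0 ≤ B)
    (hμp : |μp| ≤ B) (hμm : |μm| ≤ B) (h1 : |p - q * exp (2 * μm)| ≤ δ)
    (h2 : |p * exp (-(2 * μp)) - q| ≤ δ) :
    |p - q - tanh (p * μp + q * μm)| ≤ (2 + exp (4 * B)) * δ := by
  have hδ : 0 ≤ δ := (abs_nonneg _).trans h1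
  obtain ⟨hm1, hm2⟩ := abs_le.1 hμm
  obtain ⟨hp1, hp2⟩ := abs_le.1 hμp
  have hE : 0 < exp (2 * μm) + 1 := by positivity
  have e1 : p - q - tanh μm = 2 * (p - q * exp (2 * μm)) / (exp (2 * μm) + 1) := by
    rw [tanh_eq_sinh_div_cosh, sinh_eq, cosh_eq, show exp (2 * μm) = exp μm * exp μm by
      rw [← exp_add]; ring_nf, exp_neg]
    field_simp
    linear_combination (exp μm * exp μm - 1) * hpq
  have b1 : |p - q - tanh μm| ≤ 2 * δ := by
    rw [e1, abs_div, abs_mul, abs_of_pos (two_pos (α := ℝ)), abs_of_pos hE, div_le_iff₀ hE]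
    linarith [mul_nonneg hδ (exp_pos (2 * μm)).le]
  have b2 : p * |μp - μm| ≤ exp (4 * B) * δ := by
    have hb : ∀ a b : ℝ, -B ≤ b → b ≤ B → -B ≤ a → a ≤ B →
        exp (-(2 * B)) * |a - b| ≤ |exp (-(2 * b)) - exp (-(2 * a))| / 2 := by
      intro a b b1 b2 a1 a2
      rcases le_total b a with h | h
      · have k := add_one_le_exp (2 * (a - b))
        have e : exp (-(2 * b)) = exp (-(2 * a)) * exp (2 * (a - b)) := by
          rw [← exp_add]; ring_nf
        have m := exp_le_exp.2 (show -(2 * B) ≤ -(2 * a) by linarith)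
        rw [abs_of_nonneg (by linarith), abs_of_nonneg (by rw [e]; nlinarith [exp_pos (-(2 * a))]), e]
        nlinarith [exp_pos (-(2 * a)), mul_le_mul_of_nonneg_right m (sub_nonneg.2 h)]
      · have k := add_one_le_exp (2 * (b - a))
        have e : exp (-(2 * a)) = exp (-(2 * b)) * exp (2 * (b - a)) := by
          rw [← exp_add]; ring_nf
        have m := exp_le_exp.2 (show -(2 * B) ≤ -(2 * b) by linarith)
        rw [abs_of_nonpos (by linarith), abs_of_nonpos (by rw [e]; nlinarith [exp_pos (-(2 * b))]), e]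
        nlinarith [exp_pos (-(2 * b)), mul_le_mul_of_nonneg_right m (sub_nonneg.2 h)]
    have hq : |p * exp (-(2 * μm)) - q| ≤ exp (2 * B) * δ := by
      have e : p * exp (-(2 * μm)) - q = exp (-(2 * μm)) * (p - q * exp (2 * μm)) := by
        rw [mul_sub, mul_left_comm, ← exp_add]; simp [mul_comm]
      rw [e, abs_mul, abs_of_pos (exp_pos _)]
      exact mul_le_mul (exp_le_exp.2 (by linarith)) h1 (abs_nonneg _) (exp_pos _).le
    have h1e : (1 : ℝ) ≤ exp (2 * B) := one_le_exp (by linarith)
    have k : p * |exp (-(2 * μm)) - exp (-(2 * μp))| ≤ 2 * (exp (2 * B) * δ) := by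
      calc p * |exp (-(2 * μm)) - exp (-(2 * μp))|
          = |(p * exp (-(2 * μm)) - q) - (p * exp (-(2 * μp)) - q)| := by
            rw [← abs_of_nonneg hp, ← abs_mul, abs_of_nonneg hp]; ring_nf
        _ ≤ _ := (abs_sub _ _).trans (by nlinarith)
    have k2 := mul_le_mul_of_nonneg_left (hb μp μm hm1 hm2 hp1 hp2) hp
    have k3 : exp (-(2 * B)) * (p * |μp - μm|) ≤ exp (2 * B) * δ := by linarith
    have e4 : exp (4 * B) = exp (2 * B) * exp (2 * B) := by rw [← exp_add]; ring_nf
    rw [exp_neg, inv_mul_le_iff₀ (exp_pos _)] at k3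
    rw [e4, mul_assoc]
    exact k3
  have hmix : |μm - (p * μp + q * μm)| = p * |μp - μm| := by
    rw [show μm - (p * μp + q * μm) = -(p * (μp - μm)) by linear_combination -μm * hpq,
      abs_neg, abs_mul, abs_of_nonneg hp]
  calc |p - q - tanh (p * μp + q * μm)|
      ≤ |p - q - tanh μm| + |tanh μm - tanh (p * μp + q * μm)| := abs_sub_le _ _ _
    _ ≤ 2 * δ + exp (4 * B) * δ := add_le_add b1
        (((abs_tanh_sub_le _ _).trans (le_of_eq hmix)).trans b2)
    _ = (2 + exp (4 * B)) * δ := by ring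

theorem integrable_exp_affine (a v c : ℝ) :
    Integrable (fun g => exp (c * (a + √v * g))) (gaussianReal 0 1) := by
  simp only [mul_add, ← mul_assoc, exp_add]
  exact (integrable_exp_mul_gaussianReal (c * √v)).const_mul _

theorem nE_exp (a : ℝ) {v : ℝ} (hv : 0 ≤ v) (c : ℝ) :
    nE a v (fun u => exp (c * u)) = exp (c * a + c ^ 2 * v / 2) := by
  have h := congrFun (mgf_id_gaussianReal (μ := 0) (v := 1)) (c * √v)
  simp only [mgf, id_eq, NNReal.coe_one] at h
  rw [nE]
  simp only [mul_add, ← mul_assoc, exp_add, integral_const_mul, h]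
  rw [mul_pow, sq_sqrt hv]
  simp

theorem nE_const (a v c : ℝ) : nE a v (fun _ => c) = c := by simp [nE]

theorem integrable_nE_of_bdd {F : ℝ → ℝ} (hF : Continuous F) {M : ℝ} (hM : ∀ u, |F u| ≤ M)
    (a v : ℝ) : Integrable (fun g => F (a + √v * g)) (gaussianReal 0 1) :=
  Integrable.of_bound (by fun_prop : Continuous fun g => F (a + √v * g)).aestronglyMeasurable M
    (.of_forall fun g => by rw [Real.norm_eq_abs]; exact hM _)

/-- A clipped test: `min (1 + exp (c u)) M` times a weight. -/
noncomputable def clipT (M c : ℝ) (u : ℝ) : ℝ := min (1 + exp (c * u)) M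

theorem clipT_mem {M : ℝ} (hM : 0 ≤ M) (c u : ℝ) : 0 ≤ clipT M c u ∧ clipT M c u ≤ M :=
  ⟨le_min (by positivity) hM, min_le_right _ _⟩

theorem clipT_gap {M : ℝ} (hM : 0 < M) (c u : ℝ) :
    1 + exp (c * u) - clipT M c u ≤ (1 + exp (c * u)) ^ 2 / M := by
  rw [clipT, le_div_iff₀ hM]
  rcases le_total (1 + exp (c * u)) M with h | h
  · rw [min_eq_left h, sub_self, zero_mul]; positivity
  · rw [min_eq_right h]; nlinarith [exp_pos (c * u)]

/-- Removing the clip costs a second moment. -/
theorem nE_clip {v B M : ℝ} (hv : 0 ≤ v) (hM : 0 < M) (a c : ℝ) {w : ℝ → ℝ} (hw : Continuous w)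
    (hw0 : ∀ u, 0 ≤ w u) (hw1 : ∀ u, w u ≤ 1) (hB : 2 * |c| * |a| + 2 * c ^ 2 * v ≤ B) :
    |nE a v (fun u => clipT M c u * w u) - nE a v (fun u => (1 + exp (c * u)) * w u)|
      ≤ 4 * exp B / M := by
  have i1 : Integrable (fun g => clipT M c (a + √v * g) * w (a + √v * g)) (gaussianReal 0 1) :=
    integrable_nE_of_bdd (F := fun u => clipT M c u * w u) (by unfold clipT; fun_prop) (M := M)
      (fun u => by
        rw [abs_of_nonneg (mul_nonneg (clipT_mem hM.le c u).1 (hw0 u))]
        nlinarith [clipT_mem hM.le c u, hw0 u, hw1 u]) a v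
  have ie : Integrable (fun g => 1 + exp (c * (a + √v * g))) (gaussianReal 0 1) :=
    (integrable_const 1).add (integrable_exp_affine a v c)
  have i2 : Integrable (fun g => (1 + exp (c * (a + √v * g))) * w (a + √v * g))
      (gaussianReal 0 1) := by
    refine ie.mono' (by fun_prop : Continuous fun g =>
      (1 + exp (c * (a + √v * g))) * w (a + √v * g)).aestronglyMeasurable (.of_forall fun g => ?_)
    rw [Real.norm_eq_abs, abs_of_nonneg (mul_nonneg (by positivity) (hw0 _))]
    exact mul_le_of_le_one_right (by positivity) (hw1 _)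
  have i3 : Integrable (fun g => 2 + 2 * exp (2 * c * (a + √v * g))) (gaussianReal 0 1) :=
    (integrable_const 2).add ((integrable_exp_affine a v (2 * c)).const_mul 2)
  simp only [nE]
  rw [← integral_sub i1 i2]
  rw [← Real.norm_eq_abs]
  refine (norm_integral_le_of_norm_le (i3.div_const M) (.of_forall fun g => ?_)).trans ?_
  · set u := a + √v * g
    have hg : 0 ≤ 1 + exp (c * u) - clipT M c u := sub_nonneg.2 (min_le_left _ _)
    rw [Real.norm_eq_abs, abs_sub_comm, ← sub_mul, abs_of_nonneg (mul_nonneg hg (hw0 u))]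
    refine (mul_le_of_le_one_right hg (hw1 u)).trans ((clipT_gap hM c u).trans
      (div_le_div_of_nonneg_right ?_ hM.le))
    have e : exp (2 * c * u) = exp (c * u) * exp (c * u) := by rw [← exp_add]; ring_nf
    rw [e]
    linarith [sq_nonneg (1 - exp (c * u))]
  · rw [integral_div, integral_add (integrable_const 2) ((integrable_exp_affine a v (2 * c)).const_mul 2),
      integral_const, integral_const_mul]
    have h := nE_exp a hv (2 * c)
    rw [nE] at h
    rw [h]
    refine div_le_div_of_nonneg_right ?_ hM.le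
    have h1 : exp (2 * c * a + (2 * c) ^ 2 * v / 2) ≤ exp B := by
      refine exp_le_exp.2 (le_trans ?_ hB)
      linarith [le_abs_self (c * a), abs_mul c a]
    have h2 : (1 : ℝ) ≤ exp B := one_le_exp (by
      linarith [abs_nonneg c, abs_nonneg a, mul_nonneg (abs_nonneg c) (abs_nonneg a),
        mul_nonneg (sq_nonneg c) hv])
    simp only [Measure.real, measure_univ, ENNReal.toReal_one, one_smul]
    linarith

theorem sig_nonneg (b : Bool) (u : ℝ) : 0 ≤ sig b u := by unfold sig; positivity

theorem sig_le_one (b : Bool) (u : ℝ) : sig b u ≤ 1 := by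
  rw [sig, div_le_one (by positivity)]
  cases b <;> simp [spin, (exp_pos u).le, (exp_pos (-u)).le]

@[fun_prop]
theorem continuous_sig (b : Bool) : Continuous (sig b) := by
  unfold sig
  exact Continuous.div (by fun_prop) (by fun_prop) fun u => by positivity

/-- From two clipped tests of the Gibbs property to `m = tanh μ`. The field given the spin is
normal with means `a₁` (spin up) and `a₀` (spin down) and variance `v`. -/
theorem gibbs_step {p q a₁ a₀ v δ B M : ℝ} (hp : 0 ≤ p) (hq : 0 ≤ q) (hpq : p + q = 1)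
    (hv : 0 ≤ v) (hvB : v ≤ B) (ha₁ : |a₁| ≤ B) (ha₀ : |a₀| ≤ B) (hM : 0 < M)
    (h1 : |p * nE a₁ v (fun u => clipT M 2 u * sig false u)
      - q * nE a₀ v (fun u => clipT M 2 u * sig true u)| ≤ δ)
    (h2 : |p * nE a₁ v (fun u => clipT M (-2) u * sig false u)
      - q * nE a₀ v (fun u => clipT M (-2) u * sig true u)| ≤ δ) :
    |p - q - tanh (p * (a₁ - v) + q * (a₀ + v))|
      ≤ (2 + exp (8 * B)) * (δ + 4 * exp (12 * B) / M) := by
  have hB : 0 ≤ B := hv.trans hvB
  have cc : ∀ (b : Bool) (a c : ℝ), |a| ≤ B → |c| = 2 →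
      |nE a v (fun u => clipT M c u * sig b u) - nE a v (fun u => (1 + exp (c * u)) * sig b u)|
        ≤ 4 * exp (12 * B) / M := fun b a c ha hc => by
    refine nE_clip hv hM a c (continuous_sig b) (sig_nonneg b) (sig_le_one b) ?_
    rw [hc, show c ^ 2 = 4 by rw [← sq_abs, hc]; norm_num]
    linarith
  have f1 : ∀ a, nE a v (fun u => (1 + exp (2 * u)) * sig false u) = 1 := fun a => by
    refine Eq.trans ?_ (nE_const a v 1); congr 1; funext u
    simp only [sig, spin, Bool.false_eq_true, if_false, neg_mul, one_mul, exp_neg,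
      show exp (2 * u) = exp u * exp u by rw [← exp_add]; ring_nf]
    field_simp; ring
  have f2 : ∀ a, nE a v (fun u => (1 + exp (2 * u)) * sig true u) = exp (2 * (a + v)) := fun a => by
    rw [show exp (2 * (a + v)) = nE a v fun u => exp (2 * u) by rw [nE_exp a hv]; ring_nf]
    congr 1; funext u
    simp only [sig, spin, if_true, one_mul, exp_neg,
      show exp (2 * u) = exp u * exp u by rw [← exp_add]; ring_nf]
    field_simp; ring
  have f3 : ∀ a, nE a v (fun u => (1 + exp (-2 * u)) * sig false u) = exp (-(2 * (a - v))) :=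
      fun a => by
    rw [show exp (-(2 * (a - v))) = nE a v fun u => exp (-2 * u) by rw [nE_exp a hv]; ring_nf]
    congr 1; funext u
    simp only [sig, spin, Bool.false_eq_true, if_false, neg_mul, one_mul, exp_neg,
      show exp (2 * u) = exp u * exp u by rw [← exp_add]; ring_nf]
    field_simp
  have f4 : ∀ a, nE a v (fun u => (1 + exp (-2 * u)) * sig true u) = 1 := fun a => by
    refine Eq.trans ?_ (nE_const a v 1); congr 1; funext u
    simp only [sig, spin, if_true, one_mul, neg_mul, exp_neg,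
      show exp (2 * u) = exp u * exp u by rw [← exp_add]; ring_nf]
    field_simp
  set E := 4 * exp (12 * B) / M with hE
  have key : ∀ X Y X' Y' : ℝ, |p * X - q * Y| ≤ δ → |X - X'| ≤ E → |Y - Y'| ≤ E →
      |p * X' - q * Y'| ≤ δ + E := by
    intro X Y X' Y' h hx hy
    have ax := abs_le.1 hx
    have ay := abs_le.1 hy
    have ah := abs_le.1 h
    have := mul_le_mul_of_nonneg_left ax.1 hp
    have := mul_le_mul_of_nonneg_left ax.2 hp
    have := mul_le_mul_of_nonneg_left ay.1 hq
    have := mul_le_mul_of_nonneg_left ay.2 hq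
    have eE : p * E + q * E = E := by linear_combination E * hpq
    rw [abs_le]; constructor <;> linarith
  have g1 := key _ _ _ _ h1 (cc false a₁ 2 ha₁ abs_two) (cc true a₀ 2 ha₀ abs_two)
  have g2 := key _ _ _ _ h2 (cc false a₁ (-2) ha₁ (by norm_num)) (cc true a₀ (-2) ha₀ (by norm_num))
  rw [f1, f2, mul_one] at g1
  rw [f3, f4, mul_one] at g2
  have h := gibbs_algebra hp hpq (show (0 : ℝ) ≤ 2 * B by linarith)
    (show |a₁ - v| ≤ 2 * B by rw [abs_le]; constructor <;> linarith [abs_le.1 ha₁])
    (show |a₀ + v| ≤ 2 * B by rw [abs_le]; constructor <;> linarith [abs_le.1 ha₀]) g1 g2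
  rw [show 4 * (2 * B) = 8 * B by ring] at h
  exact h

end Vale.Agent.P150.Fast
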