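import Mathlib
import Vale.Agent.P150.Fast.ChainKer

/-!
The conditional variance given the field and the pinned spins, and its comparison between a free
site and a site frozen at one value (P150).
-/

open MeasureTheory Real Finset
open scoped Matrix

namespace Vale.Agent.P150.Fast

variable {n : ℕ} {ν : Conf n → ℝ} {s : Step n} {φ f : Conf n → ℝ}

/-- The weighted conditional variance of `f` at the field `y`. -/
noncomputable def cvY (ν : Conf n → ℝ) (s : Step n) (φ f : Conf n → ℝ) (y : Fin n → ℝ) : ℝ :=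
  ∑ x, φ x * ν x * chan s.A x y * (f x - condE ν s f y x) ^ 2

theorem condE_shift (hν : ∀ x, 0 < ν x) (hA : s.A.PosDef) (f : Conf n → ℝ) (y : Fin n → ℝ)
    (x : Conf n) : condE ν s (fun z => f z + 1) y x = condE ν s f y x + 1 := by
  simp only [condE, mul_add, mul_one, sum_add_distrib]
  congr 1
  exact postS_sum hA hν _ x y

/-- Functions of the fibre see only the conditional mean. -/
theorem condE_sum (hν : ∀ x, 0 < ν x) (hA : s.A.PosDef)
    (hφ : ∀ x, ∀ z ∈ fib s.S x, φ z = φ x) (f : Conf n → ℝ) (y : Fin n → ℝ) :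
    ∑ x, φ x * ν x * chan s.A x y * f x = ∑ x, φ x * ν x * chan s.A x y * condE ν s f y x := by
  have h0 := condE_self hν hA hφ f y
  have h1 := condE_self hν hA hφ (fun z => f z + 1) y
  simp only [condE_shift hν hA, mul_add, add_mul, mul_one, one_mul, sum_add_distrib, pow_two] at h0 h1
  linarith

theorem cvY_nonneg (hν : ∀ x, 0 < ν x) (hA : s.A.PosDef) (hφ0 : ∀ x, 0 ≤ φ x) (f : Conf n → ℝ)
    (y : Fin n → ℝ) : 0 ≤ cvY ν s φ f y :=
  sum_nonneg fun _ _ => mul_nonneg
    (mul_nonneg (mul_nonneg (hφ0 _) (hν _).le) (chanV_pos hA _ _).le) (sq_nonneg _)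

/-- The conditional mean is the best function of the fibre. -/
theorem cvY_le (hν : ∀ x, 0 < ν x) (hA : s.A.PosDef) (hφ0 : ∀ x, 0 ≤ φ x)
    (hφ : ∀ x, ∀ z ∈ fib s.S x, φ z = φ x) (f g : Conf n → ℝ)
    (hg : ∀ x, ∀ z ∈ fib s.S x, g z = g x) (y : Fin n → ℝ) :
    cvY ν s φ f y ≤ ∑ x, φ x * ν x * chan s.A x y * (f x - g x) ^ 2 := by
  have hd : ∀ x, ∀ z ∈ fib s.S x,
      φ z * (condE ν s f y z - g z) = φ x * (condE ν s f y x - g x) :=
    fun x z hz => by rw [hφ x z hz, condE_const f y hz, hg x z hz]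
  have h := condE_sum hν hA hd f y
  have hsq : 0 ≤ ∑ x, φ x * ν x * chan s.A x y * (condE ν s f y x - g x) ^ 2 :=
    sum_nonneg fun _ _ => mul_nonneg
      (mul_nonneg (mul_nonneg (hφ0 _) (hν _).le) (chanV_pos hA _ _).le) (sq_nonneg _)
  have e : ∀ x, φ x * ν x * chan s.A x y * (f x - g x) ^ 2
      = φ x * ν x * chan s.A x y * (f x - condE ν s f y x) ^ 2
        + φ x * ν x * chan s.A x y * (condE ν s f y x - g x) ^ 2
        + 2 * (φ x * (condE ν s f y x - g x) * ν x * chan s.A x y * f x
          - φ x * (condE ν s f y x - g x) * ν x * chan s.A x y * condE ν s f y x) := fun x => by ring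
  rw [sum_congr rfl fun x _ => e x, sum_add_distrib, sum_add_distrib, ← mul_sum, sum_sub_distrib, h,
    sub_self, mul_zero, add_zero, cvY]
  linarith

theorem abs_condE_le (hν : ∀ x, 0 < ν x) (hA : s.A.PosDef) {M : ℝ} (hf : ∀ x, |f x| ≤ M)
    (y : Fin n → ℝ) (x : Conf n) : |condE ν s f y x| ≤ M := by
  refine (abs_sum_le_sum_abs _ _).trans ?_
  calc ∑ z, |pR ν s x y z * f z| ≤ ∑ z, pR ν s x y z * M := sum_le_sum fun z _ => by
        rw [abs_mul, pR, abs_of_nonneg (postS_nonneg hA hν _ x y z)]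
        exact mul_le_mul_of_nonneg_left (hf z) (postS_nonneg hA hν _ x y z)
    _ = M := by rw [← sum_mul, pR, postS_sum hA hν, one_mul]

/-- The indicator of one value at one site. -/
def onVal (i : Fin n) (b : Bool) (x : Conf n) : ℝ := if x i = b then 1 else 0

theorem onVal_nonneg (i : Fin n) (b : Bool) (x : Conf n) : 0 ≤ onVal i b x := by
  rw [onVal]; split <;> norm_num

/-- The step with site `i` pinned too. -/
def Step.freeze (s : Step n) (i : Fin n) : Step n := ⟨s.A, s.h, insert i s.S⟩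

theorem onVal_fib (s : Step n) (i : Fin n) (b : Bool) :
    ∀ x, ∀ z ∈ fib (s.freeze i).S x, onVal i b z = onVal i b x := fun x z hz => by
  have h := (mem_filter.1 hz).2 i (mem_insert_self i s.S)
  simp [onVal, h]

theorem fib_freeze (s : Step n) (i : Fin n) {x z : Conf n} (hz : z ∈ fib (s.freeze i).S x) :
    z ∈ fib s.S x :=
  mem_filter.2 ⟨mem_univ _, fun j hj => (mem_filter.1 hz).2 j (mem_insert_of_mem hj)⟩

/-- Freezing a site does not increase the conditional variance. -/
theorem cvY_freeze_le (hν : ∀ x, 0 < ν x) (hA : s.A.PosDef) (i : Fin n) (b : Bool)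
    (f : Conf n → ℝ) (y : Fin n → ℝ) :
    cvY ν (s.freeze i) (onVal i b) f y ≤ cvY ν s (fun _ => 1) f y := by
  refine (cvY_le (s := s.freeze i) hν hA (onVal_nonneg i b) (onVal_fib s i b) f (condE ν s f y)
    (fun x z hz => condE_const f y (fib_freeze s i hz)) y).trans (sum_le_sum fun x _ => ?_)
  refine mul_le_mul_of_nonneg_right (mul_le_mul_of_nonneg_right (mul_le_mul_of_nonneg_right ?_
    (hν x).le) (chanV_pos hA _ _).le) (sq_nonneg _)
  rw [onVal]; split <;> norm_num

/-- The weight of the configurations whose frozen partner is too light. -/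
noncomputable def lightAt (ν : Conf n → ℝ) (s : Step n) (i : Fin n) (τ : ℝ) (y : Fin n → ℝ) : ℝ :=
  ∑ x, if ν (flipAt x i) * chan s.A (flipAt x i) y < τ * (ν x * chan s.A x y)
    then ν x * chan s.A x y else 0

/-- For a function blind to a free site, the conditional variance is at most the frozen one, up to
light pairs. -/
theorem cvY_le_freeze (hν : ∀ x, 0 < ν x) (hA : s.A.PosDef) {i : Fin n} (hi : i ∉ s.S) (b : Bool)
    {τ M : ℝ} (hτ : 0 < τ) (hW : ∀ x, f (flipAt x i) = f x) (hfM : ∀ x, |f x| ≤ M)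
    (y : Fin n → ℝ) :
    cvY ν s (fun _ => 1) f y
      ≤ (1 + 1 / τ) * cvY ν (s.freeze i) (onVal i b) f y + 4 * M ^ 2 * lightAt ν s i τ y := by
  set g : Conf n → ℝ := fun x => condE ν (s.freeze i) f y (Function.update x i b) with hg
  have hgfib : ∀ x, ∀ z ∈ fib s.S x, g z = g x := fun x z hz => by
    refine condE_const f y (mem_filter.2 ⟨mem_univ _, fun j hj => ?_⟩)
    rcases mem_insert.1 hj with h | h
    · subst h; simp
    · have hji : j ≠ i := fun e => hi (by rw [← e]; exact h)
      rw [Function.update_of_ne hji, Function.update_of_ne hji]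
      exact (mem_filter.1 hz).2 j h
  refine (cvY_le hν hA (fun _ => zero_le_one) (fun _ _ _ => rfl) f g hgfib y).trans ?_
  rw [cvY, add_mul, one_mul, mul_sum]
  set G : Conf n → ℝ := fun x =>
    onVal i b x * ν x * chan s.A x y * (f x - condE ν (s.freeze i) f y x) ^ 2 with hG
  have hG0 : ∀ x, 0 ≤ G x := fun x => mul_nonneg
    (mul_nonneg (mul_nonneg (onVal_nonneg i b x) (hν x).le) (chanV_pos hA _ _).le) (sq_nonneg _)
  change _ ≤ ∑ x, G x + ∑ x, 1 / τ * G x + _
  rw [← Ent.sum_flip i (fun x => 1 / τ * G x), lightAt, mul_sum, ← sum_add_distrib,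
    ← sum_add_distrib]
  refine sum_le_sum fun x _ => ?_
  have h0 : 0 ≤ ν x * chan s.A x y := mul_nonneg (hν x).le (chanV_pos hA _ _).le
  have hl0 : (0 : ℝ) ≤ 4 * M ^ 2 * (if ν (flipAt x i) * chan s.A (flipAt x i) y
      < τ * (ν x * chan s.A x y) then ν x * chan s.A x y else 0) := by
    refine mul_nonneg (by positivity) ?_
    split
    · exact h0
    · exact le_rfl
  have h1 : (0 : ℝ) ≤ 1 / τ * G (flipAt x i) := mul_nonneg (by positivity) (hG0 _)
  rw [one_mul]
  by_cases hx : x i = b
  · have e : G x = ν x * chan s.A x y * (f x - g x) ^ 2 := by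
      have hux : Function.update x i b = x := by rw [← hx, Function.update_eq_self]
      simp only [hG, hg, onVal, hx, if_true, one_mul, hux]
    linarith
  · have hfl : flipAt x i i = b := by
      have : flipAt x i i = !x i := by simp [flipAt]
      rw [this]; cases hxi : x i <;> cases b <;> simp_all
    have hu : flipAt x i = Function.update x i b := by
      rw [← hfl]; simp [flipAt]
    have eG : G (flipAt x i) = ν (flipAt x i) * chan s.A (flipAt x i) y * (f x - g x) ^ 2 := by
      simp only [hG, hg, ← hu, hW, onVal, hfl, if_true, one_mul]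
    have hGx : 0 ≤ G x := hG0 x
    by_cases hl : ν (flipAt x i) * chan s.A (flipAt x i) y < τ * (ν x * chan s.A x y)
    · rw [if_pos hl] at hl0 ⊢
      have hd : (f x - g x) ^ 2 ≤ (2 * M) ^ 2 := by
        have hgM : |g x| ≤ M := abs_condE_le (s := s.freeze i) hν hA hfM y _
        refine sq_le_sq' ?_ ?_ <;> linarith [abs_le.1 (hfM x), abs_le.1 hgM]
      have := mul_le_mul_of_nonneg_left hd h0
      linarith
    · rw [if_neg hl, mul_zero, add_zero, eG, one_div_mul_eq_div]
      have := mul_le_mul_of_nonneg_right (not_lt.1 hl) (sq_nonneg (f x - g x))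
      have : ν x * chan s.A x y * (f x - g x) ^ 2
          ≤ ν (flipAt x i) * chan s.A (flipAt x i) y * (f x - g x) ^ 2 / τ := by
        rw [le_div_iff₀ hτ]; linarith
      linarith

/-- Shifting the field along `A eᵢ`. -/
theorem chanV_shift {A : Matrix (Fin n) (Fin n) ℝ} (hA : A.PosDef) (v y : Fin n → ℝ) (i : Fin n)
    (t : ℝ) : chanV A v y
      = exp (t * (y - v) i + t ^ 2 * A i i / 2) * chanV A v (y + t • (A *ᵥ Pi.single i 1)) := by
  have e : (y + t • (A *ᵥ Pi.single i 1) - v) ⬝ᵥ (A⁻¹ *ᵥ (y + t • (A *ᵥ Pi.single i 1) - v))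
      = (y - v) ⬝ᵥ (A⁻¹ *ᵥ (y - v)) + 2 * t * (y - v) i + t ^ 2 * A i i := by
    rw [show y + t • (A *ᵥ Pi.single i 1) - v = (y - v) + t • (A *ᵥ Pi.single i 1) by abel]
    generalize y - v = p
    rw [Matrix.mulVec_add, Matrix.mulVec_smul]
    simp only [add_dotProduct, dotProduct_add, smul_dotProduct, dotProduct_smul, smul_eq_mul]
    rw [dot_inv_symm hA p (A *ᵥ Pi.single i 1), dot_inv_mul hA, dot_inv_mul hA, single_dotProduct,
      single_dotProduct, Matrix.mulVec_single_one, Matrix.col_apply]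
    ring
  simp only [chanV]
  rw [e, mul_div_assoc', ← exp_add]
  congr 2
  ring

end Vale.Agent.P150.Fast
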