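import Mathlib
import Vale.Agent.P150.Fast.Cavity.CondVar

/-!
Steps reweighted by a bounded weight of the field whose mean is the same at every supported state:
positive reversible kernels, with the mean weighted conditional variance as Dirichlet form (P150).
-/

open MeasureTheory Real Finset
open scoped Matrix

namespace Vale.Agent.P150.Fast

variable {n : ℕ} {ν : Conf n → ℝ} {s : Step n} {φ : Conf n → ℝ} {G : (Fin n → ℝ) → ℝ} {P M : ℝ}

/-- A weight of the field usable in a step: nonnegative, bounded, of mean `P` at supported states. -/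
structure SliceW (s : Step n) (φ : Conf n → ℝ) (G : (Fin n → ℝ) → ℝ) (P M : ℝ) : Prop where
  meas : Measurable G
  nn : ∀ y, 0 ≤ G y
  bdd : ∀ y, G y ≤ M
  pos : 0 < P
  mass : ∀ x, φ x ≠ 0 → ∫ y, chan s.A x y * G y = P

/-- The reweighted step; unsupported states do not move. -/
noncomputable def sliceKer (ν : Conf n → ℝ) (s : Step n) (φ : Conf n → ℝ) (G : (Fin n → ℝ) → ℝ)
    (P : ℝ) (x z : Conf n) : ℝ :=
  if φ x = 0 then (if z = x then 1 else 0) else (∫ y, chan s.A x y * G y * pR ν s x y z) / P

theorem slice_integrable (hA : s.A.PosDef) (hG : SliceW s φ G P M) (x : Conf n)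
    {H : (Fin n → ℝ) → ℝ} (hH : Measurable H) {B : ℝ} (hB : ∀ y, |H y| ≤ B) :
    Integrable fun y => chan s.A x y * G y * H y := by
  have h : Integrable fun y => chanV s.A (s.A *ᵥ vec x) y * (G y * H y) :=
    chanV_bdd hA _ (hG.meas.mul hH) (M := M * B) fun y => by
      rw [abs_mul, abs_of_nonneg (hG.nn y)]
      exact mul_le_mul (hG.bdd y) (hB y) (abs_nonneg _) ((hG.nn y).trans (hG.bdd y))
  exact h.congr (ae_of_all _ fun y => by simp only [chan_eq]; ring)

theorem measurable_condE (f : Conf n → ℝ) (x : Conf n) :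
    Measurable fun y => condE ν s f y x :=
  Finset.measurable_sum _ fun z _ => (measurable_postS s.A s.S x z).mul_const _

theorem abs_le_sum_abs (f : Conf n → ℝ) (x : Conf n) : |f x| ≤ ∑ z, |f z| :=
  single_le_sum (f := fun z => |f z|) (fun _ _ => abs_nonneg _) (mem_univ x)

theorem sliceKer_apply (hν : ∀ x, 0 < ν x) (hA : s.A.PosDef) (hG : SliceW s φ G P M)
    (f : Conf n → ℝ) (x : Conf n) :
    φ x * ∑ z, sliceKer ν s φ G P x z * f z
      = φ x * ((∫ y, chan s.A x y * G y * condE ν s f y x) / P) := by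
  by_cases hx : φ x = 0
  · simp [hx]
  congr 1
  simp only [sliceKer, if_neg hx, div_mul_eq_mul_div, ← Finset.sum_div, condE, mul_sum, ← mul_assoc]
  rw [integral_finsetSum _ fun z _ => ((slice_integrable hA hG x (measurable_postS s.A s.S x z)
    fun y => postS_le_one hA hν _ x y z).mul_const _ :
      Integrable fun y => chan s.A x y * G y * pR ν s x y z * f z)]
  congr 1
  exact sum_congr rfl fun z _ => (integral_mul_const _ _).symm

theorem slice_condE_integrable (hν : ∀ x, 0 < ν x) (hA : s.A.PosDef) (hG : SliceW s φ G P M)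
    (c : ℝ) (f : Conf n → ℝ) (x : Conf n) :
    Integrable fun y => c * (chan s.A x y * G y * condE ν s f y x) :=
  (slice_integrable hA hG x (measurable_condE f x)
    fun y => abs_condE_le hν hA (abs_le_sum_abs f) y x).const_mul c

theorem ip_sliceKer (hν : ∀ x, 0 < ν x) (hA : s.A.PosDef) (hG : SliceW s φ G P M)
    (hφ : ∀ x, ∀ z ∈ fib s.S x, φ z = φ x) (f : Conf n → ℝ) :
    ∑ x, φ x * ν x * f x * ∑ z, sliceKer ν s φ G P x z * f z
      = (∫ y, G y * ∑ x, φ x * ν x * chan s.A x y * condE ν s f y x ^ 2) / P := by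
  calc ∑ x, φ x * ν x * f x * ∑ z, sliceKer ν s φ G P x z * f z
      = (∑ x, ∫ y, φ x * ν x * f x * (chan s.A x y * G y * condE ν s f y x)) / P := by
        rw [sum_div]
        refine sum_congr rfl fun x _ => ?_
        rw [integral_const_mul, mul_comm (φ x) (ν x), mul_assoc (ν x), mul_comm (φ x) (f x),
          ← mul_assoc, mul_assoc (ν x * f x), sliceKer_apply hν hA hG, mul_div_assoc]
        ring
    _ = _ := by
        rw [← integral_finsetSum _ fun x _ => slice_condE_integrable hν hA hG _ f x]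
        congr 1
        refine integral_congr_ae (ae_of_all _ fun y => ?_)
        simp only
        rw [← condE_self hν hA hφ, mul_sum]
        exact sum_congr rfl fun x _ => by ring

theorem sliceKer_isPsd (hν : ∀ x, 0 < ν x) (hA : s.A.PosDef) (hG : SliceW s φ G P M)
    (hφ0 : ∀ x, 0 ≤ φ x) (hφ : ∀ x, ∀ z ∈ fib s.S x, φ z = φ x) :
    IsPsdKer (fun x => φ x * ν x) (sliceKer ν s φ G P) where
  wnn x := mul_nonneg (hφ0 x) (hν x).le
  nn x z := by
    unfold sliceKer
    by_cases hx : φ x = 0
    · rw [if_pos hx]; split <;> norm_num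
    · rw [if_neg hx]
      exact div_nonneg (integral_nonneg fun y => mul_nonneg (mul_nonneg (chanV_pos hA _ _).le
        (hG.nn y)) (postS_nonneg hA hν _ x y z)) hG.pos.le
  row x := by
    unfold sliceKer
    by_cases hx : φ x = 0
    · simp [hx]
    · simp only [if_neg hx, ← Finset.sum_div]
      simp only [pR]
      rw [← integral_finsetSum _ fun z _ => slice_integrable hA hG x
        (measurable_postS s.A s.S x z) fun y => postS_le_one hA hν _ x y z]
      simp only [← mul_sum, postS_sum hA hν, mul_one, hG.mass x hx, div_self hG.pos.ne']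
  symm x z := by
    change φ x * ν x * sliceKer ν s φ G P x z = φ z * ν z * sliceKer ν s φ G P z x
    by_cases hz : z ∈ fib s.S x
    · by_cases hx : φ x = 0
      · simp [hx, hφ x z hz]
      · simp only [sliceKer, hφ x z hz, if_neg hx, mul_div_assoc', ← integral_const_mul]
        congr 1
        refine integral_congr_ae (ae_of_all _ fun y => ?_)
        simp only [pR, postS, if_pos hz, fib_eq hz,
          if_pos (show x ∈ fib s.S x from mem_filter.2 ⟨mem_univ _, fun _ _ => rfl⟩)]
        ring
    · have h : ∀ a b, b ∉ fib s.S a → φ a * ν a * sliceKer ν s φ G P a b = 0 := fun a b hb => by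
        by_cases ha : φ a = 0
        · simp [ha]
        · simp [sliceKer, ha, pR, postS, hb]
      rw [h x z hz, h z x (mt mem_fib_comm.2 hz)]
  psd f := by
    rw [ip_sliceKer hν hA hG hφ]
    exact div_nonneg (integral_nonneg fun y => mul_nonneg (hG.nn y) (sum_nonneg fun x _ =>
      mul_nonneg (mul_nonneg (mul_nonneg (hφ0 x) (hν x).le) (chanV_pos hA _ _).le)
        (sq_nonneg _))) hG.pos.le

/-- The Dirichlet form of a kernel. -/
def kForm {ι : Type*} [Fintype ι] (w : ι → ℝ) (K : ι → ι → ℝ) (f : ι → ℝ) : ℝ :=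
  ip w f f - ip w f (powOp K 1 f)

theorem cvY_integrable (hν : ∀ x, 0 < ν x) (hA : s.A.PosDef) (φ f : Conf n → ℝ)
    {G : (Fin n → ℝ) → ℝ} (hG : Measurable G) {M : ℝ} (hM : ∀ y, |G y| ≤ M) :
    Integrable fun y => G y * cvY ν s φ f y := by
  simp only [cvY, mul_sum]
  refine integrable_finsetSum _ fun x _ => ?_
  have hM0 : 0 ≤ M := (abs_nonneg _).trans (hM 0)
  have h : Integrable fun y =>
      chanV s.A (s.A *ᵥ vec x) y * (φ x * ν x * (G y * (f x - condE ν s f y x) ^ 2)) :=
    chanV_bdd hA _ ((hG.mul (((measurable_condE f x).const_sub (f x)).pow_const 2)).const_mul _)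
      (M := |φ x * ν x| * (M * (2 * ∑ z, |f z|) ^ 2)) fun y => by
        rw [abs_mul, abs_mul (G y), abs_of_nonneg (sq_nonneg (f x - condE ν s f y x))]
        refine mul_le_mul_of_nonneg_left (mul_le_mul (hM y) ?_ (sq_nonneg _) hM0) (abs_nonneg _)
        obtain ⟨a, b⟩ := abs_le.1 (abs_le_sum_abs f x)
        obtain ⟨c, d⟩ := abs_le.1 (abs_condE_le (s := s) hν hA (abs_le_sum_abs f) y x)
        exact sq_le_sq' (by linarith) (by linarith)
  exact h.congr (ae_of_all _ fun y => by simp only [chan_eq]; ring)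

theorem kForm_ker (hν : ∀ x, 0 < ν x) (hA : s.A.PosDef)
    (hφ : ∀ x, ∀ z ∈ fib s.S x, φ z = φ x) (f : Conf n → ℝ) :
    kForm (fun x => φ x * ν x) (kerOf (pR ν) s) f = ∫ y, cvY ν s φ f y :=
  form_eq_condVar hν hA hφ f

theorem kForm_slice (hν : ∀ x, 0 < ν x) (hA : s.A.PosDef) (hG : SliceW s φ G P M)
    (hφ : ∀ x, ∀ z ∈ fib s.S x, φ z = φ x) (f : Conf n → ℝ) :
    kForm (fun x => φ x * ν x) (sliceKer ν s φ G P) f = (∫ y, G y * cvY ν s φ f y) / P := by
  change ∑ x, φ x * ν x * f x * f x
    - ∑ x, φ x * ν x * f x * (∑ z, sliceKer ν s φ G P x z * f z) = _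
  rw [ip_sliceKer hν hA hG hφ, eq_div_iff hG.pos.ne', sub_mul, div_mul_cancel₀ _ hG.pos.ne',
    sum_mul]
  have i0 : ∀ x, Integrable fun y => φ x * ν x * f x * f x * (chan s.A x y * G y) := fun x => by
    have := slice_integrable hA hG x (measurable_const (a := (1 : ℝ))) fun _ => (abs_one).le
    simp only [mul_one] at this
    exact this.const_mul _
  have i1 := fun x => slice_condE_integrable hν hA hG (φ x * ν x * f x) f x
  have e0 : ∀ x, φ x * ν x * f x * f x * P
      = ∫ y, φ x * ν x * f x * f x * (chan s.A x y * G y) := fun x => by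
    rw [integral_const_mul]
    by_cases hx : φ x = 0
    · simp [hx]
    · rw [hG.mass x hx]
  have e1 : ∀ y, G y * ∑ x, φ x * ν x * chan s.A x y * condE ν s f y x ^ 2
      = ∑ x, φ x * ν x * f x * (chan s.A x y * G y * condE ν s f y x) := fun y => by
    rw [← condE_self hν hA hφ, mul_sum]
    exact sum_congr rfl fun x _ => by ring
  simp only [e0, e1]
  rw [← integral_finsetSum _ fun x _ => i0 x,
    ← integral_sub (integrable_finsetSum _ fun x _ => i0 x) (integrable_finsetSum _ fun x _ => i1 x)]
  refine integral_congr_ae (ae_of_all _ fun y => ?_)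
  simp only
  have hs := condE_self hν hA hφ f y
  have h2 : ∀ x, φ x * ν x * chan s.A x y * (f x - condE ν s f y x) ^ 2
      = φ x * ν x * f x * f x * chan s.A x y
        - 2 * (φ x * ν x * chan s.A x y * (f x * condE ν s f y x))
        + φ x * ν x * chan s.A x y * condE ν s f y x ^ 2 := fun x => by ring
  rw [cvY, sum_congr rfl fun x _ => h2 x, sum_add_distrib, sum_sub_distrib, ← mul_sum, ← hs,
    ← sum_sub_distrib, mul_add, mul_sub, mul_sum, mul_sum, mul_sum, mul_sum, ← sum_sub_distrib,
    ← sum_add_distrib]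
  exact sum_congr rfl fun x _ => by ring

/-- A reweighted frozen step has at most the form of the free step. -/
theorem slice_le_normal (hν : ∀ x, 0 < ν x) (hA : s.A.PosDef) {i : Fin n} {b : Bool}
    (hG : SliceW (s.freeze i) (onVal i b) G P M) (f : Conf n → ℝ) :
    kForm (fun x => onVal i b x * ν x) (sliceKer ν (s.freeze i) (onVal i b) G P) f
      ≤ M / P * kForm (fun x => (1 : ℝ) * ν x) (kerOf (pR ν) s) f := by
  rw [kForm_slice (s := s.freeze i) hν hA hG (onVal_fib s i b),
    kForm_ker (φ := fun _ => 1) hν hA (fun _ _ _ => rfl), div_mul_eq_mul_div, ← integral_const_mul]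
  refine div_le_div_of_nonneg_right (integral_mono
    (cvY_integrable (s := s.freeze i) hν hA _ f hG.meas (M := M)
      fun y => by rw [abs_of_nonneg (hG.nn y)]; exact hG.bdd y)
    (cvY_integrable hν hA _ f measurable_const (M := |M|) fun _ => le_rfl) fun y => ?_) hG.pos.le
  exact mul_le_mul (hG.bdd y) (cvY_freeze_le hν hA i b f y)
    (cvY_nonneg (s := s.freeze i) hν hA (onVal_nonneg i b) f y) ((hG.nn y).trans (hG.bdd y))

end Vale.Agent.P150.Fast
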