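import Mathlib
import Vale.Agent.P150.Fast.Cond
import Vale.Agent.P150.Fast.Cavity.Gibbs
import Vale.Agent.P150.Fast.Cavity.SliceKer

/-!
Linear forms of the noise of the channel are normal: slice masses and tails (P150).
-/

open MeasureTheory ProbabilityTheory Real Finset
open scoped Matrix

namespace Vale.Agent.P150.Fast

variable {n : ℕ} {A : Matrix (Fin n) (Fin n) ℝ}

theorem lin_map {ι : Type} [Fintype ι] (a : ι → ℝ) :
    (gp ι).map (lin a) = gaussianReal 0 (∑ i, a i ^ 2).toNNReal := by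
  have hm : Measurable (lin a) := (continuous_lin a).measurable
  have : IsProbabilityMeasure ((gp ι).map (lin a)) :=
    Measure.isProbabilityMeasure_map hm.aemeasurable
  refine Measure.ext_of_charFun (funext fun x => ?_)
  rw [charFun_apply_real, charFun_gaussianReal, integral_map hm.aemeasurable (by fun_prop)]
  have h := lin_law a x
  push_cast at h
  rw [h]
  congr 1
  rw [Real.coe_toNNReal _ (sum_nonneg fun i _ => sq_nonneg _)]
  push_cast
  ring

/-- A linear form of the noise of the channel is normal. -/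
theorem chanV_lin (hA : A.PosDef) (v c : Fin n → ℝ) {F : ℝ → ℝ} (hF : Measurable F) :
    ∫ y, chanV A v y * F (c ⬝ᵥ (y - v)) = nE 0 (c ⬝ᵥ (A *ᵥ c)) F := by
  obtain ⟨B, hB, hd⟩ := exists_root hA
  have hv : ∑ k, (B.transpose *ᵥ c) k ^ 2 = c ⬝ᵥ (A *ᵥ c) := by
    rw [← hB, ← Matrix.mulVec_mulVec, Matrix.dotProduct_mulVec, ← Matrix.mulVec_transpose]
    simp only [dotProduct, pow_two]
  rw [(chan_integral hB hd v fun y => F (c ⬝ᵥ (y - v))).1, nE]
  have e : ∀ g, c ⬝ᵥ (v + B *ᵥ g - v) = lin (B.transpose *ᵥ c) g := fun g => by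
    rw [add_sub_cancel_left, Matrix.dotProduct_mulVec, ← Matrix.mulVec_transpose, lin, dotProduct]
    exact sum_congr rfl fun i _ => mul_comm _ _
  simp only [e, zero_add]
  have hv0 : 0 ≤ c ⬝ᵥ (A *ᵥ c) := hv ▸ sum_nonneg fun i _ => sq_nonneg _
  have h1 := integral_map (μ := gp (Fin n)) (continuous_lin (B.transpose *ᵥ c)).measurable.aemeasurable
    (f := F) hF.aestronglyMeasurable
  have h2 := integral_map (μ := gaussianReal 0 1)
    (φ := fun g : ℝ => √(c ⬝ᵥ (A *ᵥ c)) * g) (by fun_prop) (f := F) hF.aestronglyMeasurable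
  rw [← h1, ← h2, lin_map, hv, gaussianReal_map_const_mul]
  congr 2
  · simp
  · rw [mul_one]
    ext
    push_cast
    rw [Real.coe_toNNReal _ hv0, sq_sqrt hv0]

/-- The indicator of `|u| > B`. -/
noncomputable def outB (B u : ℝ) : ℝ := if B < |u| then 1 else 0

theorem outB_mem (B u : ℝ) : 0 ≤ outB B u ∧ outB B u ≤ 1 := by
  rw [outB]; split <;> norm_num

@[fun_prop]
theorem measurable_outB (B : ℝ) : Measurable (outB B) :=
  Measurable.ite (measurableSet_lt measurable_const measurable_norm) measurable_const measurable_const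

theorem nE_tail {v : ℝ} (hv : 0 ≤ v) {B t : ℝ} (ht : 0 ≤ t) :
    nE 0 v (outB B) ≤ 2 * exp (t ^ 2 * v / 2 - t * B) := by
  have ip := integrable_exp_affine 0 v t
  have im := integrable_exp_affine 0 v (-t)
  have hi : Integrable (fun g => outB B (0 + √v * g)) (gaussianReal 0 1) :=
    Integrable.of_bound ((measurable_outB B).comp (by fun_prop)).aestronglyMeasurable 1
      (.of_forall fun g => by
        rw [Real.norm_eq_abs, abs_of_nonneg (outB_mem _ _).1]; exact (outB_mem _ _).2)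
  have h : nE 0 v (outB B)
      ≤ exp (-(t * B)) * (nE 0 v (fun u => exp (t * u)) + nE 0 v (fun u => exp (-t * u))) := by
    simp only [nE]
    rw [← integral_add ip im, ← integral_const_mul]
    refine integral_mono hi ((ip.add im).const_mul _) fun g => ?_
    simp only [outB]
    split_ifs with hu
    · rw [mul_add, ← exp_add, ← exp_add]
      rcases lt_abs.1 hu with h | h
      · have := one_le_exp (show 0 ≤ -(t * B) + t * (0 + √v * g) by nlinarith)
        linarith [exp_pos (-(t * B) + -t * (0 + √v * g))]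
      · have := one_le_exp (show 0 ≤ -(t * B) + -t * (0 + √v * g) by nlinarith)
        linarith [exp_pos (-(t * B) + t * (0 + √v * g))]
    · positivity
  refine h.trans_eq ?_
  simp only [nE_exp 0 hv, mul_zero, zero_add, neg_sq]
  rw [← two_mul, mul_left_comm,
    ← exp_add]
  ring_nf

theorem dot_single (v : Fin n → ℝ) (i : Fin n) : Pi.single i 1 ⬝ᵥ v = v i := by
  rw [single_dotProduct, one_mul]

theorem sym_inv_mulVec (hA : A.PosDef) (i : Fin n) (w : Fin n → ℝ) :
    (A⁻¹ *ᵥ Pi.single i 1) ⬝ᵥ w = (A⁻¹ *ᵥ w) i := by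
  rw [dotProduct_comm, dot_inv_symm hA, dot_single]

theorem inv_quad (hA : A.PosDef) (i : Fin n) :
    (A⁻¹ *ᵥ Pi.single i 1) ⬝ᵥ (A *ᵥ (A⁻¹ *ᵥ Pi.single i 1)) = A⁻¹ i i := by
  rw [Matrix.mulVec_mulVec, Matrix.mul_nonsing_inv _ (Ne.isUnit hA.det_pos.ne'), Matrix.one_mulVec,
    dotProduct_comm, dot_single, Matrix.mulVec_single_one, Matrix.col_apply]

theorem coord_quad (i : Fin n) : Pi.single i 1 ⬝ᵥ (A *ᵥ Pi.single i 1) = A i i := by
  rw [dot_single, Matrix.mulVec_single_one, Matrix.col_apply]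

/-- The noise coordinate of a field, seen from a spin. -/
noncomputable def sliceU (A : Matrix (Fin n) (Fin n) ℝ) (i : Fin n) (b : Bool) (y : Fin n → ℝ) : ℝ :=
  (A⁻¹ *ᵥ y) i - spin b

@[fun_prop]
theorem continuous_sliceU (A : Matrix (Fin n) (Fin n) ℝ) (i : Fin n) (b : Bool) :
    Continuous (sliceU A i b) := by
  unfold sliceU Matrix.mulVec dotProduct
  fun_prop

theorem sliceU_eq (hA : A.PosDef) (i : Fin n) {b : Bool} {x : Conf n} (hx : x i = b)
    (y : Fin n → ℝ) : sliceU A i b y = (A⁻¹ *ᵥ Pi.single i 1) ⬝ᵥ (y - A *ᵥ vec x) := by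
  rw [sym_inv_mulVec hA, Matrix.mulVec_sub, Matrix.mulVec_mulVec,
    Matrix.nonsing_inv_mul _ (Ne.isUnit hA.det_pos.ne'), Matrix.one_mulVec, Pi.sub_apply, sliceU,
    vec, hx]

/-- The mean of a weight of the noise coordinate depends only on `(A⁻¹)ᵢᵢ`. -/
theorem slice_mass (hA : A.PosDef) (i : Fin n) {b : Bool} {x : Conf n} (hx : x i = b) {g : ℝ → ℝ}
    (hg : Measurable g) : ∫ y, chan A x y * g (sliceU A i b y) = nE 0 (A⁻¹ i i) g := by
  simp only [sliceU_eq hA i hx, chan_eq]
  rw [chanV_lin hA _ _ hg, inv_quad hA]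

/-- A weight of the noise coordinate is a slice weight. -/
theorem sliceW_of (hA : A.PosDef) (h : Fin n → ℝ) (S : Finset (Fin n)) (i : Fin n) (b : Bool)
    {g : ℝ → ℝ} (hg : Measurable g) (hg0 : ∀ u, 0 ≤ g u) {M : ℝ} (hM : ∀ u, g u ≤ M)
    (hP : 0 < nE 0 (A⁻¹ i i) g) :
    SliceW ((⟨A, h, S⟩ : Step n).freeze i) (onVal i b) (fun y => g (sliceU A i b y))
      (nE 0 (A⁻¹ i i) g) M where
  meas := hg.comp (continuous_sliceU A i b).measurable
  nn _ := hg0 _
  bdd _ := hM _
  pos := hP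
  mass x hx := by
    refine slice_mass hA i ?_ hg
    by_contra hne
    exact hx (by simp [onVal, hne])

theorem tail_coord (hA : A.PosDef) (i : Fin n) (x : Conf n) {B t : ℝ} (ht : 0 ≤ t) :
    ∫ y, chan A x y * outB B ((y - A *ᵥ vec x) i) ≤ 2 * exp (t ^ 2 * A i i / 2 - t * B) := by
  simp only [← dot_single (_ - _) i, chan_eq]
  rw [chanV_lin hA _ _ (measurable_outB B), coord_quad]
  exact nE_tail hA.diag_pos.le ht

theorem inv_diag_nonneg (hA : A.PosDef) (i : Fin n) : 0 ≤ A⁻¹ i i := hA.inv.diag_pos.le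

theorem tail_noise (hA : A.PosDef) (i : Fin n) {b : Bool} {x : Conf n} (hx : x i = b) {B t : ℝ}
    (ht : 0 ≤ t) :
    ∫ y, chan A x y * outB B (sliceU A i b y) ≤ 2 * exp (t ^ 2 * A⁻¹ i i / 2 - t * B) := by
  rw [slice_mass hA i hx (measurable_outB B)]
  exact nE_tail (inv_diag_nonneg hA i) ht

end Vale.Agent.P150.Fast
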