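import Mathlib
import Vale.Agent.P150.Fast.CurvStmt
import Vale.Agent.P150.Fast.Path
import Vale.Agent.P150.Fast.Cavity.Gibbs

/-!
Exported statements of the module M4 for P150: at low single-site entropy every site sees, given
the far past, a normal coupling field of variance `R = β² (1 - q)`, and its magnetisation is the
hyperbolic tangent of the cavity field.
-/

open MeasureTheory Real Finset Filter
open scoped Matrix

namespace Vale.Agent.P150.Fast

variable {n : ℕ}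

/-- The coupling fields at a state. -/
noncomputable def zField (β : ℝ) (d : Dis n) (x : Conf n) : Fin n → ℝ := kmat n β d *ᵥ vec x

/-- The law of the side field of strength `u` seen from the prior `ν`. -/
noncomputable def fieldE (u : ℝ) (ν : Conf n → ℝ) (G : (Fin n → ℝ) → ℝ) : ℝ :=
  ∑ x, ν x * ∫ g, G (sideField u x g) ∂gp (Fin n)

/-- `T` steps of the alternation of the prior after the field, with pins `S`. -/
noncomputable def farOp (β : ℝ) (d : Dis n) (s : ℝ) (ν : Conf n → ℝ) (h : Fin n → ℝ)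
    (S : Finset (Fin n)) (T : ℕ) (f : Conf n → ℝ) : Conf n → ℝ :=
  powOp (kerOf (pR (priorAt (aop n β d) s ν h)) ⟨(1 - s) • aop n β d, h, S⟩) T f

/-- The magnetisation given the state `T` steps before. -/
noncomputable def farMag (β : ℝ) (d : Dis n) (s : ℝ) (ν : Conf n → ℝ) (h : Fin n → ℝ)
    (S : Finset (Fin n)) (T : ℕ) (g : Conf n) (i : Fin n) : ℝ :=
  farOp β d s ν h S T (fun x => vec x i) g

/-- The overlap `|m|² / n`. -/
noncomputable def farQ (β : ℝ) (d : Dis n) (s : ℝ) (ν : Conf n → ℝ) (h : Fin n → ℝ)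
    (S : Finset (Fin n)) (T : ℕ) (g : Conf n) : ℝ :=
  (n : ℝ)⁻¹ * ∑ i, farMag β d s ν h S T g i ^ 2

/-- The variance of the coupling field. -/
noncomputable def farR (β : ℝ) (d : Dis n) (s : ℝ) (ν : Conf n → ℝ) (h : Fin n → ℝ)
    (S : Finset (Fin n)) (T : ℕ) (g : Conf n) : ℝ :=
  β ^ 2 * (1 - farQ β d s ν h S T g)

/-- The cavity field: the mean coupling field less the reaction. -/
noncomputable def farMu (β : ℝ) (d : Dis n) (s : ℝ) (ν : Conf n → ℝ) (h : Fin n → ℝ)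
    (S : Finset (Fin n)) (T : ℕ) (g : Conf n) (i : Fin n) : ℝ :=
  farOp β d s ν h S T (fun x => zField β d x i) g
    - (1 - s) * farR β d s ν h S T g * farMag β d s ν h S T g i

/-- The distance of the free sites from the cavity picture, in mean, for the tests `Fs`. -/
noncomputable def cavErr (β : ℝ) (d : Dis n) (s : ℝ) (ν : Conf n → ℝ) (h : Fin n → ℝ)
    (S : Finset (Fin n)) (T : ℕ) (Fs : Finset (ℝ → ℝ)) : ℝ :=
  ∑ g, priorAt (aop n β d) s ν h g * ((n : ℝ)⁻¹ * ∑ i ∈ Sᶜ,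
    (|farMag β d s ν h S T g i - tanh ((1 - s) * farMu β d s ν h S T g i + h i)|
      + ∑ F ∈ Fs, ∑ b : Bool,
        |farOp β d s ν h S T (fun x => if x i = b then F (zField β d x i) else 0) g
          - (1 + spin b * farMag β d s ν h S T g i) / 2
            * nE (farMu β d s ν h S T g i + spin b * ((1 - s) * farR β d s ν h S T g))
                (farR β d s ν h S T g) F|))

/-- A test: continuous, bounded by one and one-Lipschitz. -/
def IsTest1 (F : ℝ → ℝ) : Prop := (∀ u, |F u| ≤ 1) ∧ ∀ u v, |F u - F v| ≤ |u - v|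

/-- The cavity picture, uniformly over priors and pins, without side field. -/
def CavityStmt (β : ℝ) : Prop :=
  ∀ θ : ℝ, 0 < θ → ∀ Fs : Finset (ℝ → ℝ), (∀ F ∈ Fs, IsTest1 F) →
    ∃ (η : ℝ) (Tmax : ℕ), 0 < η ∧ ∀ δ : ℝ, 0 < δ → ∀ᶠ n : ℕ in atTop,
      (disX n).real {d | ¬ ∀ (ν : Conf n → ℝ) (S : Finset (Fin n)), (∀ x, 0 < ν x) →
        ∑ x, ν x = 1 →
        fieldE 0 ν (fun h => freeD (priorAt (aop n β d) 0 ν h) ⟨aop n β d, h, S⟩) ≤ η * n →
        ∃ T ≤ Tmax, fieldE 0 ν (fun h => cavErr β d 0 ν h S T Fs) ≤ θ} ≤ δ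

/-- A window functional: a weighted average over sites of products along a path and a test of the
coupling field at its end. -/
noncomputable def siteTest {r : ℕ} (K : Matrix (Fin n) (Fin n) ℝ) (σ : Fin r → Step n)
    (ψ : Fin r → Fin n → ℝ → ℝ → Bool → ℝ) (F : Fin n → ℝ → ℝ) (c : Fin n → ℝ) (x : Conf n)
    (ω : Fin r → (Fin n → ℝ) × Conf n) : ℝ :=
  (n : ℝ)⁻¹ * ∑ i, c i * ((∏ b, ψ b i (((σ b).A⁻¹ *ᵥ (ω b).1) i) ((ω b).1 i) ((ω b).2 i))
    * F i ((K *ᵥ vec (endAt x ω)) i))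

/-- `F` is bounded by `B` with two derivatives bounded by `B`. -/
def SmoothBd (B : ℝ) (F : ℝ → ℝ) : Prop :=
  ∃ F' F'' : ℝ → ℝ, (∀ u, HasDerivAt F (F' u) u) ∧ (∀ u, HasDerivAt F' (F'' u) u) ∧
    Continuous F'' ∧ ∀ u, |F u| ≤ B ∧ |F' u| ≤ B ∧ |F'' u| ≤ B

/-- `ψ` is bounded by `B` with bounded continuous partial derivatives in its real arguments. -/
def SmoothBd2 (B : ℝ) (ψ : ℝ → ℝ → Bool → ℝ) : Prop :=
  ∃ d₁ d₂ : ℝ → ℝ → Bool → ℝ, (∀ b, Continuous fun p : ℝ × ℝ => d₁ p.1 p.2 b) ∧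
    (∀ b, Continuous fun p : ℝ × ℝ => d₂ p.1 p.2 b) ∧
    ∀ u v b, HasDerivAt (fun t => ψ t v b) (d₁ u v b) u ∧ HasDerivAt (fun t => ψ u t b) (d₂ u v b) v ∧
      |ψ u v b| ≤ B ∧ |d₁ u v b| ≤ B ∧ |d₂ u v b| ≤ B

/-- Window functionals concentrate under the reference chain, from every start. -/
def SiteTestStmt : Prop :=
  ∀ (r : ℕ) (L lam B : ℝ), 0 ≤ L → 0 < lam → 0 ≤ B → ∃ C : ℝ, 0 ≤ C ∧
    ∀ (n : ℕ) (σ : Fin r → Step n), 1 ≤ n → (∀ t, (σ t).Good L) →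
      (∀ t (v : Fin n → ℝ), lam * ∑ i, v i ^ 2 ≤ v ⬝ᵥ ((σ t).A *ᵥ v)) →
      ∀ (K : Matrix (Fin n) (Fin n) ℝ), K.transpose = K →
        (∀ v : Fin n → ℝ, |v ⬝ᵥ (K *ᵥ v)| ≤ L * ∑ i, v i ^ 2) →
      ∀ (ψ : Fin r → Fin n → ℝ → ℝ → Bool → ℝ) (F : Fin n → ℝ → ℝ),
        (∀ b i, SmoothBd2 B (ψ b i)) → (∀ i, SmoothBd B (F i)) →
      ∀ (c : Fin n → ℝ), ∑ i, c i ^ 2 ≤ n → ∀ (x : Conf n) (l : ℝ),
        pathE qR σ x (fun ω => exp (l * siteTest K σ ψ F c x ω))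
          ≤ exp (l * pathE qR σ x (siteTest K σ ψ F c x) + C * l ^ 2 / n)

end Vale.Agent.P150.Fast
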