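import Mathlib
import Vale.Agent.P150.Fast.Cavity.Stmt
import Vale.Agent.P150.Fast.Cavity.SliceKer
import Vale.Agent.P150.Fast.Cavity.SliceLaw

/-!
Statements used inside the core of M4 (P150): splitting a path at a time, window weights along a
path against powers of the sliced kernel, and concentration of windows weighted by the past.
-/

open MeasureTheory Real Finset
open scoped Matrix

namespace Vale.Agent.P150.Fast

variable {n : ℕ}

/-- Two consecutive paths as one. -/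
def joinPath {r a b : ℕ} (e : a + b = r) (ω₁ : Fin a → (Fin n → ℝ) × Conf n)
    (ω₂ : Fin b → (Fin n → ℝ) × Conf n) : Fin r → (Fin n → ℝ) × Conf n :=
  fun t => Fin.append ω₁ ω₂ (Fin.cast e.symm t)

/-- A path of equal steps splits at every time. -/
def SplitStmt : Prop :=
  ∀ (n r a b : ℕ) (e : a + b = r) (R : Step n → Kern n) (st : Step n) (x : Conf n)
    (F : (Fin r → (Fin n → ℝ) × Conf n) → ℝ),
    pathE R (fun _ => st) x F = pathE R (fun _ : Fin a => st) x fun ω₁ =>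
      pathE R (fun _ : Fin b => st) (endAt x ω₁) fun ω₂ => F (joinPath e ω₁ ω₂)

/-- Later windows of a stationary path have the law of the first one. -/
def MargStmt : Prop :=
  ∀ (n a : ℕ) (μ : Conf n → ℝ) (st : Step n), (∀ x, 0 < μ x) → ∑ x, μ x = 1 → st.A.PosDef →
    ∀ G : Conf n → ℝ,
      lawE (pR μ) μ (fun _ : Fin a => st) (fun x ω => G (endAt x ω)) = ∑ x, μ x * G x

/-- The weight of a window of the path at site `i` held at `b`: the spin stays, the noise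
coordinate is weighted by `ψ`, the field is clipped by `χ`. -/
noncomputable def winP {m : ℕ} (st : Step n) (i : Fin n) (b : Bool) (ψ χ : ℝ → ℝ) (x : Conf n)
    (ω : Fin m → (Fin n → ℝ) × Conf n) : ℝ :=
  onVal i b x * ∏ t, (onVal i b (ω t).2 * (sig b ((ω t).1 i + st.h i))⁻¹
    * (ψ (sliceU st.A i b (ω t).1) * χ ((ω t).1 i + st.h i)))

/-- The mean error of the heat-bath rule at a site. -/
noncomputable def sigErr (μ : Conf n → ℝ) (st : Step n) (i : Fin n) (b : Bool) : ℝ :=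
  ∫ y, ∑ x, μ x * chan st.A x y
    * |∑ z, pR μ st x y z * onVal i b z - sig b (y i + st.h i)|

/-- The mean clipped part of the field at a site. -/
noncomputable def clipTail (μ : Conf n → ℝ) (st : Step n) (χ : ℝ → ℝ) (i : Fin n) : ℝ :=
  ∑ x, μ x * ∫ y, chan st.A x y * (1 - χ (y i + st.h i))

/-- Powers of a kernel with functions inserted at every time. -/
noncomputable def insOp (Q : Conf n → Conf n → ℝ) :
    {m : ℕ} → (Fin (m + 1) → Conf n → ℝ) → Conf n → ℝ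
  | 0, G => G 0
  | _ + 1, G => fun x => G 0 x * ∑ z, Q x z * insOp Q (Fin.tail G) z

/-- Window weights along the path act as the sliced kernel, also with tests inserted at every
time. -/
def ConvStmt : Prop :=
  ∀ (m : ℕ) (R M m₀ : ℝ), 0 ≤ R → 0 ≤ M → 0 < m₀ → ∃ C : ℝ, 0 ≤ C ∧
    ∀ (n : ℕ) (μ : Conf n → ℝ) (st : Step n), (∀ x, 0 < μ x) → ∑ x, μ x = 1 → st.A.PosDef →
    ∀ (i : Fin n), i ∉ st.S → ∀ (b : Bool) (g χ : ℝ → ℝ), Continuous g → Continuous χ →
      (∀ u, 0 ≤ g u ∧ g u ≤ M) → (∀ v, 0 ≤ χ v ∧ χ v ≤ 1) → (∀ v, R < |v| → χ v = 0) →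
      0 < nE 0 (st.A⁻¹ i i) g → ∀ m₁ : ℝ, m₀ ≤ m₁ →
      ∀ G : Fin (m + 1) → Conf n → ℝ, (∀ t x, |G t x| ≤ 1) →
        ∑ x, μ x * |pathE (pR μ) (fun _ : Fin m => st) x
            (fun ω => winP st i b (fun u => g u / m₁) χ x ω
              * ∏ t, G t ((Fin.cons x fun k => (ω k).2 : Fin (m + 1) → Conf n) t))
          - onVal i b x * insOp (sliceKer μ (st.freeze i) (onVal i b)
              (fun y => g (sliceU st.A i b y)) (nE 0 (st.A⁻¹ i i) g)) G x|
        ≤ m * (M / nE 0 (st.A⁻¹ i i) g * clipTail μ st χ i)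
          + C * (sigErr μ st i b + |nE 0 (st.A⁻¹ i i) g / m₁ - 1|)

/-- The sum over sites of the heat-bath errors is controlled by the entropy. -/
def SigErrStmt : Prop :=
  ∀ (n : ℕ) (μ : Conf n → ℝ) (st : Step n) (b : Bool), (∀ x, 0 < μ x) → ∑ x, μ x = 1 →
    st.A.PosDef → ∀ t : ℝ, 0 < t →
      ∑ i ∈ st.Sᶜ, sigErr μ st i b ≤ n * t + freeD μ st / (2 * t)

/-- Windows weighted by any function of the past are close, in mean absolute value, to their
conditional means. -/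
def ConcStmt : Prop :=
  ∀ (m : ℕ) (L lam B : ℝ), 0 ≤ L → 0 < lam → 0 ≤ B → ∃ C : ℝ, 0 ≤ C ∧
    ∀ (n a : ℕ) (μ : Conf n → ℝ) (st : Step n), 1 ≤ n → (∀ x, 0 < μ x) → ∑ x, μ x = 1 →
      st.Good L → (∀ v : Fin n → ℝ, lam * ∑ i, v i ^ 2 ≤ v ⬝ᵥ (st.A *ᵥ v)) →
    ∀ (K : Matrix (Fin n) (Fin n) ℝ), K.transpose = K →
      (∀ v : Fin n → ℝ, |v ⬝ᵥ (K *ᵥ v)| ≤ L * ∑ i, v i ^ 2) →
    ∀ (ψ : Fin m → Fin n → ℝ → ℝ → Bool → ℝ) (F : Fin n → ℝ → ℝ),
      (∀ b i, SmoothBd2 B (ψ b i)) → (∀ i, SmoothBd B (F i)) →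
    ∀ (cf : Conf n → (Fin a → (Fin n → ℝ) × Conf n) → Fin n → ℝ),
      (∀ x i, Measurable fun ω => cf x ω i) → (∀ x ω, ∑ i, cf x ω i ^ 2 ≤ n) →
    ∀ l : ℝ, 0 < l →
      lawE (pR μ) μ (fun _ : Fin a => st) (fun x ω₁ =>
        pathE (pR μ) (fun _ : Fin m => st) (endAt x ω₁) fun ω₂ =>
          |siteTest K (fun _ : Fin m => st) ψ F (cf x ω₁) (endAt x ω₁) ω₂
            - pathE (pR μ) (fun _ : Fin m => st) (endAt x ω₁)
                (siteTest K (fun _ : Fin m => st) ψ F (cf x ω₁) (endAt x ω₁))|)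
        ≤ 2 * (((a + m) * freeD μ st / n + log 2 / n) / l + C * l)

end Vale.Agent.P150.Fast
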