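import Mathlib
import Vale.Agent.P150.Fast.Cavity.CoreParts
import Vale.Agent.P150.Fast.ChainPath

/-!
Splitting of paths, stationarity and the mean error of the heat-bath rule: proofs of `SplitStmt`,
`MargStmt` and `SigErrStmt`. Used for P150 (module M4).
-/

open MeasureTheory Real Finset
open scoped Matrix

namespace Vale.Agent.P150.Fast

variable {n : ℕ}

theorem endAt_cons' {r : ℕ} (x : Conf n) (p : (Fin n → ℝ) × Conf n)
    (ω : Fin r → (Fin n → ℝ) × Conf n) : endAt x (Fin.cons p ω) = endAt p.2 ω := by
  simp only [endAt, ← Fin.succ_last, Fin.cons_succ]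
  generalize Fin.last r = j
  induction j using Fin.cases <;> simp

theorem joinPath_cons {r a b : ℕ} (e : a + 1 + b = r + 1) (e' : a + b = r)
    (v : (Fin n → ℝ) × Conf n) (ω₁ : Fin a → (Fin n → ℝ) × Conf n)
    (ω₂ : Fin b → (Fin n → ℝ) × Conf n) :
    joinPath e (Fin.cons v ω₁) ω₂ = Fin.cons v (joinPath e' ω₁ ω₂) := by
  funext t
  cases t using Fin.cases with
  | zero =>
    rw [joinPath, show Fin.cast e.symm 0 = Fin.castAdd b (0 : Fin (a + 1)) from Fin.ext (by simp),
      Fin.append_left, Fin.cons_zero, Fin.cons_zero]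
  | succ j =>
    rw [Fin.cons_succ, joinPath, joinPath]
    rcases lt_or_ge j.1 a with h | h
    · rw [show Fin.cast e.symm j.succ = Fin.castAdd b (Fin.succ (⟨j.1, h⟩ : Fin a)) from
        Fin.ext (by simp), Fin.append_left, Fin.cons_succ,
        show Fin.cast e'.symm j = Fin.castAdd b (⟨j.1, h⟩ : Fin a) from Fin.ext (by simp),
        Fin.append_left]
    · have hb : j.1 - a < b := by have := j.2; omega
      rw [show Fin.cast e.symm j.succ = Fin.natAdd (a + 1) (⟨j.1 - a, hb⟩ : Fin b) from
        Fin.ext (by simp; omega), Fin.append_right,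
        show Fin.cast e'.symm j = Fin.natAdd a (⟨j.1 - a, hb⟩ : Fin b) from
          Fin.ext (by simp; omega), Fin.append_right]

theorem joinPath_zero {r b : ℕ} (e : 0 + b = r) (ω₁ : Fin 0 → (Fin n → ℝ) × Conf n)
    (ω₂ : Fin b → (Fin n → ℝ) × Conf n) :
    joinPath e ω₁ ω₂ = fun t => ω₂ (Fin.cast (by omega) t) := by
  funext t
  rw [joinPath, show Fin.cast e.symm t = Fin.natAdd 0 (Fin.cast (by omega) t : Fin b) from
    Fin.ext (by simp), Fin.append_right]

theorem splitThm : SplitStmt := by
  intro n r a b e R st x F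
  induction a generalizing r x with
  | zero =>
    obtain rfl : b = r := by omega
    simp only [pathE, joinPath_zero, Fin.cast_eq_self]
    rfl
  | succ a ih =>
    obtain ⟨r, rfl⟩ : ∃ r', r = r' + 1 := ⟨r - 1, by omega⟩
    have e' : a + b = r := by omega
    simp only [pathE]
    refine integral_congr_ae (ae_of_all _ fun y => ?_)
    refine congrArg (chan st.A x y * ·) (sum_congr rfl fun z _ => congrArg (R st x y z * ·) ?_)
    rw [show (Fin.tail fun _ : Fin (r + 1) => st) = fun _ => st from rfl,
      show (Fin.tail fun _ : Fin (a + 1) => st) = fun _ => st from rfl, ih r e' z]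
    simp only [endAt_cons', joinPath_cons e e']

/-- Powers of the alternation keep the law. -/
theorem step_stationary {μ : Conf n → ℝ} {st : Step n} (hμ : ∀ x, 0 < μ x) (hA : st.A.PosDef)
    (f : Conf n → ℝ) : ∑ x, μ x * stepOp (pR μ) st f x = ∑ x, μ x * f x := by
  have hK := ker_isPsd (φ := fun _ => 1) hμ hA (fun _ => zero_le_one) (fun _ _ _ => rfl)
  simp only [stepOp_eq_sum (pR_integrable hμ hA _), mul_sum]
  rw [sum_comm]
  refine sum_congr rfl fun z _ => ?_
  have hs : ∀ x, μ x * (kerOf (pR μ) st x z * f z) = μ z * kerOf (pR μ) st z x * f z := fun x => by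
    have hs := hK.symm x z
    simp only [one_mul] at hs
    rw [← mul_assoc, hs]
  rw [sum_congr rfl fun x _ => hs x, ← sum_mul, ← mul_sum, hK.row z, mul_one]

theorem margThm : MargStmt := by
  intro n a μ st hμ _ hA G
  have h : ∀ (a : ℕ), ∑ x, μ x * chainOp (pR μ) (fun _ : Fin a => st) G x = ∑ x, μ x * G x := by
    intro a
    induction a with
    | zero => rfl
    | succ a ih =>
      simp only [chainOp]
      rw [show (Fin.tail fun _ : Fin (a + 1) => st) = fun _ => st from rfl, step_stationary hμ hA, ih]
  simp only [lawE, pathEnd n a _ G _ (pR μ)]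
  exact h a

theorem sigErrThm : SigErrStmt := by
  intro n μ st b hμ h1 hA t ht
  obtain ⟨-, -, hi, hb⟩ := stepKL n μ st hμ h1 hA
  set D : Fin n → Conf n → (Fin n → ℝ) → ℝ := fun i x y =>
    ∑ z, pR μ st x y z * spin (z i) - tanh (y i + st.h i) with hD
  have hsum : ∀ x y, ∑ z, pR μ st x y z = 1 := fun x y => postS_sum hA hμ _ x y
  have hd : ∀ i x y, ∑ z, pR μ st x y z * onVal i b z - sig b (y i + st.h i)
      = spin b / 2 * D i x y := fun i x y => by
    have e1 : ∀ z : Conf n, onVal i b z = 1 / 2 + spin b / 2 * spin (z i) := fun z => by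
      rw [onVal]; cases b <;> cases z i <;> norm_num [spin]
    have e2 : sig b (y i + st.h i) = 1 / 2 + spin b / 2 * tanh (y i + st.h i) := by
      have hp : 0 < exp (y i + st.h i) + exp (-(y i + st.h i)) := by positivity
      rw [tanh_eq, sig]
      cases b <;> simp only [spin, if_true, Bool.false_eq_true, if_false, neg_mul, one_mul] <;>
        field_simp <;> ring
    have e3 : ∀ z, pR μ st x y z * onVal i b z
        = 1 / 2 * pR μ st x y z + spin b / 2 * (pR μ st x y z * spin (z i)) := fun z => by
      rw [e1]; ring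
    rw [sum_congr rfl fun z _ => e3 z, sum_add_distrib, ← mul_sum, ← mul_sum, hsum, e2, hD]
    ring
  have habs : ∀ i x y, |∑ z, pR μ st x y z * onVal i b z - sig b (y i + st.h i)|
      ≤ t + D i x y ^ 2 / (4 * t) := fun i x y => by
    rw [hd, abs_mul, show |spin b / 2| = (1 : ℝ) / 2 by cases b <;> norm_num [spin],
      ← sub_nonneg]
    generalize D i x y = w
    have e : t + w ^ 2 / (4 * t) - 1 / 2 * |w| = ((|w| - t) ^ 2 + 3 * t ^ 2) / (4 * t) := by
      rw [← sq_abs w]; field_simp; ring
    rw [e]; positivity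
  have hbd : ∀ i x y, |∑ z, pR μ st x y z * onVal i b z - sig b (y i + st.h i)| ≤ 2 := fun i x y => by
    refine (abs_sub _ _).trans ?_
    have h := avg_bound (M := 1) (fun z => postS_nonneg hA hμ _ x y z) (hsum x y)
      (a := fun z => onVal i b z) fun z => by rw [onVal]; split <;> norm_num
    have := abs_of_nonneg (sig_nonneg b (y i + st.h i))
    have := sig_le_one b (y i + st.h i)
    simp only [pR] at h ⊢
    linarith
  have hm : ∀ i x, Measurable fun y => |∑ z, pR μ st x y z * onVal i b z - sig b (y i + st.h i)| :=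
    fun i x => continuous_abs.measurable.comp ((Finset.measurable_fun_sum _ fun z _ =>
      (measurable_postS st.A st.S x z).mul_const _).sub
      ((continuous_sig b).measurable.comp ((measurable_pi_apply i).add_const _)))
  have hI : ∀ i x, Integrable fun y =>
      μ x * chan st.A x y * |∑ z, pR μ st x y z * onVal i b z - sig b (y i + st.h i)| := fun i x =>
    ((chanV_bdd hA _ (hm i x) (M := 2) fun y => by rw [abs_abs]; exact hbd i x y).const_mul
      (μ x)).congr (ae_of_all _ fun y => by simp only [chan_eq]; ring)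
  have hc : ∀ x, Integrable fun y => μ x * chan st.A x y := fun x =>
    (chanV_integrable hA _).const_mul (μ x)
  simp only [sigErr]
  rw [← integral_finsetSum _ fun i _ => integrable_finsetSum _ fun x _ => hI i x]
  refine (integral_mono (integrable_finsetSum _ fun i _ => integrable_finsetSum _ fun x _ => hI i x)
    (((integrable_finsetSum (univ : Finset (Conf n)) fun x _ => hc x).const_mul (n * t)).add (hi.const_mul (4 * t)⁻¹))
    fun y => ?_).trans ?_
  · rw [Pi.add_apply, mul_sum, mul_sum, ← sum_add_distrib, sum_comm]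
    refine sum_le_sum fun x _ => ?_
    rw [← mul_sum]
    refine (mul_le_mul_of_nonneg_left ((sum_le_sum fun i _ => habs i x y).trans (le_of_eq
      sum_add_distrib)) (mul_pos (hμ x) (chanV_pos hA _ _)).le).trans ?_
    rw [sum_const, nsmul_eq_mul, mul_add, ← sum_div]
    refine add_le_add ?_ (le_of_eq (by simp only [hD, chan_eq]; ring))
    have hn : ((st.Sᶜ).card : ℝ) ≤ n := by
      exact_mod_cast (card_le_univ _).trans_eq (Fintype.card_fin n)
    have := mul_le_mul_of_nonneg_right hn
      (mul_nonneg ht.le (mul_pos (hμ x) (chanV_pos hA (st.A *ᵥ vec x) y)).le)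
    rw [← chan_eq] at this
    show μ x * chan st.A x y * (_ * t) ≤ _; rw [show μ x * chan st.A x y * ((st.Sᶜ.card : ℝ) * t) = (st.Sᶜ.card : ℝ) * (t * (μ x * chan st.A x y)) by ring]; refine this.trans (le_of_eq ?_); ring
  · simp only [Pi.add_apply]
    rw [integral_add ((integrable_finsetSum (univ : Finset (Conf n)) fun x _ => hc x).const_mul _) (hi.const_mul _),
      integral_const_mul, integral_const_mul, integral_finsetSum (univ : Finset (Conf n)) fun x _ => hc x]
    simp only [integral_const_mul, chan_eq, chanV_mass hA, mul_one, h1]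
    refine add_le_add le_rfl ?_
    rw [inv_mul_le_iff₀ (by positivity)]
    simp only [chan_eq] at hb
    refine hb.trans (le_of_eq ?_)
    field_simp
    ring

end Vale.Agent.P150.Fast
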