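import Mathlib
import Vale.Agent.P150.Fast.Cavity.Parts
import Vale.Agent.P150.Fast.Site.Main

/-!
Linearity of path expectations and the bounds on window tests. Used for P150 (module M4).
-/

open MeasureTheory Real Finset
open scoped Matrix

namespace Vale.Agent.P150.Fast

variable {n : ℕ} {R : Step n → Kern n}

theorem measurable_cons2 {r : ℕ} (z : Conf n) :
    Measurable fun q : (Fin n → ℝ) × (Fin r → (Fin n → ℝ) × Conf n) =>
      (Fin.cons (q.1, z) q.2 : Fin (r + 1) → (Fin n → ℝ) × Conf n) := by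
  refine measurable_pi_lambda _ fun i => ?_
  refine Fin.cases ?_ (fun j => ?_) i
  · simp only [Fin.cons_zero]; exact measurable_fst.prodMk measurable_const
  · simp only [Fin.cons_succ]; exact (measurable_pi_apply j).comp measurable_snd

theorem measurable_cons1 {r : ℕ} (y : Fin n → ℝ) (z : Conf n) :
    Measurable fun ω : Fin r → (Fin n → ℝ) × Conf n =>
      (Fin.cons (y, z) ω : Fin (r + 1) → (Fin n → ℝ) × Conf n) :=
  (measurable_cons2 z).comp (measurable_const.prodMk measurable_id)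

/-- Path expectations are additive. -/
theorem pathE_add : ∀ {r : ℕ} (σ : Fin r → Step n), (∀ t, OkStep R (σ t)) →
    ∀ (F G : (Fin r → (Fin n → ℝ) × Conf n) → ℝ), Measurable F → Measurable G → ∀ M : ℝ,
      (∀ ω, |F ω| ≤ M) → (∀ ω, |G ω| ≤ M) → ∀ x,
      pathE R σ x (fun ω => F ω + G ω) = pathE R σ x F + pathE R σ x G
  | 0, _, _, _, _, _, _, _, _, _, _ => rfl
  | r + 1, σ, hσ, F, G, hF, hG, M, hFM, hGM, x => by
    simp only [pathE]
    rw [← integral_add (pathE_step_int σ hσ hF hFM x) (pathE_step_int σ hσ hG hGM x)]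
    refine integral_congr_ae (ae_of_all _ fun y => ?_)
    simp only [← mul_add, ← sum_add_distrib]
    refine congrArg (chan (σ 0).A x y * ·) (sum_congr rfl fun z _ =>
      congrArg (R (σ 0) x y z * ·) ?_)
    exact pathE_add (Fin.tail σ) (fun t => hσ t.succ) _ _ (hF.comp (measurable_cons1 y z))
      (hG.comp (measurable_cons1 y z)) M (fun ω => hFM _) (fun ω => hGM _) z

/-- Path expectations are monotone. -/
theorem pathE_mono : ∀ {r : ℕ} (σ : Fin r → Step n), (∀ t, OkStep R (σ t)) →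
    ∀ (F G : (Fin r → (Fin n → ℝ) × Conf n) → ℝ), Measurable F → Measurable G → ∀ M : ℝ,
      (∀ ω, |F ω| ≤ M) → (∀ ω, |G ω| ≤ M) → (∀ ω, F ω ≤ G ω) → ∀ x,
      pathE R σ x F ≤ pathE R σ x G
  | 0, _, _, _, _, _, _, _, _, _, h, _ => h _
  | r + 1, σ, hσ, F, G, hF, hG, M, hFM, hGM, h, x => by
    refine integral_mono (pathE_step_int σ hσ hF hFM x) (pathE_step_int σ hσ hG hGM x) fun y => ?_
    refine mul_le_mul_of_nonneg_left (sum_le_sum fun z _ => mul_le_mul_of_nonneg_left ?_
      ((hσ 0).nn x y z)) (chanV_pos (hσ 0).pd _ y).le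
    exact pathE_mono (Fin.tail σ) (fun t => hσ t.succ) _ _ (hF.comp (measurable_cons1 y z))
      (hG.comp (measurable_cons1 y z)) M (fun ω => hFM _) (fun ω => hGM _) (fun ω => h _) z

theorem pathE_const : ∀ {r : ℕ} (σ : Fin r → Step n), (∀ t, OkStep R (σ t)) → ∀ (c : ℝ) x,
    pathE R σ x (fun _ => c) = c := fun σ hσ c x => by
  have h := pathE_affine σ hσ (fun _ => 0) measurable_const 0 (fun _ => by simp) 0 c x
  simpa using h

theorem smoothBd_meas {B : ℝ} {F : ℝ → ℝ} (h : SmoothBd B F) :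
    Continuous F ∧ ∀ u, |F u| ≤ B := by
  obtain ⟨F', F'', h1, -, -, hb⟩ := h
  exact ⟨continuous_iff_continuousAt.2 fun u => (h1 u).continuousAt, fun u => (hb u).1⟩

theorem smoothBd2_meas {B : ℝ} {ψ : ℝ → ℝ → Bool → ℝ} (h : SmoothBd2 B ψ) (b : Bool) :
    Measurable (fun p : ℝ × ℝ => ψ p.1 p.2 b) ∧ ∀ u v, |ψ u v b| ≤ B := by
  obtain ⟨d₁, d₂, -, -, hb⟩ := h
  refine ⟨?_, fun u v => (hb u v b).2.2.1⟩
  refine measurable_uncurry_of_continuous_of_measurable (u := fun u v => ψ u v b) ?_ ?_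
  · exact fun v => continuous_iff_continuousAt.2 fun u => ((hb u v b).1).continuousAt
  · exact fun u => (continuous_iff_continuousAt.2 fun v => ((hb u v b).2.1).continuousAt).measurable

theorem measurable_endAt {r : ℕ} (x : Conf n) :
    Measurable fun ω : Fin r → (Fin n → ℝ) × Conf n => endAt x ω := by
  unfold endAt
  exact (measurable_pi_apply _).comp (measurable_pi_lambda _ fun i => by
    refine Fin.cases ?_ (fun j => ?_) i
    · exact measurable_const
    · exact (measurable_pi_apply j).snd)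

section Window

variable {m : ℕ} {K : Matrix (Fin n) (Fin n) ℝ} {σ : Fin m → Step n}
  {ψ : Fin m → Fin n → ℝ → ℝ → Bool → ℝ} {F : Fin n → ℝ → ℝ} {B : ℝ}

theorem measurable_windowTerm (hψ : ∀ b i, SmoothBd2 B (ψ b i)) (hF : ∀ i, SmoothBd B (F i))
    (i : Fin n) (x : Conf n) :
    Measurable fun ω : Fin m → (Fin n → ℝ) × Conf n =>
      (∏ b, ψ b i (((σ b).A⁻¹ *ᵥ (ω b).1) i) ((ω b).1 i) ((ω b).2 i))
        * F i ((K *ᵥ vec (endAt x ω)) i) := by
  refine (Finset.measurable_fun_prod _ fun b _ => ?_).mul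
    ((measurable_of_finite fun z : Conf n => F i ((K *ᵥ vec z) i)).comp (measurable_endAt x))
  have hu : Measurable fun ω : Fin m → (Fin n → ℝ) × Conf n => ((σ b).A⁻¹ *ᵥ (ω b).1) i := by
    simp only [Matrix.mulVec, dotProduct]
    exact Finset.measurable_fun_sum _ fun j _ =>
      Measurable.const_mul (((measurable_pi_apply j).comp (measurable_pi_apply b).fst) :
        Measurable fun ω : Fin m → (Fin n → ℝ) × Conf n => (ω b).1 j) _
  have hv : Measurable fun ω : Fin m → (Fin n → ℝ) × Conf n => (ω b).1 i :=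
    (measurable_pi_apply i).comp (measurable_pi_apply b).fst
  have hs : Measurable fun ω : Fin m → (Fin n → ℝ) × Conf n => (ω b).2 i :=
    (measurable_pi_apply i).comp (measurable_pi_apply b).snd
  have h : Measurable fun p : (ℝ × ℝ) × Bool => ψ b i p.1.1 p.1.2 p.2 :=
    measurable_from_prod_countable_left fun c => (smoothBd2_meas (hψ b i) c).1
  exact h.comp ((hu.prodMk hv).prodMk hs)

theorem abs_siteTest_le (hB : 0 ≤ B) (hn : 1 ≤ n) (hψ : ∀ b i, SmoothBd2 B (ψ b i))
    (hF : ∀ i, SmoothBd B (F i)) {c : Fin n → ℝ} (hc : ∑ i, c i ^ 2 ≤ n) (x : Conf n)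
    (ω : Fin m → (Fin n → ℝ) × Conf n) : |siteTest K σ ψ F c x ω| ≤ √n * (B ^ m * B) := by
  have hn' : (1 : ℝ) ≤ n := by exact_mod_cast hn
  rw [siteTest, abs_mul, abs_inv, abs_of_pos (by linarith : (0 : ℝ) < n),
    inv_mul_le_iff₀ (by linarith)]
  refine (abs_sum_le_sum_abs _ _).trans ((sum_le_sum (g := fun _ => √n * (B ^ m * B))
    fun i _ => ?_).trans_eq (by simp))
  rw [abs_mul, abs_mul, abs_prod]
  refine mul_le_mul ?_ (mul_le_mul ((prod_le_prod (fun b _ => abs_nonneg _) fun b _ =>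
    (smoothBd2_meas (hψ b i) _).2 _ _).trans_eq (by simp)) ((smoothBd_meas (hF i)).2 _)
    (abs_nonneg _) (by positivity)) (by positivity) (by positivity)
  rw [← sqrt_sq_eq_abs]
  exact sqrt_le_sqrt ((single_le_sum (f := fun j => c j ^ 2) (fun j _ => sq_nonneg _)
    (mem_univ i)).trans hc)

theorem measurable_siteTest₂ (hψ : ∀ b i, SmoothBd2 B (ψ b i)) (hF : ∀ i, SmoothBd B (F i))
    {P : Type*} [MeasurableSpace P] {c : P → Fin n → ℝ} (hc : ∀ i, Measurable fun p => c p i)
    (x : Conf n) :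
    Measurable fun q : P × (Fin m → (Fin n → ℝ) × Conf n) => siteTest K σ ψ F (c q.1) x q.2 :=
  (Finset.measurable_fun_sum _ fun i _ => ((hc i).comp measurable_fst).mul
    ((measurable_windowTerm hψ hF i x).comp measurable_snd)).const_mul _

end Window

end Vale.Agent.P150.Fast
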