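import Mathlib
import Vale.Agent.P150.Fast.Cavity.PartsPath

/-!
Windows weighted by the past concentrate: proof of `ConcStmt` from the variational bound along
paths and the exponential moments of window tests. Used for P150 (module M4).
-/

open MeasureTheory Real Finset
open scoped Matrix

namespace Vale.Agent.P150.Fast

variable {n : ℕ} {R : Step n → Kern n}

/-- The deviation from the mean is at most twice the deviation from any number. -/
theorem pathE_dev {r : ℕ} (σ : Fin r → Step n) (hσ : ∀ t, OkStep R (σ t))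
    {T : (Fin r → (Fin n → ℝ) × Conf n) → ℝ} (hT : Measurable T) {M : ℝ} (hM : ∀ ω, |T ω| ≤ M)
    {q : ℝ} (hq : |q| ≤ M) (z : Conf n) :
    pathE R σ z (fun ω => |T ω - pathE R σ z T|) ≤ 2 * pathE R σ z fun ω => |T ω - q| := by
  have hA : Measurable fun ω => |T ω - q| := continuous_abs.measurable.comp (hT.sub_const _)
  have hAb : ∀ ω, |(|T ω - q|)| ≤ 2 * M := fun ω => by
    rw [abs_abs]; exact (abs_sub _ _).trans (by linarith [hM ω])
  have hM0 : 0 ≤ M := (abs_nonneg _).trans hq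
  have hd : ∀ ω, |T ω - q| ≤ 2 * M := fun ω => (abs_sub _ _).trans (by linarith [hM ω])
  set p := pathE R σ z T with hp
  have e : p - q = pathE R σ z fun ω => T ω - q := by
    have h := pathE_affine σ hσ T hT M hM 1 (-q) z
    simp only [one_mul, ← sub_eq_add_neg] at h
    exact h.symm
  have hpq : |p - q| ≤ pathE R σ z fun ω => |T ω - q| := by
    rw [e]
    refine abs_le.2 ⟨?_, pathE_mono σ hσ _ _ (hT.sub_const _) hA (2 * M) hd hAb
      (fun ω => le_abs_self _) z⟩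
    have h := pathE_mono σ hσ (fun ω => (-1) * |T ω - q| + 0) (fun ω => T ω - q)
      ((hA.const_mul _).add_const _) (hT.sub_const _) (2 * M)
      (fun ω => by simpa using hd ω) hd (fun ω => by simpa using neg_abs_le (T ω - q)) z
    rw [pathE_affine σ hσ _ hA (2 * M) hAb] at h
    linarith
  have hpM : |p| ≤ M := (pathE_meas σ hσ Unit (fun _ => T) (hT.comp measurable_snd) M
    (fun _ => hM) z).2 ()
  refine (pathE_mono σ hσ _ (fun ω => 1 * |T ω - q| + |p - q|)
    (continuous_abs.measurable.comp (hT.sub_const _)) ((hA.const_mul _).add_const _) (4 * M)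
    (fun ω => by
      rw [Function.comp_apply, abs_abs]
      exact (abs_sub _ _).trans (by linarith [hM ω]))
    (fun ω => by
      rw [one_mul]
      refine (abs_add_le _ _).trans ?_
      rw [abs_abs, abs_abs]
      linarith [hd ω, abs_sub p q])
    (fun ω => by
      rw [one_mul, abs_sub_comm p]
      exact abs_sub_le _ _ _) z).trans ?_
  rw [pathE_affine σ hσ _ hA (2 * M) hAb, one_mul, two_mul]
  linarith

/-- A sub-Gaussian deviation has exponential absolute moments. -/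
theorem pathE_exp_abs {r : ℕ} (σ : Fin r → Step n) (hσ : ∀ t, OkStep R (σ t))
    {T : (Fin r → (Fin n → ℝ) × Conf n) → ℝ} (hT : Measurable T) {M : ℝ} (hM : ∀ ω, |T ω| ≤ M)
    (z : Conf n) {v : ℝ}
    (h : ∀ s : ℝ, pathE R σ z (fun ω => exp (s * T ω)) ≤ exp (s * pathE R σ z T + v * s ^ 2))
    (k : ℝ) :
    pathE R σ z (fun ω => exp (k * |T ω - pathE R σ z T|)) ≤ 2 * exp (v * k ^ 2) := by
  set q := pathE R σ z T
  have hq : |q| ≤ M := (pathE_meas σ hσ Unit (fun _ => T) (hT.comp measurable_snd) M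
    (fun _ => hM) z).2 ()
  have hd : ∀ ω, |T ω - q| ≤ 2 * M := fun ω => (abs_sub _ _).trans (by linarith [hM ω])
  have hbb : ∀ (s u : ℝ), |u| ≤ 2 * M → |exp (s * u)| ≤ exp (|s| * (2 * M)) := fun s u hu => by
    rw [abs_of_pos (exp_pos _)]
    refine exp_le_exp.2 ((le_abs_self _).trans ?_)
    rw [abs_mul]
    exact mul_le_mul_of_nonneg_left hu (abs_nonneg s)
  have hm : ∀ s : ℝ, Measurable fun ω => exp (s * (T ω - q)) := fun s =>
    ((hT.sub_const _).const_mul s).exp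
  have hlt : ∀ s : ℝ, pathE R σ z (fun ω => exp (s * (T ω - q))) ≤ exp (v * s ^ 2) := fun s => by
    rw [show (fun ω => exp (s * (T ω - q))) = fun ω => exp (-(s * q)) * exp (s * T ω) + 0 from
      funext fun ω => by rw [add_zero, ← exp_add]; ring_nf,
      pathE_affine σ hσ _ (hT.const_mul s).exp (exp (|s| * M)) (fun ω => by
        rw [abs_of_pos (exp_pos _)]
        refine exp_le_exp.2 ((le_abs_self _).trans ?_)
        rw [abs_mul]
        exact mul_le_mul_of_nonneg_left (hM ω) (abs_nonneg s)), add_zero]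
    refine (mul_le_mul_of_nonneg_left (h s) (exp_pos _).le).trans_eq ?_
    rw [← exp_add]; ring_nf
  have hb' : ∀ ω, |exp (-k * (T ω - q))| ≤ exp (|k| * (2 * M)) := fun ω => by
    have := hbb (-k) _ (hd ω); rwa [abs_neg] at this
  refine (pathE_mono σ hσ _ (fun ω => exp (k * (T ω - q)) + exp (-k * (T ω - q)))
    ((continuous_abs.measurable.comp (hT.sub_const _)).const_mul k).exp ((hm _).add (hm _))
    (2 * exp (|k| * (2 * M))) (fun ω => ?_) (fun ω => ?_) (fun ω => ?_) z).trans ?_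
  · exact (hbb k _ (show |(|T ω - q|)| ≤ 2 * M by rw [abs_abs]; exact hd ω)).trans
      (le_mul_of_one_le_left (exp_pos _).le one_le_two)
  · exact (abs_add_le _ _).trans (by linarith [hbb k _ (hd ω), hb' ω])
  · simp only [Function.comp_apply]
    rcases le_total 0 (T ω - q) with hs | hs
    · rw [abs_of_nonneg hs]; linarith [exp_pos (-k * (T ω - q))]
    · rw [abs_of_nonpos hs, mul_neg, ← neg_mul]; linarith [exp_pos (k * (T ω - q))]
  · rw [pathE_add σ hσ _ _ (hm k) (hm (-k)) _ (fun ω => hbb k _ (hd ω)) hb']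
    refine (add_le_add (hlt _) (hlt _)).trans_eq ?_
    rw [neg_sq, two_mul]

/-- Evaluation at the end of a path of a family measurable in the path. -/
theorem measurable_atEnd {a : ℕ} {P : Type*} [MeasurableSpace P] (x : Conf n)
    {Φ : (Fin a → (Fin n → ℝ) × Conf n) → Conf n → P → ℝ}
    (h : ∀ z, Measurable fun q : (Fin a → (Fin n → ℝ) × Conf n) × P => Φ q.1 z q.2) :
    Measurable fun q : (Fin a → (Fin n → ℝ) × Conf n) × P => Φ q.1 (endAt x q.1) q.2 := by
  have h' : Measurable fun p : ((Fin a → (Fin n → ℝ) × Conf n) × P) × Conf n =>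
      Φ p.1.1 p.2 p.1.2 := measurable_from_prod_countable_left h
  exact h'.comp (measurable_id.prodMk ((measurable_endAt x).comp measurable_fst))

theorem measurable_halves {a m : ℕ} :
    Measurable fun ω : Fin (a + m) → (Fin n → ℝ) × Conf n =>
      ((fun t => ω (Fin.castAdd m t)), fun t => ω (Fin.natAdd a t)) :=
  (measurable_pi_lambda _ fun _ => measurable_pi_apply _).prodMk
    (measurable_pi_lambda _ fun _ => measurable_pi_apply _)

/-- The mean over a second window, as a function of the first. -/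
theorem measurable_inner {a m : ℕ} {σ : Fin m → Step n} (hσ : ∀ t, OkStep R (σ t))
    {Φ : (Fin a → (Fin n → ℝ) × Conf n) → (Fin m → (Fin n → ℝ) × Conf n) → ℝ}
    (hΦ : Measurable (Function.uncurry Φ)) {M : ℝ} (hM : ∀ ω₁ ω, |Φ ω₁ ω| ≤ M) (x : Conf n) :
    Measurable (fun ω₁ => pathE R σ (endAt x ω₁) (Φ ω₁)) ∧
      ∀ ω₁, |pathE R σ (endAt x ω₁) (Φ ω₁)| ≤ M := by
  refine ⟨?_, fun ω₁ => (pathE_meas σ hσ _ Φ hΦ M hM _).2 ω₁⟩
  have h' : Measurable fun p : (Fin a → (Fin n → ℝ) × Conf n) × Conf n =>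
      pathE R σ p.2 (Φ p.1) :=
    measurable_from_prod_countable_left fun z => (pathE_meas σ hσ _ Φ hΦ M hM z).1
  exact h'.comp (measurable_id.prodMk (measurable_endAt x))

/-- The mean of a multiple of a function of two consecutive windows. -/
theorem join_mean {a m : ℕ} {st : Step n} (hR : OkStep R st)
    {Y : (Fin a → (Fin n → ℝ) × Conf n) → (Fin m → (Fin n → ℝ) × Conf n) → ℝ}
    (hY : Measurable (Function.uncurry Y)) {M : ℝ} (hM : ∀ ω₁ ω, |Y ω₁ ω| ≤ M) (k : ℝ)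
    (x : Conf n) :
    pathE R (fun _ : Fin (a + m) => st) x
        (fun ω => k * Y (fun t => ω (Fin.castAdd m t)) (fun t => ω (Fin.natAdd a t)))
      = k * pathE R (fun _ : Fin a => st) x
          (fun ω₁ => pathE R (fun _ : Fin m => st) (endAt x ω₁) (Y ω₁)) := by
  rw [splitThm n (a + m) a m rfl]
  have hj : ∀ (ω₁ : Fin a → (Fin n → ℝ) × Conf n) (ω₂ : Fin m → (Fin n → ℝ) × Conf n),
      (fun t => joinPath rfl ω₁ ω₂ (Fin.castAdd m t)) = ω₁ ∧
      (fun t => joinPath rfl ω₁ ω₂ (Fin.natAdd a t)) = ω₂ := fun ω₁ ω₂ =>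
    ⟨funext fun t => by simp [joinPath], funext fun t => by simp [joinPath]⟩
  have hYm : ∀ ω₁, Measurable (Y ω₁) := fun ω₁ => hY.comp (measurable_const.prodMk measurable_id)
  have e : ∀ ω₁, pathE R (fun _ : Fin m => st) (endAt x ω₁) (fun ω₂ =>
        k * Y (fun t => joinPath rfl ω₁ ω₂ (Fin.castAdd m t))
          (fun t => joinPath rfl ω₁ ω₂ (Fin.natAdd a t)))
      = k * pathE R (fun _ : Fin m => st) (endAt x ω₁) (Y ω₁) + 0 := fun ω₁ => by
    simp only [(hj ω₁ _).1, (hj ω₁ _).2]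
    rw [← pathE_affine _ (fun _ => hR) _ (hYm ω₁) M (hM ω₁)]
    simp only [add_zero]
  simp only [e]
  obtain ⟨hm, hb⟩ := measurable_inner (σ := fun _ : Fin m => st) (fun _ => hR) hY hM x
  rw [pathE_affine (fun _ : Fin a => st) (fun _ => hR) _ hm M hb k 0 x, add_zero]

/-- The exponential moment of a function of two consecutive windows. -/
theorem join_exp {a m : ℕ} {st : Step n} (hR : OkStep R st)
    {Y : (Fin a → (Fin n → ℝ) × Conf n) → (Fin m → (Fin n → ℝ) × Conf n) → ℝ}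
    (hY : Measurable (Function.uncurry Y)) {M : ℝ} (hM : ∀ ω₁ ω, |Y ω₁ ω| ≤ M) {k E : ℝ}
    (x : Conf n)
    (hE : ∀ ω₁, pathE R (fun _ : Fin m => st) (endAt x ω₁) (fun ω => exp (k * Y ω₁ ω)) ≤ E) :
    pathE R (fun _ : Fin (a + m) => st) x
        (fun ω => exp (k * Y (fun t => ω (Fin.castAdd m t)) (fun t => ω (Fin.natAdd a t)))) ≤ E := by
  rw [splitThm n (a + m) a m rfl]
  have hj : ∀ (ω₁ : Fin a → (Fin n → ℝ) × Conf n) (ω₂ : Fin m → (Fin n → ℝ) × Conf n),
      (fun t => joinPath rfl ω₁ ω₂ (Fin.castAdd m t)) = ω₁ ∧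
      (fun t => joinPath rfl ω₁ ω₂ (Fin.natAdd a t)) = ω₂ := fun ω₁ ω₂ =>
    ⟨funext fun t => by simp [joinPath], funext fun t => by simp [joinPath]⟩
  simp only [(hj _ _).1, (hj _ _).2]
  have hb : ∀ ω₁ ω, |exp (k * Y ω₁ ω)| ≤ exp (|k| * M) := fun ω₁ ω => by
    rw [abs_of_pos (exp_pos _)]
    refine exp_le_exp.2 ((le_abs_self _).trans ?_)
    rw [abs_mul]; exact mul_le_mul_of_nonneg_left (hM ω₁ ω) (abs_nonneg k)
  obtain ⟨hm, hb'⟩ := measurable_inner (σ := fun _ : Fin m => st) (fun _ => hR)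
    (Φ := fun ω₁ ω => exp (k * Y ω₁ ω)) (hY.const_mul k).exp hb x
  exact (pathE_mono (fun _ : Fin a => st) (fun _ => hR) _ (fun _ => E) hm measurable_const
    (max (exp (|k| * M)) |E|) (fun ω₁ => (hb' ω₁).trans (le_max_left _ _))
    (fun _ => le_max_right _ _) hE x).trans_eq (pathE_const _ (fun _ => hR) _ _)

/-- The variational bound for a bounded function of two consecutive windows. -/
theorem two_window {a m : ℕ} {μ : Conf n → ℝ} {st : Step n} (hμ : ∀ x, 0 < μ x)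
    (h1 : ∑ x, μ x = 1) (hA : st.A.PosDef)
    {Y : Conf n → (Fin a → (Fin n → ℝ) × Conf n) → (Fin m → (Fin n → ℝ) × Conf n) → ℝ}
    (hY : ∀ x, Measurable (Function.uncurry (Y x))) {M : ℝ} (hM : ∀ x ω₁ ω, |Y x ω₁ ω| ≤ M)
    {k E : ℝ}
    (hE : ∀ x ω₁, pathE qR (fun _ : Fin m => st) (endAt x ω₁) (fun ω => exp (k * Y x ω₁ ω)) ≤ E) :
    k * lawE (pR μ) μ (fun _ : Fin a => st)
        (fun x ω₁ => pathE (pR μ) (fun _ : Fin m => st) (endAt x ω₁) (Y x ω₁))
      ≤ (a + m) * freeD μ st + log E := by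
  obtain ⟨G, hG⟩ : ∃ G : Conf n → (Fin (a + m) → (Fin n → ℝ) × Conf n) → ℝ, G = fun x ω =>
      k * Y x (fun t => ω (Fin.castAdd m t)) (fun t => ω (Fin.natAdd a t)) := ⟨_, rfl⟩
  have hGm : ∀ x, Measurable (G x) := fun x => by
    rw [hG]; exact ((hY x).comp measurable_halves).const_mul k
  have hGb : ∀ x ω, |G x ω| ≤ |k| * M := fun x ω => by
    rw [hG, abs_mul]; exact mul_le_mul_of_nonneg_left (hM x _ _) (abs_nonneg k)
  have hV := pathVar n (a + m) μ (fun _ => st) hμ h1 (fun _ => hA) G hGm ⟨_, hGb⟩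
  have hEpos : 0 < lawE qR μ (fun _ : Fin (a + m) => st) fun x ω => exp (G x ω) :=
    sum_pos (fun x _ => mul_pos (hμ x) ((exp_pos (-(|k| * M))).trans_le
      (pathVar_at hμ h1 (fun _ : Fin (a + m) => st) (fun _ => hA) (G x) (hGm x) _ (hGb x) x).1))
      univ_nonempty
  have hq : lawE qR μ (fun _ : Fin (a + m) => st) (fun x ω => exp (G x ω)) ≤ E := by
    refine le_of_le_of_eq (sum_le_sum (g := fun x => μ x * E) fun x _ =>
      mul_le_mul_of_nonneg_left ?_ (hμ x).le) (by rw [← sum_mul, h1, one_mul])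
    rw [hG]
    exact join_exp (ok_qR hA) (hY x) (hM x) x (hE x)
  have hp : lawE (pR μ) μ (fun _ : Fin (a + m) => st) G
      = k * lawE (pR μ) μ (fun _ : Fin a => st)
          (fun x ω₁ => pathE (pR μ) (fun _ : Fin m => st) (endAt x ω₁) (Y x ω₁)) := by
    simp only [lawE, mul_sum, hG]
    exact sum_congr rfl fun x _ => by
      rw [join_mean (ok_pR hμ hA) (hY x) (hM x) k x, mul_left_comm]
  have hlog := log_le_log hEpos hq
  rw [hp] at hV
  simp only [sum_const, card_univ, Fintype.card_fin, nsmul_eq_mul] at hV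
  push_cast at hV
  linarith

theorem concThm : ConcStmt := by
  intro m L lam B hL hlam hB
  obtain ⟨C, hC, hT⟩ := siteTestThm m L lam B hL hlam hB
  refine ⟨C, hC, fun n a μ st hn hμ h1 hgood hlam' K hKs hKb ψ F hψ hF cf hcm hcs l hl => ?_⟩
  set σ : Fin m → Step n := fun _ => st
  have okp : ∀ {k : ℕ} (t : Fin k), OkStep (pR μ) ((fun _ : Fin k => st) t) :=
    fun _ => ok_pR hμ hgood.1
  have okq : ∀ {k : ℕ} (t : Fin k), OkStep (qR (n := n)) ((fun _ : Fin k => st) t) :=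
    fun _ => ok_qR hgood.1
  have hn' : (0 : ℝ) < n := by exact_mod_cast hn
  obtain ⟨M₀, hM₀⟩ : ∃ M₀, M₀ = √n * (B ^ m * B) := ⟨_, rfl⟩
  have hb : ∀ x ω₁ z ω, |siteTest K σ ψ F (cf x ω₁) z ω| ≤ M₀ := fun x ω₁ z ω =>
    hM₀ ▸ abs_siteTest_le hB hn hψ hF (hcs x ω₁) z ω
  have hTz : ∀ x z, Measurable fun q : (Fin a → (Fin n → ℝ) × Conf n)
      × (Fin m → (Fin n → ℝ) × Conf n) => siteTest K σ ψ F (cf x q.1) z q.2 :=
    fun x z => measurable_siteTest₂ hψ hF (hcm x) z
  have hqM := fun x z => pathE_meas σ okq _ _ (hTz x z) M₀ (fun ω₁ ω => hb x ω₁ z ω) z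
  have hpM := fun x z => pathE_meas σ okp _ _ (hTz x z) M₀ (fun ω₁ ω => hb x ω₁ z ω) z
  set Y : Conf n → (Fin a → (Fin n → ℝ) × Conf n) → (Fin m → (Fin n → ℝ) × Conf n) → ℝ :=
    fun x ω₁ ω => |siteTest K σ ψ F (cf x ω₁) (endAt x ω₁) ω
      - pathE qR σ (endAt x ω₁) (siteTest K σ ψ F (cf x ω₁) (endAt x ω₁))| with hY
  have hYb : ∀ x ω₁ ω, |Y x ω₁ ω| ≤ 2 * M₀ := fun x ω₁ ω => by
    rw [hY, abs_abs]
    exact (abs_sub _ _).trans (by linarith [hb x ω₁ (endAt x ω₁) ω, (hqM x (endAt x ω₁)).2 ω₁])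
  have hYm : ∀ x, Measurable fun q : (Fin a → (Fin n → ℝ) × Conf n)
      × (Fin m → (Fin n → ℝ) × Conf n) => Y x q.1 q.2 := fun x =>
    measurable_atEnd x (Φ := fun ω₁ z ω => |siteTest K σ ψ F (cf x ω₁) z ω
        - pathE qR σ z (siteTest K σ ψ F (cf x ω₁) z)|)
      fun z => continuous_abs.measurable.comp ((hTz x z).sub ((hqM x z).1.comp measurable_fst))
  have hX := two_window (E := 2 * exp (C / n * (n * l) ^ 2)) hμ h1 hgood.1 hYm hYb (k := n * l)
    fun x ω₁ => pathE_exp_abs σ okq ((hTz x (endAt x ω₁)).comp (measurable_const.prodMk measurable_id))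
      (hb x ω₁ _) _ (fun s => (hT n σ hn (fun _ => hgood) (fun _ => hlam') K hKs hKb ψ F hψ hF
        (cf x ω₁) (hcs x ω₁) (endAt x ω₁) s).trans_eq (by ring_nf; rfl)) _
  rw [log_mul (by norm_num) (exp_pos _).ne', log_exp] at hX
  obtain ⟨X, hXdef⟩ : ∃ X, X = lawE (pR μ) μ (fun _ : Fin a => st)
    (fun x ω₁ => pathE (pR μ) σ (endAt x ω₁) (Y x ω₁)) := ⟨_, rfl⟩
  rw [← hXdef] at hX
  have hX' : X ≤ ((a + m) * freeD μ st / n + log 2 / n) / l + C * l := by
    have e : ((a + m) * freeD μ st / n + log 2 / n) / l + C * l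
        = ((a + m) * freeD μ st + (log 2 + C / n * (n * l) ^ 2)) / (n * l) := by field_simp; ring
    rw [e, le_div_iff₀ (mul_pos hn' hl)]
    linarith
  refine le_trans ?_ (mul_le_mul_of_nonneg_left hX' zero_le_two)
  rw [hXdef]
  simp only [lawE, mul_sum]
  refine sum_le_sum fun x _ => ?_
  rw [mul_left_comm]
  refine mul_le_mul_of_nonneg_left ?_ (hμ x).le
  have hZb : ∀ ω₁, |pathE (pR μ) σ (endAt x ω₁) (Y x ω₁)| ≤ 2 * M₀ := fun ω₁ =>
    (pathE_meas σ okp _ (Y x) (hYm x) (2 * M₀) (hYb x) (endAt x ω₁)).2 ω₁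
  have hZm : Measurable fun ω₁ => pathE (pR μ) σ (endAt x ω₁) (Y x ω₁) :=
    (measurable_atEnd (P := Unit) x (Φ := fun ω₁ z _ => pathE (pR μ) σ z (Y x ω₁))
      fun z => ((pathE_meas σ okp _ (Y x) (hYm x) (2 * M₀) (hYb x) z).1).comp measurable_fst).comp
      (measurable_id.prodMk (measurable_const (a := ())))
  have hD : ∀ z, Measurable fun q : (Fin a → (Fin n → ℝ) × Conf n)
      × (Fin m → (Fin n → ℝ) × Conf n) => |siteTest K σ ψ F (cf x q.1) z q.2
        - pathE (pR μ) σ z (siteTest K σ ψ F (cf x q.1) z)| := fun z =>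
    continuous_abs.measurable.comp ((hTz x z).sub ((hpM x z).1.comp measurable_fst))
  have hDb : ∀ z ω₁ ω, |(|siteTest K σ ψ F (cf x ω₁) z ω
      - pathE (pR μ) σ z (siteTest K σ ψ F (cf x ω₁) z)|)| ≤ 2 * M₀ := fun z ω₁ ω => by
    rw [abs_abs]; exact (abs_sub _ _).trans (by linarith [hb x ω₁ z ω, (hpM x z).2 ω₁])
  refine (pathE_mono (fun _ : Fin a => st) okp _
    (fun ω₁ => 2 * pathE (pR μ) σ (endAt x ω₁) (Y x ω₁) + 0)
    ((measurable_atEnd (P := Unit) x (Φ := fun ω₁ z _ => pathE (pR μ) σ z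
        fun ω => |siteTest K σ ψ F (cf x ω₁) z ω
          - pathE (pR μ) σ z (siteTest K σ ψ F (cf x ω₁) z)|)
      fun z => ((pathE_meas σ okp _ (fun ω₁ ω => |siteTest K σ ψ F (cf x ω₁) z ω
          - pathE (pR μ) σ z (siteTest K σ ψ F (cf x ω₁) z)|) (hD z) (2 * M₀) (hDb z) z).1).comp
        measurable_fst).comp (measurable_id.prodMk (measurable_const (a := ()))))
    ((hZm.const_mul 2).add_const 0) (4 * M₀) (fun ω₁ => ?_) (fun ω₁ => ?_)
    (fun ω₁ => ?_) x).trans_eq ?_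
  · refine ((pathE_meas σ okp _ (fun ω₁ ω => |siteTest K σ ψ F (cf x ω₁) (endAt x ω₁) ω
      - pathE (pR μ) σ (endAt x ω₁) (siteTest K σ ψ F (cf x ω₁) (endAt x ω₁))|)
      (measurable_atEnd x (Φ := fun ω₁ z ω => |siteTest K σ ψ F (cf x ω₁) z ω
        - pathE (pR μ) σ z (siteTest K σ ψ F (cf x ω₁) z)|) hD) (2 * M₀)
      (fun ω₁ ω => hDb _ ω₁ ω) (endAt x ω₁)).2 ω₁).trans ?_
    linarith [(abs_nonneg _).trans (hZb ω₁)]
  · rw [add_zero, abs_mul, abs_two]; linarith [hZb ω₁]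
  · rw [add_zero]
    exact pathE_dev σ okp ((hTz x (endAt x ω₁)).comp (measurable_const.prodMk measurable_id))
      (hb x ω₁ _) ((hqM x (endAt x ω₁)).2 ω₁) _
  · rw [pathE_affine (fun _ : Fin a => st) okp _ hZm (2 * M₀) hZb, add_zero]

end Vale.Agent.P150.Fast
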