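import Mathlib
import Vale.Agent.P150.Fast.Cavity.Stmt
import Vale.Agent.P150.Fast.Cavity.SliceKer
import Vale.Agent.P150.Fast.Cavity.SliceLaw

/-!
Exported statement of the core of M4 (P150): in a frozen, sliced window whose potentials are flat
the coupling field of a site is normal with variance `β² (1 - q)`, for all tests at once.
-/

open MeasureTheory Real Finset Filter
open scoped Matrix

namespace Vale.Agent.P150.Fast

variable {n : ℕ}

/-- A bump: continuously differentiable, at most one, at least `1 - 2 u²`. -/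
noncomputable def bumpC (u : ℝ) : ℝ := max 0 (1 - u ^ 2) ^ 2

/-- The weight of the noise coordinate in a sliced step at scale `s`. -/
noncomputable def sliceFun (s κ : ℝ) (u : ℝ) : ℝ := bumpC (√(1 - s) * u / κ)

/-- The sliced step with site `i` frozen at `b`. -/
noncomputable def qFrz (β : ℝ) (d : Dis n) (s κ : ℝ) (ν : Conf n → ℝ) (h : Fin n → ℝ)
    (S : Finset (Fin n)) (i : Fin n) (b : Bool) : Conf n → Conf n → ℝ :=
  sliceKer (priorAt (aop n β d) s ν h) ((⟨(1 - s) • aop n β d, h, S⟩ : Step n).freeze i) (onVal i b)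
    (fun y => sliceFun s κ (sliceU ((1 - s) • aop n β d) i b y))
    (nE 0 (((1 - s) • aop n β d)⁻¹ i i) (sliceFun s κ))

/-- A test of the coupling field and the external field: bounded by one and one-Lipschitz. -/
def IsTest2 (Φ : ℝ → ℝ → ℝ) : Prop :=
  (∀ u v, |Φ u v| ≤ 1) ∧ ∀ u v u' v', |Φ u v - Φ u' v'| ≤ |u - u'| + |v - v'|

/-- A test read at site `i`. -/
noncomputable def obsAt (β : ℝ) (d : Dis n) (h : Fin n → ℝ) (Φ : ℝ → ℝ → ℝ) (i : Fin n)
    (x : Conf n) : ℝ := Φ (zField β d x i) (h i)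

/-- The value of a test `H` sliced steps later, as a function blind to the site. -/
noncomputable def winW (β : ℝ) (d : Dis n) (s κ : ℝ) (ν : Conf n → ℝ) (h : Fin n → ℝ)
    (S : Finset (Fin n)) (i : Fin n) (b : Bool) (Φ : ℝ → ℝ → ℝ) (H : ℕ) (x : Conf n) : ℝ :=
  powOp (qFrz β d s κ ν h S i b) H (obsAt β d h Φ i) (Function.update x i b)

/-- The potential of the spins. -/
noncomputable def potX (β : ℝ) (d : Dis n) (s : ℝ) (ν : Conf n → ℝ) (h : Fin n → ℝ)
    (S : Finset (Fin n)) (k : ℕ) : ℝ :=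
  (n : ℝ)⁻¹ * ∑ i, ip (priorAt (aop n β d) s ν h) (fun x => vec x i)
    (farOp β d s ν h S k fun x => vec x i)

/-- The potential of the tests in sliced windows. -/
noncomputable def potW (β : ℝ) (d : Dis n) (s κ : ℝ) (ν : Conf n → ℝ) (h : Fin n → ℝ)
    (S : Finset (Fin n)) (Φs : Finset (ℝ → ℝ → ℝ)) (k : ℕ) : ℝ :=
  (n : ℝ)⁻¹ * ∑ i ∈ Sᶜ, ∑ b : Bool, ∑ Φ ∈ Φs,
    ip (fun x => onVal i b x * priorAt (aop n β d) s ν h x) (obsAt β d h Φ i)
      (powOp (qFrz β d s κ ν h S i b) k (obsAt β d h Φ i))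

/-- The drop of both potentials between two times, averaged over the field. -/
noncomputable def potDrop (β : ℝ) (d : Dis n) (u κ : ℝ) (ν : Conf n → ℝ) (S : Finset (Fin n))
    (Φs : Finset (ℝ → ℝ → ℝ)) (k l : ℕ) : ℝ :=
  fieldE u ν fun h =>
    (potX β d 0 ν h S k - potX β d 0 ν h S l) + (potW β d 0 κ ν h S Φs k - potW β d 0 κ ν h S Φs l)

/-- The distance of the window values at a state from one normal law of variance `β² (1 - q)`. -/
noncomputable def cellErr (β : ℝ) (d : Dis n) (s κ : ℝ) (ν : Conf n → ℝ) (h : Fin n → ℝ)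
    (S : Finset (Fin n)) (i : Fin n) (b : Bool) (Φs : Finset (ℝ → ℝ → ℝ)) (H : ℕ) (x : Conf n) : ℝ :=
  ⨅ a : ℝ, ∑ Φ ∈ Φs, |winW β d s κ ν h S i b Φ H x
    - nE a (farR β d s ν h S H x) fun u => Φ u (h i)|

/-- The mean of `cellErr` over the free sites and both values. -/
noncomputable def coreErr (β : ℝ) (d : Dis n) (u κ : ℝ) (ν : Conf n → ℝ) (S : Finset (Fin n))
    (Φs : Finset (ℝ → ℝ → ℝ)) (H : ℕ) : ℝ :=
  fieldE u ν fun h => (n : ℝ)⁻¹ * ∑ i ∈ Sᶜ, ∑ b : Bool,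
    ∑ x, onVal i b x * priorAt (aop n β d) 0 ν h x * cellErr β d 0 κ ν h S i b Φs H x

/-- The core of the cavity picture: flat potentials force normal windows. -/
def CoreStmt (β : ℝ) : Prop :=
  ∀ θ : ℝ, 0 < θ → ∀ Φs : Finset (ℝ → ℝ → ℝ), (∀ Φ ∈ Φs, IsTest2 Φ) →
    ∃ (κ ϑ : ℝ) (K : ℕ), 0 < κ ∧ κ ≤ 1 ∧ 0 < ϑ ∧ ∀ H : ℕ, 1 ≤ H → ∃ η : ℝ, 0 < η ∧
      ∀ δ : ℝ, 0 < δ → ∀ᶠ n : ℕ in atTop,
        (disX n).real {d | ¬ ∀ (ν : Conf n → ℝ) (S : Finset (Fin n)), (∀ x, 0 < ν x) →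
          ∑ x, ν x = 1 →
          fieldE 0 ν (fun h => freeD (priorAt (aop n β d) 0 ν h) ⟨aop n β d, h, S⟩) ≤ η * n →
          potDrop β d 0 κ ν S Φs H ((K + 2) * H) ≤ ϑ →
          coreErr β d 0 κ ν S Φs H ≤ θ} ≤ δ

end Vale.Agent.P150.Fast
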