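import Mathlib
import Vale.Agent.P150.Fast.Cavity.CoreStmt

/-!
The bump of the windows is continuously differentiable, and tests are uniformly close to tests
with two bounded derivatives (P150).
-/

open MeasureTheory Real Filter
open scoped Topology

namespace Vale.Agent.P150.Fast

theorem hasDerivAt_posSq (t : ℝ) :
    HasDerivAt (fun x : ℝ => max 0 x ^ 2) (2 * max 0 t) t := by
  rcases lt_trichotomy t 0 with h | h | h
  · rw [max_eq_left h.le, mul_zero]
    refine (hasDerivAt_const t (0 : ℝ)).congr_of_eventuallyEq ?_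
    filter_upwards [gt_mem_nhds h] with x hx
    simp [max_eq_left hx.le]
  · subst h
    rw [max_self, mul_zero, hasDerivAt_iff_isLittleO]
    simp only [max_self, smul_zero, sub_zero, ne_eq, OfNat.ofNat_ne_zero, not_false_eq_true,
      zero_pow]
    have hb : (fun x : ℝ => max 0 x ^ 2) =O[𝓝 0] fun x : ℝ => x ^ 2 :=
      Asymptotics.IsBigO.of_bound 1 (Eventually.of_forall fun x => by
        rw [one_mul, norm_pow, norm_pow]
        refine pow_le_pow_left₀ (norm_nonneg _) ?_ 2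
        rw [Real.norm_eq_abs, Real.norm_eq_abs, abs_of_nonneg (le_max_left _ _)]
        exact max_le (abs_nonneg _) (le_abs_self _))
    refine hb.trans_isLittleO ?_
    have := Asymptotics.isLittleO_pow_pow (𝕜 := ℝ) (show 1 < 2 by norm_num)
    simpa using this
  · rw [max_eq_right h.le]
    have h2 := hasDerivAt_pow 2 t
    simp only [Nat.reduceSub, pow_one, Nat.cast_ofNat] at h2
    refine h2.congr_of_eventuallyEq ?_
    filter_upwards [lt_mem_nhds h] with x hx
    rw [max_eq_right hx.le]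

theorem bumpC_deriv (u : ℝ) : HasDerivAt bumpC (-4 * u * max 0 (1 - u ^ 2)) u := by
  have h := (hasDerivAt_posSq (1 - u ^ 2)).comp u ((hasDerivAt_pow 2 u).const_sub 1)
  refine h.congr_deriv ?_
  push_cast
  ring

theorem bumpC_deriv_bdd (u : ℝ) : |-4 * u * max 0 (1 - u ^ 2)| ≤ 4 := by
  rcases le_total (u ^ 2) 1 with h | h
  · have hu := abs_le.1 (abs_le_one_iff_mul_self_le_one.2 (by rwa [pow_two] at h))
    rw [max_eq_right (by linarith), abs_le]
    have h0 : (0 : ℝ) ≤ 1 - u ^ 2 := by linarith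
    constructor <;> linarith [mul_nonneg (by linarith : (0 : ℝ) ≤ 1 - u) h0,
      mul_nonneg (by linarith : (0 : ℝ) ≤ 1 + u) h0, sq_nonneg u]
  · rw [max_eq_left (by linarith), mul_zero, abs_zero]; norm_num

theorem bumpC_mem (u : ℝ) : 0 ≤ bumpC u ∧ bumpC u ≤ 1 :=
  ⟨sq_nonneg _, pow_le_one₀ (le_max_left _ _) (max_le zero_le_one (by linarith [sq_nonneg u]))⟩

theorem bumpC_ge (u : ℝ) : 1 - 2 * u ^ 2 ≤ bumpC u := by
  rw [bumpC]
  rcases le_total (u ^ 2) 1 with h | h
  · rw [max_eq_right (by linarith)]; linarith [sq_nonneg (u ^ 2)]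
  · rw [max_eq_left (by linarith)]; linarith

theorem bumpC_supp {u : ℝ} (h : bumpC u ≠ 0) : |u| ≤ 1 := by
  by_contra hu
  refine h ?_
  have : 1 ≤ u ^ 2 := (one_le_sq_iff_one_le_abs u).2 (le_of_lt (not_le.1 hu))
  simp [bumpC, max_eq_left (by linarith : 1 - u ^ 2 ≤ 0)]

@[fun_prop]
theorem continuous_bumpC : Continuous bumpC := by unfold bumpC; fun_prop

theorem bumpC_even (u : ℝ) : bumpC (-u) = bumpC u := by simp [bumpC]

/-- The average over a box to the right. -/
noncomputable def boxAvg (δ : ℝ) (F : ℝ → ℝ) (u : ℝ) : ℝ := δ⁻¹ * ∫ x in u..u + δ, F x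

theorem boxAvg_deriv {F : ℝ → ℝ} (hF : Continuous F) (δ u : ℝ) :
    HasDerivAt (boxAvg δ F) (δ⁻¹ * (F (u + δ) - F u)) u := by
  have hG : ∀ v, HasDerivAt (fun w => ∫ x in (0 : ℝ)..w, F x) (F v) v := fun v =>
    hF.integral_hasStrictDerivAt 0 v |>.hasDerivAt
  have e : boxAvg δ F
      = fun v => δ⁻¹ * ((∫ x in (0 : ℝ)..v + δ, F x) - ∫ x in (0 : ℝ)..v, F x) := by
    funext v
    rw [boxAvg, intervalIntegral.integral_interval_sub_left (hF.intervalIntegrable _ _)
      (hF.intervalIntegrable _ _)]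
  rw [e]
  exact (((hG (u + δ)).comp_add_const u δ).sub (hG u)).const_mul _

theorem boxAvg_bdd {F : ℝ → ℝ} {B : ℝ} (hB : ∀ u, |F u| ≤ B) {δ : ℝ} (hδ : 0 < δ) (u : ℝ) :
    |boxAvg δ F u| ≤ B := by
  have h := intervalIntegral.norm_integral_le_of_norm_le_const (a := u) (b := u + δ) (C := B)
    (f := F) fun x _ => hB x
  rw [add_sub_cancel_left, abs_of_pos hδ, Real.norm_eq_abs] at h
  rw [boxAvg, abs_mul, abs_inv, abs_of_pos hδ, inv_mul_le_iff₀ hδ]
  linarith

theorem boxAvg_close {F : ℝ → ℝ} (hL : ∀ u v, |F u - F v| ≤ |u - v|) {δ : ℝ} (hδ : 0 < δ)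
    (hF : Continuous F) (u : ℝ) : |boxAvg δ F u - F u| ≤ δ := by
  have h := intervalIntegral.norm_integral_le_of_norm_le_const (a := u) (b := u + δ) (C := δ)
    (f := fun x => F x - F u) fun x hx => by
      rw [Set.uIoc_of_le (by linarith)] at hx
      refine (hL x u).trans ?_
      rw [abs_of_pos (by linarith [hx.1])]
      linarith [hx.2]
  rw [intervalIntegral.integral_sub (hF.intervalIntegrable _ _) intervalIntegrable_const,
    intervalIntegral.integral_const, add_sub_cancel_left, abs_of_pos hδ, smul_eq_mul,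
    Real.norm_eq_abs] at h
  have e : boxAvg δ F u - F u = δ⁻¹ * ((∫ x in u..u + δ, F x) - δ * F u) := by
    rw [boxAvg, mul_sub, inv_mul_cancel_left₀ hδ.ne']
  rw [e, abs_mul, abs_inv, abs_of_pos hδ, inv_mul_le_iff₀ hδ]
  linarith

theorem continuous_of_lip {F : ℝ → ℝ} (hL : ∀ u v, |F u - F v| ≤ |u - v|) : Continuous F :=
  (LipschitzWith.of_dist_le_mul (K := 1) fun u v => by
    rw [NNReal.coe_one, one_mul, Real.dist_eq, Real.dist_eq]; exact hL u v).continuous

theorem boxAvg_lip {F : ℝ → ℝ} (hL : ∀ u v, |F u - F v| ≤ |u - v|) {δ : ℝ} (hδ : 0 < δ)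
    (u v : ℝ) : |boxAvg δ F u - boxAvg δ F v| ≤ |u - v| := by
  have h := Convex.norm_image_sub_le_of_norm_hasDerivWithin_le (C := 1) (s := Set.univ)
    (f := boxAvg δ F) (fun x _ => (boxAvg_deriv (continuous_of_lip hL) δ x).hasDerivWithinAt)
    (fun x _ => by
      rw [Real.norm_eq_abs, abs_mul, abs_inv, abs_of_pos hδ, inv_mul_le_iff₀ hδ, mul_one]
      refine (hL _ _).trans_eq ?_
      rw [add_sub_cancel_left, abs_of_pos hδ])
    convex_univ (Set.mem_univ v) (Set.mem_univ u)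
  simpa [Real.norm_eq_abs] using h

/-- The smoothed test. -/
noncomputable def smoothT (δ : ℝ) (F : ℝ → ℝ) : ℝ → ℝ := boxAvg δ (boxAvg δ F)

theorem smoothT_close {F : ℝ → ℝ} (hL : ∀ u v, |F u - F v| ≤ |u - v|) {δ : ℝ} (hδ : 0 < δ)
    (u : ℝ) : |smoothT δ F u - F u| ≤ 2 * δ := by
  have h1 := boxAvg_close (boxAvg_lip hL hδ) hδ (continuous_of_lip (boxAvg_lip hL hδ)) u
  have h2 := boxAvg_close hL hδ (continuous_of_lip hL) u
  have := abs_sub_le (smoothT δ F u) (boxAvg δ F u) (F u)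
  unfold smoothT at *
  linarith

theorem smoothT_smooth {F : ℝ → ℝ} (hL : ∀ u v, |F u - F v| ≤ |u - v|) (hb : ∀ u, |F u| ≤ 1)
    {δ : ℝ} (hδ : 0 < δ) : SmoothBd (max 1 (2 / δ)) (smoothT δ F) := by
  set G := boxAvg δ F with hG
  set dG : ℝ → ℝ := fun u => δ⁻¹ * (F (u + δ) - F u) with hdG
  have hF := continuous_of_lip hL
  have hGd : ∀ u, HasDerivAt G (dG u) u := boxAvg_deriv hF δ
  have hd1 : ∀ u, |dG u| ≤ 1 := fun u => by
    rw [abs_mul, abs_inv, abs_of_pos hδ, inv_mul_le_iff₀ hδ, mul_one]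
    refine (hL _ _).trans_eq ?_
    rw [add_sub_cancel_left, abs_of_pos hδ]
  refine ⟨fun u => δ⁻¹ * (G (u + δ) - G u), fun u => δ⁻¹ * (dG (u + δ) - dG u),
    boxAvg_deriv (continuous_of_lip (boxAvg_lip hL hδ)) δ,
    fun u => (((hGd (u + δ)).comp_add_const u δ).sub (hGd u)).const_mul _, by fun_prop,
    fun u => ⟨?_, ?_, ?_⟩⟩
  · exact (boxAvg_bdd (boxAvg_bdd hb hδ) hδ u).trans (le_max_left _ _)
  · refine le_trans ?_ (le_max_left _ _)
    rw [abs_mul, abs_inv, abs_of_pos hδ, inv_mul_le_iff₀ hδ, mul_one]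
    refine (boxAvg_lip hL hδ _ _).trans_eq ?_
    rw [add_sub_cancel_left, abs_of_pos hδ]
  · refine le_trans ?_ (le_max_right _ _)
    rw [abs_mul, abs_inv, abs_of_pos hδ, inv_mul_eq_div]
    exact div_le_div_of_nonneg_right ((abs_sub _ _).trans (by linarith [hd1 (u + δ), hd1 u])) hδ.le

end Vale.Agent.P150.Fast
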