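import Mathlib
import Vale.Agent.P150.Fast.DomStmt
import Vale.Agent.P150.Fast.Cavity.Gibbs

/-!
The one-step operators of the causal model of one site: positivity, bounded measurable functions,
and what depends on the past only. Used for P150 (module M4c).
-/

open MeasureTheory ProbabilityTheory Real Finset
open scoped Matrix

namespace Vale.Agent.P150.Fast

variable {r : ℕ}

/-- Bounded and measurable. -/
def BM {α : Type*} [MeasurableSpace α] (F : α → ℝ) : Prop :=
  Measurable F ∧ ∃ B, ∀ d, |F d| ≤ B

/-- `F` depends only on the spins and noises up to `b` and the innovations up to `2 b + 1`. -/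
def Upto (b : ℕ) (F : Site r → ℝ) : Prop :=
  ∀ d d' : Site r, (∀ i : Fin (r + 1), i.1 ≤ b → d.1 i = d'.1 i) →
    (∀ i : Fin (r + 1), i.1 ≤ b → d.2.1 i = d'.2.1 i) →
    (∀ l : Fin (ncol r), l.1 ≤ 2 * b + 1 → d.2.2 l = d'.2.2 l) → F d = F d'

/-- Three independent standard normal variables. -/
noncomputable def g3 : Measure (ℝ × ℝ × ℝ) :=
  (gaussianReal 0 1).prod ((gaussianReal 0 1).prod (gaussianReal 0 1))

instance g3_prob : IsProbabilityMeasure g3 := by unfold g3; infer_instance

/-- The data after step `b` with standard variables `g` and new spin `x`. -/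
noncomputable def upd (β W : ℝ) (b : Fin r) (d : Site r) (g : ℝ × ℝ × ℝ) (x : Bool) : Site r :=
  (Function.update d.1 b.succ x, Function.update d.2.1 b.succ (√W * g.1),
    Function.update (Function.update d.2.2 (ecol b.succ) (β * g.2.1)) (xcol b.succ) (β * g.2.2))

/-- A weighted step. -/
noncomputable def kerM (β W : ℝ) (b : Fin r) (K : Bool → Site r → ℝ) (F : Site r → ℝ) (d : Site r) :
    ℝ :=
  ∫ g, ∑ x, K x (upd β W b d g x) * F (upd β W b d g x) ∂g3

/-- The probability of the spin after step `b`. -/
noncomputable def flip1 (κ s : ℝ) (θ : Coef (ncol r)) (free : Bool) (b : Fin r) (d : Site r) : ℝ :=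
  if free then sig (d.1 b.succ) (ySite κ s θ d b)
  else if d.1 b.succ = d.1 b.castSucc then 1 else 0

/-- One step of the model. -/
noncomputable def stepM (β κ W s : ℝ) (θ : Coef (ncol r)) (free : Bool) (b : Fin r) :
    (Site r → ℝ) → Site r → ℝ :=
  kerM β W b fun _ => flip1 κ s θ free b

/-- One step, nothing beyond the horizon. -/
noncomputable def stepN (β κ W s : ℝ) (θ : Coef (ncol r)) (free : Bool) (b : ℕ) :
    (Site r → ℝ) → Site r → ℝ :=
  if h : b < r then stepM β κ W s θ free ⟨b, h⟩ else id

/-- The composition of the operators `T b` for `h ≤ b < t`. -/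
def iterM {α : Type*} (T : ℕ → (α → ℝ) → α → ℝ) (h : ℕ) : ℕ → (α → ℝ) → α → ℝ
  | 0 => id
  | t + 1 => fun F => if h ≤ t then iterM T h t (T t F) else F

/-- The conditional expectation given the past up to `h` of what is known at `t`. -/
noncomputable def condM (β κ W s : ℝ) (θ : Coef (ncol r)) (free : Bool) (h t : ℕ) :
    (Site r → ℝ) → Site r → ℝ :=
  iterM (stepN β κ W s θ free) h t

/-- A positive linear operator on bounded measurable functions. -/
structure PosOp (T : (Site r → ℝ) → Site r → ℝ) : Prop where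
  bm : ∀ {F}, BM F → BM (T F)
  add : ∀ {F G}, BM F → BM G → T (F + G) = T F + T G
  smul : ∀ (a : ℝ) (F), T (a • F) = a • T F
  mono : ∀ {F G}, BM F → BM G → (∀ d, F d ≤ G d) → ∀ d, T F d ≤ T G d

section BM

variable {α : Type*} [MeasurableSpace α] {F G : α → ℝ}

theorem BM.const (c : ℝ) : BM fun _ : α => c := ⟨measurable_const, |c|, fun _ => le_rfl⟩

theorem BM.add (hF : BM F) (hG : BM G) : BM (F + G) := by
  obtain ⟨A, hA⟩ := hF.2
  obtain ⟨B, hB⟩ := hG.2
  exact ⟨hF.1.add hG.1, A + B, fun d => (abs_add_le _ _).trans (add_le_add (hA d) (hB d))⟩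

theorem BM.mul (hF : BM F) (hG : BM G) : BM (F * G) := by
  obtain ⟨A, hA⟩ := hF.2
  obtain ⟨B, hB⟩ := hG.2
  refine ⟨hF.1.mul hG.1, A * B, fun d => ?_⟩
  rw [Pi.mul_apply, abs_mul]
  exact mul_le_mul (hA d) (hB d) (abs_nonneg _) ((abs_nonneg _).trans (hA d))

theorem BM.smul (hF : BM F) (c : ℝ) : BM (c • F) := (BM.const c).mul hF

theorem BM.sub (hF : BM F) (hG : BM G) : BM (F - G) := by
  rw [sub_eq_add_neg, ← neg_one_smul ℝ G]
  exact hF.add (hG.smul _)

theorem BM.exp (hF : BM F) : BM fun d => Real.exp (F d) := by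
  obtain ⟨A, hA⟩ := hF.2
  exact ⟨hF.1.exp, Real.exp A, fun d => by
    rw [abs_of_pos (exp_pos _)]; exact exp_le_exp.2 (abs_le.1 (hA d)).2⟩

theorem BM.integrable (hF : BM F) (μ : Measure α) [IsFiniteMeasure μ] : Integrable F μ := by
  obtain ⟨A, hA⟩ := hF.2
  exact Integrable.of_bound hF.1.aestronglyMeasurable A (.of_forall hA)

theorem BM.comp {γ : Type*} [MeasurableSpace γ] (hF : BM F) {f : γ → α} (hf : Measurable f) :
    BM fun c => F (f c) := by
  obtain ⟨A, hA⟩ := hF.2
  exact ⟨hF.1.comp hf, A, fun c => hA _⟩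

theorem BM.sum {ι : Type*} (S : Finset ι) {f : ι → α → ℝ} (hf : ∀ i ∈ S, BM (f i)) :
    BM fun d => ∑ i ∈ S, f i d := by
  classical
  induction S using Finset.induction_on with
  | empty => simpa using BM.const (0 : ℝ)
  | insert a S ha ih =>
    simp only [Finset.sum_insert ha]
    exact (hf a (mem_insert_self _ _)).add (ih fun i hi => hf i (mem_insert_of_mem hi))

end BM

theorem Upto.mono {a b : ℕ} {F : Site r → ℝ} (hF : Upto a F) (h : a ≤ b) : Upto b F :=
  fun d d' h1 h2 h3 => hF d d' (fun i hi => h1 i (hi.trans h)) (fun i hi => h2 i (hi.trans h))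
    fun l hl => h3 l (hl.trans (by omega))

theorem Upto.top (F : Site r → ℝ) : Upto r F := fun d d' h1 h2 h3 => by
  have e : d = d' := Prod.ext (funext fun i => h1 i (Nat.le_of_lt_succ i.2))
    (Prod.ext (funext fun i => h2 i (Nat.le_of_lt_succ i.2))
      (funext fun l => h3 l (by have := l.2; unfold ncol at this; omega)))
  rw [e]

theorem upto_const (b : ℕ) (c : ℝ) : Upto b fun _ : Site r => c := fun _ _ _ _ _ => rfl

theorem Upto.map₂ {b : ℕ} {F G : Site r → ℝ} (f : ℝ → ℝ → ℝ) (hF : Upto b F) (hG : Upto b G) :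
    Upto b fun d => f (F d) (G d) := fun d d' h1 h2 h3 => by
  simp only [hF d d' h1 h2 h3, hG d d' h1 h2 h3]

theorem colOf_congr {x x' e e' : Fin (r + 1) → ℝ} {k : Fin (ncol r)}
    (hx : ∀ i : Fin (r + 1), 2 * i.1 + 1 ≤ k.1 → x i = x' i)
    (he : ∀ i : Fin (r + 1), 2 * i.1 ≤ k.1 → e i = e' i) : colOf x e k = colOf x' e' k := by
  unfold colOf
  split
  · exact he _ (by dsimp only; omega)
  · exact hx _ (by dsimp only; omega)

theorem zSite_congr {C : ℝ} {θ : Coef (ncol r)} (hθ : NetOK C θ) {d d' : Site r} {k : Fin (ncol r)}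
    (hx : ∀ i : Fin (r + 1), 2 * i.1 + 1 ≤ k.1 → d.1 i = d'.1 i)
    (he : ∀ i : Fin (r + 1), 2 * i.1 ≤ k.1 → d.2.1 i = d'.2.1 i)
    (hq : ∀ l : Fin (ncol r), l ≤ k → d.2.2 l = d'.2.2 l) : zSite θ d k = zSite θ d' k := by
  unfold zSite
  refine sum_congr rfl fun l _ => ?_
  rcases lt_or_ge k l with h | h
  · simp [(hθ.2 k l h).2.2]
  rw [hq l h]
  congr 2
  refine sum_congr rfl fun c _ => ?_
  rcases lt_or_ge l c with h' | h'
  · simp [(hθ.2 l c h').2.1]
  congr 1
  refine sum_congr rfl fun j _ => ?_
  rcases lt_or_ge c j with h'' | h''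
  · simp [(hθ.2 c j h'').1]
  have hjk : j.1 ≤ k.1 := (h''.trans h').trans h
  congr 1
  exact colOf_congr (fun i hi => by rw [hx i (hi.trans hjk)]) fun i hi => he i (hi.trans hjk)

theorem ySite_congr {C : ℝ} {θ : Coef (ncol r)} (hθ : NetOK C θ) (κ s : ℝ) {d d' : Site r}
    {b : Fin r} (hx : ∀ i : Fin (r + 1), i.1 ≤ b.1 → d.1 i = d'.1 i)
    (he : ∀ i : Fin (r + 1), i.1 ≤ b.1 + 1 → d.2.1 i = d'.2.1 i)
    (hq : ∀ l : Fin (ncol r), l.1 ≤ 2 * b.1 + 2 → d.2.2 l = d'.2.2 l) :
    ySite κ s θ d b = ySite κ s θ d' b := by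
  have ha : ∀ k : Fin (ncol r), k.1 ≤ 2 * b.1 + 2 → aSite κ θ d k = aSite κ θ d' k := by
    intro k hk
    unfold aSite
    rw [zSite_congr hθ (fun i hi => hx i (by omega)) (fun i hi => he i (by omega))
      (fun l hl => hq l (le_trans hl hk))]
    congr 2
    exact colOf_congr (fun i hi => by rw [hx i (by omega)]) fun i hi => he i (by omega)
  unfold ySite hSite
  rw [ha _ (by simp [xcol]), ha _ (by simp [ecol]; omega), hx 0 (by simp), he 0 (by simp)]

theorem flip1_upto {C : ℝ} {θ : Coef (ncol r)} (hθ : NetOK C θ) (κ s : ℝ) (free : Bool) (b : Fin r) :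
    Upto (b.1 + 1) (flip1 κ s θ free b) := fun d d' h1 h2 h3 => by
  unfold flip1
  rw [ySite_congr hθ κ s (fun i hi => h1 i (by omega)) h2 (fun l hl => h3 l (by omega)),
    h1 b.succ (by simp), h1 b.castSucc (by simp)]

theorem Upto.upd_eq {a : ℕ} {F : Site r → ℝ} (hF : Upto a F) {β W : ℝ} {b : Fin r} (hb : a ≤ b.1)
    (d : Site r) (g : ℝ × ℝ × ℝ) (x : Bool) : F (upd β W b d g x) = F d := by
  refine hF _ _ (fun i hi => ?_) (fun i hi => ?_) fun l hl => ?_
  · exact Function.update_of_ne (fun e => by rw [e, Fin.val_succ] at hi; omega) _ _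
  · exact Function.update_of_ne (fun e => by rw [e, Fin.val_succ] at hi; omega) _ _
  · refine (Function.update_of_ne (fun e => ?_) _ _).trans (Function.update_of_ne (fun e => ?_) _ _)
    · rw [e] at hl; simp [xcol] at hl; omega
    · rw [e] at hl; simp [ecol] at hl; omega

theorem kerM_upto {β W : ℝ} {b : Fin r} {K : Bool → Site r → ℝ} {F : Site r → ℝ}
    (hK : ∀ x, Upto (b.1 + 1) (K x)) (hF : Upto (b.1 + 1) F) : Upto b.1 (kerM β W b K F) := by
  intro d d' h1 h2 h3
  unfold kerM
  congr 1
  funext g
  refine sum_congr rfl fun x _ => ?_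
  have key : ∀ H : Site r → ℝ, Upto (b.1 + 1) H → H (upd β W b d g x) = H (upd β W b d' g x) := by
    intro H hH
    refine hH _ _ (fun i hi => ?_) (fun i hi => ?_) fun l hl => ?_
    · rcases eq_or_ne i b.succ with rfl | hne
      · simp [upd]
      · simp only [upd, Function.update_of_ne hne]
        exact h1 i (by have := Fin.val_ne_of_ne hne; simp at this; omega)
    · rcases eq_or_ne i b.succ with rfl | hne
      · simp [upd]
      · simp only [upd, Function.update_of_ne hne]
        exact h2 i (by have := Fin.val_ne_of_ne hne; simp at this; omega)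
    · rcases eq_or_ne l (xcol b.succ) with rfl | hne
      · simp [upd]
      rcases eq_or_ne l (ecol b.succ) with rfl | hne'
      · simp [upd, Function.update_of_ne hne]
      simp only [upd, Function.update_of_ne hne, Function.update_of_ne hne']
      exact h3 l (by
        have := Fin.val_ne_of_ne hne; have := Fin.val_ne_of_ne hne'
        simp [xcol, ecol] at *; omega)
  rw [key _ (hK x), key F hF]

theorem kerM_pull {β W : ℝ} {b : Fin r} {K : Bool → Site r → ℝ} {G : Site r → ℝ} (hG : Upto b.1 G)
    (F : Site r → ℝ) : kerM β W b K (G * F) = G * kerM β W b K F := by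
  funext d
  simp only [kerM, Pi.mul_apply, ← integral_const_mul, mul_sum]
  congr 1
  funext g
  exact sum_congr rfl fun x _ => by rw [hG.upd_eq le_rfl]; ring

@[fun_prop]
theorem measurable_upd (β W : ℝ) (b : Fin r) (x : Bool) :
    Measurable fun p : Site r × (ℝ × ℝ × ℝ) => upd β W b p.1 p.2 x := by
  unfold upd
  refine Measurable.prodMk ?_ (Measurable.prodMk ?_ ?_)
  · exact measurable_update'.comp ((measurable_fst.comp measurable_fst).prodMk measurable_const)
  · exact measurable_update'.comp (Measurable.prodMk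
      (measurable_fst.comp (measurable_snd.comp measurable_fst)) (by fun_prop))
  · exact measurable_update'.comp (Measurable.prodMk
      (measurable_update'.comp (Measurable.prodMk
        (measurable_snd.comp (measurable_snd.comp measurable_fst)) (by fun_prop))) (by fun_prop))

theorem measurable_spinAt (i : Fin (r + 1)) : Measurable fun d : Site r => spin (d.1 i) :=
  (measurable_of_countable spin).comp ((measurable_pi_apply i).comp measurable_fst)

theorem measurable_colAt (k : Fin (ncol r)) :
    Measurable fun d : Site r => colOf (fun b => spin (d.1 b)) d.2.1 k := by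
  unfold colOf
  split
  · exact (measurable_pi_apply _).comp (measurable_fst.comp measurable_snd)
  · exact measurable_spinAt _

@[fun_prop]
theorem measurable_zSite (θ : Coef (ncol r)) (k : Fin (ncol r)) :
    Measurable fun d : Site r => zSite θ d k := by
  unfold zSite
  refine Finset.measurable_fun_sum _ fun l _ => Measurable.const_mul (Measurable.add ?_ ?_) _
  · exact (measurable_pi_apply l).comp (measurable_snd.comp measurable_snd)
  · exact Finset.measurable_fun_sum _ fun c _ => Measurable.const_mul
      (Finset.measurable_fun_sum _ fun j _ => Measurable.const_mul (measurable_colAt j) _) _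

@[fun_prop]
theorem measurable_ySite (κ s : ℝ) (θ : Coef (ncol r)) (b : Fin r) :
    Measurable fun d : Site r => ySite κ s θ d b := by
  have ha : ∀ k, Measurable fun d : Site r => aSite κ θ d k := fun k =>
    ((measurable_colAt k).const_mul κ).add (measurable_zSite θ k)
  exact ((ha _).add (ha _)).add (((measurable_spinAt 0).const_mul _).add
    (((measurable_pi_apply 0).comp (measurable_fst.comp measurable_snd)).const_mul _))

theorem flip1_bm (κ s : ℝ) (θ : Coef (ncol r)) (free : Bool) (b : Fin r) :
    BM (flip1 κ s θ free b) := by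
  refine ⟨?_, 1, fun d => ?_⟩
  · unfold flip1
    have hc : ∀ i : Fin (r + 1), Measurable fun d : Site r => d.1 i := fun i =>
      (measurable_pi_apply i).comp measurable_fst
    cases free
    · exact (measurable_of_countable fun p : Bool × Bool => if p.1 = p.2 then (1 : ℝ) else 0).comp
        ((hc b.succ).prodMk (hc b.castSucc))
    · have e : (fun d : Site r => if (true : Bool) = true then sig (d.1 b.succ) (ySite κ s θ d b)
          else if d.1 b.succ = d.1 b.castSucc then 1 else 0)
          = fun d => if d.1 b.succ = true then sig true (ySite κ s θ d b)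
            else sig false (ySite κ s θ d b) := by
        funext d; cases h : d.1 b.succ <;> simp
      rw [e]
      exact Measurable.ite (measurableSet_eq_fun (hc _) measurable_const)
        ((continuous_sig true).measurable.comp (measurable_ySite κ s θ b))
        ((continuous_sig false).measurable.comp (measurable_ySite κ s θ b))
  · unfold flip1
    cases free <;> simp only [Bool.false_eq_true, if_false, if_true]
    · split <;> simp
    · rw [abs_of_nonneg (sig_nonneg _ _)]; exact sig_le_one _ _

theorem flip1_nonneg (κ s : ℝ) (θ : Coef (ncol r)) (free : Bool) (b : Fin r) (d : Site r) :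
    0 ≤ flip1 κ s θ free b d := by
  unfold flip1
  split
  · exact sig_nonneg _ _
  · split <;> norm_num

theorem sig_total (y : ℝ) : sig true y + sig false y = 1 := by
  have : 0 < exp y + exp (-y) := by positivity
  simp only [sig, spin, if_true, Bool.false_eq_true, if_false, one_mul, neg_mul, ← add_div]
  exact div_self this.ne'

theorem flip1_sum {C : ℝ} {θ : Coef (ncol r)} (hθ : NetOK C θ) (β κ W s : ℝ) (free : Bool)
    (b : Fin r) (d : Site r) (g : ℝ × ℝ × ℝ) :
    ∑ x, flip1 κ s θ free b (upd β W b d g x) = 1 := by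
  have hy : ∀ x, ySite κ s θ (upd β W b d g x) b = ySite κ s θ (upd β W b d g true) b := fun x =>
    ySite_congr hθ κ s (fun i hi => by
      have hne : i ≠ b.succ := fun e => by rw [e, Fin.val_succ] at hi; omega
      simp [upd, Function.update_of_ne hne]) (fun i _ => by simp [upd]) fun l _ => by simp [upd]
  cases free
  · simp only [flip1, Bool.false_eq_true, if_false, Fintype.sum_bool, upd, Function.update_self,
      Function.update_of_ne (Fin.castSucc_lt_succ (i := b)).ne]
    cases d.1 b.castSucc <;> simp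
  · simp only [flip1, if_true, Fintype.sum_bool]
    rw [hy false]
    simpa [upd] using sig_total _

theorem kerM_posOp (β W : ℝ) (b : Fin r) {K : Bool → Site r → ℝ} (hK : ∀ x, BM (K x))
    (h0 : ∀ x d, 0 ≤ K x d) : PosOp (kerM β W b K) := by
  have hI : ∀ {F : Site r → ℝ}, BM F →
      BM fun p : Site r × (ℝ × ℝ × ℝ) => ∑ x, K x (upd β W b p.1 p.2 x) * F (upd β W b p.1 p.2 x) :=
    fun hF => BM.sum _ fun x _ =>
      ((hK x).comp (measurable_upd β W b x)).mul (hF.comp (measurable_upd β W b x))
  have hi : ∀ {F : Site r → ℝ}, BM F → ∀ d,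
      Integrable (fun g => ∑ x, K x (upd β W b d g x) * F (upd β W b d g x)) g3 := fun hF d =>
    ((hI hF).comp (f := fun g => (d, g)) (by fun_prop)).integrable _
  refine ⟨fun hF => ?_, fun hF hG => ?_, fun a F => ?_, fun hF hG h d => ?_⟩
  · obtain ⟨B, hB⟩ := (hI hF).2
    refine ⟨((hI hF).1.stronglyMeasurable.integral_prod_right').measurable, B, fun d => ?_⟩
    have := norm_integral_le_of_norm_le (μ := g3) (integrable_const B)
      (f := fun g => ∑ x, K x (upd β W b d g x) * _) (.of_forall fun g => hB (d, g))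
    simpa [Real.norm_eq_abs, kerM] using this
  · funext d
    simp only [kerM, Pi.add_apply, mul_add, sum_add_distrib]
    exact integral_add (hi hF d) (hi hG d)
  · funext d
    simp only [kerM, Pi.smul_apply, smul_eq_mul, ← integral_const_mul, mul_sum]
    congr 1; funext g; exact sum_congr rfl fun x _ => by ring
  · exact integral_mono (hi hF d) (hi hG d) fun g =>
      sum_le_sum fun x _ => mul_le_mul_of_nonneg_left (h _) (h0 _ _)

end Vale.Agent.P150.Fast
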