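import Mathlib
import Vale.Agent.P150.Fast.Cavity.Model

/-!
Conditional expectations in the causal model of one site, as compositions of the one-step
operators, and the model expectation through them. Used for P150 (module M4c).
-/

open MeasureTheory ProbabilityTheory Real Finset
open scoped Matrix

namespace Vale.Agent.P150.Fast

variable {r : ℕ} {T : ℕ → (Site r → ℝ) → Site r → ℝ} {β κ W s C : ℝ} {θ : Coef (ncol r)}

theorem PosOp.id : PosOp (r := r) _root_.id :=
  ⟨fun h => h, fun _ _ => rfl, fun _ _ => rfl, fun _ _ h => h⟩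

theorem PosOp.comp {A B : (Site r → ℝ) → Site r → ℝ} (hA : PosOp A) (hB : PosOp B) :
    PosOp fun F => A (B F) :=
  ⟨fun h => hA.bm (hB.bm h),
    fun hF hG => by rw [hB.add hF hG, hA.add (hB.bm hF) (hB.bm hG)],
    fun a F => by rw [hB.smul, hA.smul],
    fun hF hG h d => hA.mono (hB.bm hF) (hB.bm hG) (hB.mono hF hG h) d⟩

theorem PosOp.sub {A : (Site r → ℝ) → Site r → ℝ} (hA : PosOp A) {F G : Site r → ℝ} (hF : BM F)
    (hG : BM G) : A (F - G) = A F - A G := by
  have h := hA.add hF (hG.smul (-1))
  rw [hA.smul, neg_one_smul, neg_one_smul, ← sub_eq_add_neg, ← sub_eq_add_neg] at h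
  exact h

theorem PosOp.const_mul {A : (Site r → ℝ) → Site r → ℝ} (hA : PosOp A) (c : ℝ) (F : Site r → ℝ)
    (d : Site r) : A (fun e => c * F e) d = c * A F d := congrFun (hA.smul c F) d

theorem PosOp.const {A : (Site r → ℝ) → Site r → ℝ} (hA : PosOp A) (c : ℝ) (d : Site r) :
    A (fun _ => c) d = c * A (fun _ => 1) d := by
  rw [← hA.const_mul c]; simp

theorem PosOp.abs_map_le {A : (Site r → ℝ) → Site r → ℝ} (hA : PosOp A) {F G : Site r → ℝ} (hF : BM F)
    (hG : BM G) (h : ∀ d, |F d| ≤ G d) (d : Site r) : |A F d| ≤ A G d := by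
  refine abs_le.2 ⟨?_, hA.mono hF hG (fun e => (abs_le.1 (h e)).2) d⟩
  have := hA.mono (hG.smul (-1)) hF (fun e => by simpa using (abs_le.1 (h e)).1) d
  rw [hA.smul] at this
  simpa using this

theorem iterM_zero (T : ℕ → (Site r → ℝ) → Site r → ℝ) (h : ℕ) (F : Site r → ℝ) :
    iterM T h 0 F = F := rfl

theorem iterM_succ {h t : ℕ} (ht : h ≤ t) (F : Site r → ℝ) :
    iterM T h (t + 1) F = iterM T h t (T t F) := by simp [iterM, ht]

theorem iterM_of_le {h t : ℕ} (ht : t ≤ h) (F : Site r → ℝ) : iterM T h t F = F := by
  cases t with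
  | zero => rfl
  | succ t => simp [iterM, show ¬ h ≤ t by omega]

theorem iterM_trans {h m t : ℕ} (hm : h ≤ m) (ht : m ≤ t) (F : Site r → ℝ) :
    iterM T h m (iterM T m t F) = iterM T h t F := by
  induction t, ht using Nat.le_induction generalizing F with
  | base => rw [iterM_of_le le_rfl]
  | succ k hk ih => rw [iterM_succ hk, iterM_succ (hm.trans hk), ih]

theorem iterM_posOp (hT : ∀ b, PosOp (T b)) (h t : ℕ) : PosOp (iterM T h t) := by
  induction t with
  | zero => exact PosOp.id
  | succ t ih =>
    by_cases ht : h ≤ t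
    · have e : iterM T h (t + 1) = fun F => iterM T h t (T t F) := funext fun F => iterM_succ ht F
      rw [e]; exact ih.comp (hT t)
    · have e : iterM T h (t + 1) = _root_.id := funext fun F => iterM_of_le (by omega) F
      rw [e]; exact PosOp.id

theorem iterM_fix {h t : ℕ} {F : Site r → ℝ} (hT : ∀ b, h ≤ b → b < t → T b F = F) :
    iterM T h t F = F := by
  induction t with
  | zero => rfl
  | succ t ih =>
    by_cases ht : h ≤ t
    · rw [iterM_succ ht, hT t ht (Nat.lt_succ_self t)]
      exact ih fun b h1 h2 => hT b h1 (h2.trans (Nat.lt_succ_self t))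
    · exact iterM_of_le (by omega) F

theorem iterM_upto {h t : ℕ}
    (hT : ∀ b {F : Site r → ℝ}, h ≤ b → Upto (b + 1) F → Upto b (T b F)) (ht : h ≤ t)
    {F : Site r → ℝ} (hF : Upto t F) : Upto h (iterM T h t F) := by
  induction t, ht using Nat.le_induction generalizing F with
  | base => rwa [iterM_of_le le_rfl]
  | succ k hk ih => rw [iterM_succ hk]; exact ih (hT k hk hF)

theorem iterM_pull {h t : ℕ}
    (hT : ∀ b {G : Site r → ℝ}, Upto b G → ∀ F, T b (G * F) = G * T b F) {G : Site r → ℝ}
    (hG : Upto h G) (F : Site r → ℝ) : iterM T h t (G * F) = G * iterM T h t F := by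
  induction t generalizing F with
  | zero => rfl
  | succ t ih =>
    by_cases ht : h ≤ t
    · rw [iterM_succ ht, iterM_succ ht, hT t (hG.mono ht), ih]
    · rw [iterM_of_le (by omega), iterM_of_le (by omega)]

section Step

variable (β κ W s θ) (free : Bool)

theorem stepN_posOp (b : ℕ) : PosOp (stepN β κ W s θ free b) := by
  unfold stepN
  split
  · exact kerM_posOp β W _ (fun _ => flip1_bm κ s θ free _) fun _ d => flip1_nonneg κ s θ free _ d
  · exact PosOp.id

theorem stepN_pull (b : ℕ) {G : Site r → ℝ} (hG : Upto b G) (F : Site r → ℝ) :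
    stepN β κ W s θ free b (G * F) = G * stepN β κ W s θ free b F := by
  unfold stepN
  split
  · exact kerM_pull hG F
  · rfl

theorem condM_posOp (h t : ℕ) : PosOp (condM β κ W s θ free h t) :=
  iterM_posOp (stepN_posOp β κ W s θ free) h t

theorem condM_pull {h t : ℕ} {G : Site r → ℝ} (hG : Upto h G) (F : Site r → ℝ) :
    condM β κ W s θ free h t (G * F) = G * condM β κ W s θ free h t F :=
  iterM_pull (fun b _ hb => stepN_pull β κ W s θ free b hb) hG F

variable {θ} (hθ : NetOK C θ)
include hθ

theorem stepM_one (b : Fin r) (d : Site r) : stepM β κ W s θ free b (fun _ => 1) d = 1 := by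
  simp only [stepM, kerM, mul_one, flip1_sum hθ β κ W s free b d]
  simp

theorem stepN_one (b : ℕ) : stepN β κ W s θ free b (fun _ => 1) = fun _ => 1 := by
  unfold stepN
  split
  · exact funext fun d => stepM_one β κ W s free hθ _ d
  · rfl

theorem stepN_upto (b : ℕ) {F : Site r → ℝ} (hF : Upto (b + 1) F) :
    Upto b (stepN β κ W s θ free b F) := by
  unfold stepN
  split
  · next h => exact kerM_upto (b := ⟨b, h⟩) (fun _ => flip1_upto hθ κ s free ⟨b, h⟩) hF
  · next h =>
    intro d d' h1 h2 h3
    exact ((Upto.top (id F)).mono (show r ≤ b by omega)) d d' h1 h2 h3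

theorem condM_one (h t : ℕ) : condM β κ W s θ free h t (fun _ => 1) = fun _ => 1 :=
  iterM_fix fun b _ _ => stepN_one β κ W s free hθ b

theorem condM_upto {h t : ℕ} (ht : h ≤ t) {F : Site r → ℝ} (hF : Upto t F) :
    Upto h (condM β κ W s θ free h t F) :=
  iterM_upto (fun b _ _ hb => stepN_upto β κ W s free hθ b hb) ht hF

theorem condM_of_upto {h t : ℕ} {F : Site r → ℝ} (hF : Upto h F) :
    condM β κ W s θ free h t F = F := by
  have e : F = F * fun _ => 1 := by funext d; simp
  conv_lhs => rw [e, condM_pull β κ W s θ free hF, condM_one β κ W s free hθ]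
  exact e.symm

theorem condM_le {h t : ℕ} {F : Site r → ℝ} (hF : BM F) {B : ℝ} (hB : ∀ d, F d ≤ B) (d : Site r) :
    condM β κ W s θ free h t F d ≤ B := by
  have h' := (condM_posOp β κ W s θ free h t).mono hF (BM.const B) hB d
  rwa [(condM_posOp β κ W s θ free h t).const, condM_one β κ W s free hθ, mul_one] at h'

theorem condM_abs_le {h t : ℕ} {F : Site r → ℝ} (hF : BM F) {B : ℝ} (hB : ∀ d, |F d| ≤ B)
    (d : Site r) : |condM β κ W s θ free h t F d| ≤ B := by
  have h' := (condM_posOp β κ W s θ free h t).abs_map_le hF (BM.const B) hB d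
  rwa [(condM_posOp β κ W s θ free h t).const, condM_one β κ W s free hθ, mul_one] at h'

end Step

/-- The data of a site from standard variables. -/
noncomputable def mkSite (β W : ℝ) (x : Fin (r + 1) → Bool)
    (z : (Fin (r + 1) → ℝ) × (Fin (ncol r) → ℝ)) : Site r :=
  (x, modNoise W z.1, fun l => β * z.2 l)

/-- The expectation over independent uniform spins and normal noises and innovations; on
functions of the past up to `0` the average over the start. -/
noncomputable def initE (β W : ℝ) (F : Site r → ℝ) : ℝ :=
  ((2 : ℝ) ^ (r + 1))⁻¹ * ∑ x, ∫ z, F (mkSite β W x z)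
    ∂(gp (Fin (r + 1))).prod (gp (Fin (ncol r)))

@[fun_prop]
theorem continuous_modNoise (W : ℝ) : Continuous (modNoise (r := r) W) := by
  unfold modNoise
  refine continuous_pi fun i => ?_
  cases i using Fin.cases with
  | zero => simp only [Fin.cons_zero]; fun_prop
  | succ t => simp only [Fin.cons_succ]; fun_prop

@[fun_prop]
theorem measurable_mkSite (β W : ℝ) (x : Fin (r + 1) → Bool) :
    Measurable (mkSite (r := r) β W x) := by
  unfold mkSite
  exact measurable_const.prodMk (((continuous_modNoise W).measurable.comp measurable_fst).prodMk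
    (by fun_prop))

theorem mp_update {ι : Type*} [Fintype ι] [DecidableEq ι] (i : ι) :
    MeasurePreserving (fun p : (ι → ℝ) × ℝ => Function.update p.1 i p.2)
      ((gp ι).prod (gaussianReal 0 1)) (gp ι) := by
  have hm : Measurable fun p : (ι → ℝ) × ℝ => Function.update p.1 i p.2 := measurable_update'
  refine ⟨hm, (Measure.pi_eq fun t ht => ?_).symm⟩
  rw [Measure.map_apply hm (MeasurableSet.univ_pi ht)]
  have e : (fun p : (ι → ℝ) × ℝ => Function.update p.1 i p.2) ⁻¹' Set.univ.pi t
      = (Set.univ.pi (Function.update t i Set.univ)) ×ˢ t i := by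
    ext ⟨g, a⟩
    simp only [Set.mem_preimage, Set.mem_univ_pi, Set.mem_prod]
    constructor
    · intro h
      refine ⟨fun j => ?_, by simpa using h i⟩
      rcases eq_or_ne j i with rfl | hj
      · simp
      · simpa [Function.update_of_ne hj] using h j
    · rintro ⟨h, ha⟩ j
      rcases eq_or_ne j i with rfl | hj
      · simpa using ha
      · simpa [Function.update_of_ne hj] using h j
  rw [e, Measure.prod_prod, gp, Measure.pi_pi,
    ← Finset.prod_erase_mul _ _ (mem_univ i), Function.update_self, measure_univ, mul_one,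
    ← Finset.prod_erase_mul univ (fun j => gaussianReal 0 1 (t j)) (mem_univ i)]
  congr 1
  exact prod_congr rfl fun j hj => by rw [Function.update_of_ne (ne_of_mem_erase hj)]

theorem mp_reshuffle {α β γ δ : Type*} [MeasurableSpace α] [MeasurableSpace β] [MeasurableSpace γ]
    [MeasurableSpace δ] (a : Measure α) (b : Measure β) (c : Measure γ) (e : Measure δ) [SFinite a]
    [SFinite b] [SFinite c] [SFinite e] :
    MeasurePreserving (fun p : (α × β) × γ × δ => ((p.1.1, p.2.1), (p.1.2, p.2.2)))
      ((a.prod b).prod (c.prod e)) ((a.prod c).prod (b.prod e)) := by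
  have hm : MeasurePreserving (fun p : β × γ × δ => (p.2.1, (p.1, p.2.2)))
      (b.prod (c.prod e)) (c.prod (b.prod e)) := by
    have h1 := (measurePreserving_prodAssoc b c e).symm MeasurableEquiv.prodAssoc
    have h2 := (Measure.measurePreserving_swap (μ := b) (ν := c)).prod (MeasurePreserving.id e)
    exact (measurePreserving_prodAssoc c b e).comp (h2.comp h1)
  have h0 := measurePreserving_prodAssoc a b (c.prod e)
  have h3 := (measurePreserving_prodAssoc a c (b.prod e)).symm MeasurableEquiv.prodAssoc
  exact h3.comp (((MeasurePreserving.id a).prod hm).comp h0)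

/-- The standard variables are refreshed at the coordinates of step `b`. -/
theorem mp_upd (b : Fin r) :
    MeasurePreserving (fun p : ((Fin (r + 1) → ℝ) × (Fin (ncol r) → ℝ)) × ℝ × ℝ × ℝ =>
      (Function.update p.1.1 b.succ p.2.1,
        Function.update (Function.update p.1.2 (ecol b.succ) p.2.2.1) (xcol b.succ) p.2.2.2))
      (((gp (Fin (r + 1))).prod (gp (Fin (ncol r)))).prod g3)
      ((gp (Fin (r + 1))).prod (gp (Fin (ncol r)))) := by
  have h2 := (mp_update (xcol b.succ)).comp
    ((mp_update (ecol b.succ)).prod (MeasurePreserving.id (gaussianReal 0 1)))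
  have h3 := (measurePreserving_prodAssoc (gp (Fin (ncol r))) (gaussianReal 0 1)
    (gaussianReal 0 1)).symm MeasurableEquiv.prodAssoc
  exact ((mp_update b.succ).prod (h2.comp h3)).comp
    (mp_reshuffle (gp (Fin (r + 1))) (gp (Fin (ncol r))) (gaussianReal 0 1)
      ((gaussianReal 0 1).prod (gaussianReal 0 1)))

theorem sum_update_bool {ι : Type*} [Fintype ι] [DecidableEq ι] (i : ι) (h : (ι → Bool) → ℝ) :
    ∑ x : ι → Bool, ∑ b : Bool, h (Function.update x i b) = 2 * ∑ x, h x := by
  have e : ∀ x : ι → Bool,
      ∑ b : Bool, h (Function.update x i b) = h x + h (Function.update x i (!x i)) := fun x => by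
    rw [Fintype.sum_bool]
    cases hx : x i
    · simp only [Bool.not_false]
      rw [show Function.update x i false = x by rw [← hx, Function.update_eq_self]]; ring
    · simp only [Bool.not_true]
      rw [show Function.update x i true = x by rw [← hx, Function.update_eq_self]]
  rw [Finset.sum_congr rfl fun x _ => e x, sum_add_distrib, two_mul]
  congr 1
  have hinv : Function.Involutive fun x : ι → Bool => Function.update x i (!x i) := fun x => by
    funext j; rcases eq_or_ne j i with rfl | hj <;> simp [*]
  exact Equiv.sum_comp hinv.toPerm h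

/-- The weight of the steps before `b`. -/
noncomputable def preW (κ s : ℝ) (θ : Coef (ncol r)) (free : Bool) (b : ℕ) (d : Site r) : ℝ :=
  ∏ t ∈ univ.filter (fun t : Fin r => t.1 < b), flip1 κ s θ free t d

theorem preW_upto (hθ : NetOK C θ) (κ s : ℝ) (free : Bool) (b : ℕ) :
    Upto b (preW κ s θ free b) := fun d d' h1 h2 h3 =>
  prod_congr rfl fun t ht => ((flip1_upto hθ κ s free t).mono (mem_filter.1 ht).2) d d' h1 h2 h3

theorem preW_bm (κ s : ℝ) (θ : Coef (ncol r)) (free : Bool) (b : ℕ) : BM (preW κ s θ free b) := by
  unfold preW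
  induction univ.filter (fun t : Fin r => t.1 < b) using Finset.induction_on with
  | empty => simpa using BM.const (1 : ℝ)
  | insert a S ha ih => simp only [prod_insert ha]; exact (flip1_bm κ s θ free a).mul ih

theorem preW_succ (κ s : ℝ) (θ : Coef (ncol r)) (free : Bool) (b : Fin r) (d : Site r) :
    preW κ s θ free (b.1 + 1) d = preW κ s θ free b.1 d * flip1 κ s θ free b d := by
  have e : univ.filter (fun t : Fin r => t.1 < b.1 + 1)
      = insert b (univ.filter fun t : Fin r => t.1 < b.1) := by
    ext t; simp [Fin.ext_iff]; omega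
  rw [preW, e, prod_insert (by simp), mul_comm]; rfl

theorem partE_step (hθ : NetOK C θ) (free : Bool) (b : Fin r) {F : Site r → ℝ} (hF : BM F) :
    initE β W (fun d => preW κ s θ free b.1 d * stepM β κ W s θ free b F d)
      = 2 * initE β W (fun d => preW κ s θ free (b.1 + 1) d * F d) := by
  set μ := (gp (Fin (r + 1))).prod (gp (Fin (ncol r)))
  have hHb : BM fun d => preW κ s θ free (b.1 + 1) d * F d := (preW_bm κ s θ free _).mul hF
  obtain ⟨H, hH⟩ : ∃ H : Site r → ℝ, H = fun d => preW κ s θ free (b.1 + 1) d * F d := ⟨_, rfl⟩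
  rw [← hH] at hHb ⊢
  have hK : ∀ x, Integrable (fun z => H (mkSite β W x z)) μ := fun x =>
    (hHb.comp (measurable_mkSite β W x)).integrable _
  have e : ∀ x, ∫ z, preW κ s θ free b.1 (mkSite β W x z)
        * stepM β κ W s θ free b F (mkSite β W x z) ∂μ
      = ∑ y : Bool, ∫ z, H (mkSite β W (Function.update x b.succ y) z) ∂μ := by
    intro x
    have hp : ∀ y, Integrable (fun p : ((Fin (r + 1) → ℝ) × (Fin (ncol r) → ℝ)) × ℝ × ℝ × ℝ =>
        H (upd β W b (mkSite β W x p.1) p.2 y)) (μ.prod g3) := fun y =>
      (hHb.comp ((measurable_upd β W b y).comp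
        (((measurable_mkSite β W x).comp measurable_fst).prodMk measurable_snd))).integrable _
    calc _ = ∫ z, ∫ g, ∑ y, H (upd β W b (mkSite β W x z) g y) ∂g3 ∂μ := by
          congr 1; funext z
          simp only [stepM, kerM, ← integral_const_mul, mul_sum]
          congr 1; funext g
          refine sum_congr rfl fun y _ => ?_
          simp only [hH, preW_succ, (preW_upto hθ κ s free b.1).upd_eq le_rfl]
          ring
      _ = ∫ p, ∑ y, H (upd β W b (mkSite β W x p.1) p.2 y) ∂μ.prod g3 :=
          (integral_prod _ (integrable_finsetSum _ fun y _ => hp y)).symm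
      _ = _ := by
          rw [integral_finsetSum _ fun y _ => hp y]
          refine sum_congr rfl fun y _ => ?_
          have h := integral_map (μ := μ.prod g3) (mp_upd b).measurable.aemeasurable
            (f := fun z => H (mkSite β W (Function.update x b.succ y) z))
            (hHb.comp (measurable_mkSite β W _)).1.aestronglyMeasurable
          rw [(mp_upd b).map_eq] at h
          rw [h]
          refine integral_congr_ae (.of_forall fun p => ?_)
          simp only
          congr 1
          refine Prod.ext rfl (Prod.ext ?_ ?_) <;> funext i <;> simp only [upd, mkSite]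
          · rcases eq_or_ne i b.succ with rfl | hi
            · simp [modNoise]
            · cases i using Fin.cases with
              | zero => simp [modNoise, Function.update_of_ne hi]
              | succ t => simp [modNoise, Function.update_of_ne hi]
          · rcases eq_or_ne i (xcol b.succ) with rfl | hi
            · simp
            rcases eq_or_ne i (ecol b.succ) with rfl | hi'
            · simp [Function.update_of_ne hi]
            simp [Function.update_of_ne hi, Function.update_of_ne hi']
  simp only [initE]
  rw [sum_congr rfl fun x _ => e x,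
    sum_update_bool b.succ fun x => ∫ z, H (mkSite β W x z) ∂μ]
  ring

theorem modE_eq_partE (free : Bool) {f : Site r → ℝ} (hf : BM f) :
    modE β κ W s θ free f = 2 ^ r * initE β W (fun d => preW κ s θ free r d * f d) := by
  have hz : ∀ x : Fin (r + 1) → Bool, Integrable
      (fun z : (Fin (r + 1) → ℝ) × (Fin (ncol r) → ℝ) =>
        flipW κ s θ free (mkSite β W x z) * f (mkSite β W x z))
      ((gp (Fin (r + 1))).prod (gp (Fin (ncol r)))) := fun x => by
    have hw : BM (flipW (r := r) κ s θ free) := by
      have : flipW κ s θ free = fun d : Site r => 1 / 2 * preW κ s θ free r d := by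
        funext d
        rw [flipW, preW, show univ.filter (fun t : Fin r => t.1 < r) = univ from
          filter_true_of_mem fun t _ => t.2]
        rfl
      rw [this]; exact (BM.const _).mul (preW_bm κ s θ free r)
    exact ((hw.mul hf).comp (measurable_mkSite β W x)).integrable _
  have e : ∀ x : Fin (r + 1) → Bool,
      ∫ e, ∫ q, (let d : Site r := (x, modNoise W e, fun l => β * q l)
          flipW κ s θ free d * f d) ∂gp (Fin (ncol r)) ∂gp (Fin (r + 1))
        = 1 / 2 * ∫ z, preW κ s θ free r (mkSite β W x z) * f (mkSite β W x z)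
            ∂(gp (Fin (r + 1))).prod (gp (Fin (ncol r))) := fun x => by
    rw [← integral_const_mul, show (∫ z, 1 / 2 * (preW κ s θ free r (mkSite β W x z)
        * f (mkSite β W x z)) ∂(gp (Fin (r + 1))).prod (gp (Fin (ncol r))))
      = ∫ z, flipW κ s θ free (mkSite β W x z) * f (mkSite β W x z)
          ∂(gp (Fin (r + 1))).prod (gp (Fin (ncol r))) from ?_, integral_prod _ (hz x)]
    · rfl
    · congr 1; funext z
      rw [flipW, preW, show univ.filter (fun t : Fin r => t.1 < r) = univ from
        filter_true_of_mem fun t _ => t.2, ← mul_assoc]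
      rfl
  unfold modE initE
  rw [sum_congr rfl fun x _ => e x, ← mul_sum, pow_succ]
  field_simp

/-- The model expectation through the conditional expectations. -/
theorem modE_eq_initE (hθ : NetOK C θ) (free : Bool) {f : Site r → ℝ} (hf : BM f) :
    modE β κ W s θ free f = initE β W (condM β κ W s θ free 0 r f) := by
  have key : ∀ b, b ≤ r → ∀ F : Site r → ℝ, BM F →
      2 ^ b * initE β W (fun d => preW κ s θ free b d * F d)
        = initE β W (condM β κ W s θ free 0 b F) := by
    intro b
    induction b with
    | zero =>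
      intro _ F _
      simp [preW, condM, iterM_zero]
    | succ b ih =>
      intro hb F hF
      have hb' : b < r := hb
      rw [condM, iterM_succ (Nat.zero_le b), ← condM, ← ih (by omega) _
        ((stepN_posOp β κ W s θ free b).bm hF), pow_succ, mul_assoc]
      congr 1
      rw [show stepN β κ W s θ free b = stepM β κ W s θ free ⟨b, hb'⟩ by simp [stepN, hb']]
      exact (partE_step hθ free ⟨b, hb'⟩ hF).symm
  rw [modE_eq_partE free hf, key r le_rfl f hf]

theorem initE_mono (β W : ℝ) {F G : Site r → ℝ} (hF : BM F) (hG : BM G) (h : ∀ d, F d ≤ G d) :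
    initE β W F ≤ initE β W G :=
  mul_le_mul_of_nonneg_left (sum_le_sum fun x _ =>
    integral_mono ((hF.comp (measurable_mkSite β W x)).integrable _)
      ((hG.comp (measurable_mkSite β W x)).integrable _) fun _ => h _) (by positivity)

theorem initE_const (β W c : ℝ) : initE (r := r) β W (fun _ => c) = c := by
  simp [initE]

end Vale.Agent.P150.Fast
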