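import Mathlib
import Vale.Agent.P150.Fast.Cavity.ModelCond

/-!
The window value of the causal model of one site: with the spin held and the noises pinned near
zero the field at the end of the window is normal given the past. Used for P150 (module M4c).
-/

open MeasureTheory ProbabilityTheory Real Finset

namespace Vale.Agent.P150.Fast

variable {r : ℕ} {β κ W s C kap : ℝ} {θ : Coef (ncol r)} {ψ χ : ℝ → ℝ}

/-- The hypotheses on the bumps of a window: the noise weight and the cut of the field. -/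
structure WinBase (W : ℝ) (ψ χ : ℝ → ℝ) : Prop where
  psi_cont : Continuous ψ
  psi_nonneg : ∀ u, 0 ≤ ψ u
  psi_bdd : ∃ M, ∀ u, ψ u ≤ M
  psi_mass : ∫ e, ψ (√W * e) ∂gaussianReal 0 1 = 1
  chi_cont : Continuous χ
  chi_mem : ∀ u, 0 ≤ χ u ∧ χ u ≤ 1

/-- An even noise weight supported in `[-kap, kap]`. -/
structure WinOK (W kap : ℝ) (ψ χ : ℝ → ℝ) : Prop extends WinBase W ψ χ where
  psi_supp : ∀ u, kap < |u| → ψ u = 0
  psi_even : ∀ u, ψ (-u) = ψ u

/-- Without a slice. -/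
theorem WinBase.free (W : ℝ) {χ : ℝ → ℝ} (hc : Continuous χ) (h1 : ∀ u, 0 ≤ χ u ∧ χ u ≤ 1) :
    WinBase W (fun _ => 1) χ :=
  ⟨continuous_const, fun _ => zero_le_one, ⟨1, fun _ => le_rfl⟩, by simp, hc, h1⟩

/-- The weight of one step of a window. -/
noncomputable def winF (κ s : ℝ) (θ : Coef (ncol r)) (σ : Bool) (ψ χ : ℝ → ℝ) (b : Fin r)
    (d : Site r) : ℝ :=
  (if d.1 b.succ = σ then (sig σ (ySite κ s θ d b))⁻¹ else 0)
    * (ψ (d.2.1 b.succ) * χ (ySite κ s θ d b))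

/-- The weight of the window `h ≤ b < t`. -/
noncomputable def winWt (κ s : ℝ) (θ : Coef (ncol r)) (σ : Bool) (ψ χ : ℝ → ℝ) (h t : ℕ)
    (d : Site r) : ℝ :=
  ∏ b ∈ univ.filter (fun b : Fin r => h ≤ b.1 ∧ b.1 < t), winF κ s θ σ ψ χ b d

/-- The kernel of one step of a window after cancelling the probability of the spin. -/
noncomputable def winK (κ s : ℝ) (θ : Coef (ncol r)) (σ : Bool) (ψ χ : ℝ → ℝ) (b : Fin r)
    (x : Bool) (d : Site r) : ℝ :=
  if x = σ then ψ (d.2.1 b.succ) * χ (ySite κ s θ d b) else 0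

/-- One step of a window. -/
noncomputable def winN (β κ W s : ℝ) (θ : Coef (ncol r)) (σ : Bool) (ψ χ : ℝ → ℝ) (b : ℕ) :
    (Site r → ℝ) → Site r → ℝ :=
  if h : b < r then kerM β W ⟨b, h⟩ (winK κ s θ σ ψ χ ⟨b, h⟩) else id

/-- A window. -/
noncomputable def winM (β κ W s : ℝ) (θ : Coef (ncol r)) (σ : Bool) (ψ χ : ℝ → ℝ) (h t : ℕ) :
    (Site r → ℝ) → Site r → ℝ :=
  iterM (winN β κ W s θ σ ψ χ) h t

theorem winF_upto (hθ : NetOK C θ) (κ s : ℝ) (σ : Bool) (ψ χ : ℝ → ℝ) (b : Fin r) :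
    Upto (b.1 + 1) (winF κ s θ σ ψ χ b) := fun d d' h1 h2 h3 => by
  unfold winF
  rw [ySite_congr hθ κ s (fun i hi => h1 i (by omega)) h2 (fun l hl => h3 l (by omega)),
    h1 b.succ (by simp), h2 b.succ (by simp)]

theorem winWt_upto (hθ : NetOK C θ) (κ s : ℝ) (σ : Bool) (ψ χ : ℝ → ℝ) (h t : ℕ) :
    Upto t (winWt κ s θ σ ψ χ h t) := fun d d' h1 h2 h3 =>
  prod_congr rfl fun b hb =>
    ((winF_upto hθ κ s σ ψ χ b).mono (mem_filter.1 hb).2.2) d d' h1 h2 h3

theorem winWt_succ {h : ℕ} (κ s : ℝ) (θ : Coef (ncol r)) (σ : Bool) (ψ χ : ℝ → ℝ) (b : Fin r)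
    (hb : h ≤ b.1) :
    winWt κ s θ σ ψ χ h (b.1 + 1) = winWt κ s θ σ ψ χ h b.1 * winF κ s θ σ ψ χ b := by
  funext d
  have e : univ.filter (fun t : Fin r => h ≤ t.1 ∧ t.1 < b.1 + 1)
      = insert b (univ.filter fun t : Fin r => h ≤ t.1 ∧ t.1 < b.1) := by
    ext t; simp [Fin.ext_iff]; omega
  rw [winWt, e, prod_insert (by simp), mul_comm]; rfl

theorem winK_bm (hw : WinBase W ψ χ) (κ s : ℝ) (θ : Coef (ncol r)) (σ : Bool) (b : Fin r)
    (x : Bool) : BM (winK κ s θ σ ψ χ b x) := by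
  unfold winK
  split
  · refine BM.mul ?_ ?_
    · obtain ⟨M, hM⟩ := hw.psi_bdd
      exact ⟨hw.psi_cont.measurable.comp
        ((measurable_pi_apply _).comp (measurable_fst.comp measurable_snd)), M, fun d => by
          rw [abs_of_nonneg (hw.psi_nonneg _)]; exact hM _⟩
    · exact ⟨hw.chi_cont.measurable.comp (measurable_ySite κ s θ b), 1, fun d => by
        rw [abs_of_nonneg (hw.chi_mem _).1]; exact (hw.chi_mem _).2⟩
  · exact BM.const 0

theorem winK_nonneg (hw : WinBase W ψ χ) (κ s : ℝ) (θ : Coef (ncol r)) (σ : Bool) (b : Fin r)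
    (x : Bool) (d : Site r) : 0 ≤ winK κ s θ σ ψ χ b x d := by
  unfold winK; split
  · exact mul_nonneg (hw.psi_nonneg _) (hw.chi_mem _).1
  · exact le_rfl

theorem WinBase.one {ψ χ : ℝ → ℝ} (hw : WinBase W ψ χ) : WinBase W ψ fun _ => 1 :=
  ⟨hw.psi_cont, hw.psi_nonneg, hw.psi_bdd, hw.psi_mass, continuous_const,
    fun _ => ⟨zero_le_one, le_rfl⟩⟩

theorem winN_posOp {ψ χ : ℝ → ℝ} (hw : WinBase W ψ χ) (β κ s : ℝ) (θ : Coef (ncol r)) (σ : Bool)
    (b : ℕ) : PosOp (winN β κ W s θ σ ψ χ b) := by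
  unfold winN
  split
  · exact kerM_posOp β W _ (winK_bm hw κ s θ σ _) (winK_nonneg hw κ s θ σ _)
  · exact PosOp.id

theorem winM_posOp {ψ χ : ℝ → ℝ} (hw : WinBase W ψ χ) (β κ s : ℝ) (θ : Coef (ncol r)) (σ : Bool)
    (h t : ℕ) : PosOp (winM β κ W s θ σ ψ χ h t) :=
  iterM_posOp (winN_posOp hw β κ s θ σ) h t

theorem g3_fst {f : ℝ → ℝ} (hf : Measurable f) :
    ∫ g, f g.1 ∂g3 = ∫ e, f e ∂gaussianReal 0 1 := by
  have h := measurePreserving_fst (μ := gaussianReal 0 1)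
    (ν := (gaussianReal 0 1).prod (gaussianReal 0 1))
  conv_rhs => rw [← h.map_eq, integral_map h.measurable.aemeasurable hf.aestronglyMeasurable]
  rfl

/-- The spin probability cancels in a step of a window. -/
theorem stepM_winF (σ : Bool) (ψ χ : ℝ → ℝ) (b : Fin r) (F : Site r → ℝ) :
    stepM β κ W s θ true b (winF κ s θ σ ψ χ b * F) = kerM β W b (winK κ s θ σ ψ χ b) F := by
  funext d
  simp only [stepM, kerM, Pi.mul_apply]
  congr 1; funext g
  refine sum_congr rfl fun x _ => ?_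
  simp only [flip1, winF, winK, if_true]
  rw [show (upd β W b d g x).1 b.succ = x by simp [upd]]
  by_cases h : x = σ
  · subst h
    have hs : sig x (ySite κ s θ (upd β W b d g x) b) ≠ 0 := by unfold sig; positivity
    simp only [if_true]
    field_simp
  · simp [h]

/-- A window of the model is the window operator. -/
theorem condM_winWt (hθ : NetOK C θ) (σ : Bool) (ψ χ : ℝ → ℝ) {h t : ℕ} (ht : h ≤ t) (htr : t ≤ r)
    (F : Site r → ℝ) :
    condM β κ W s θ true h t (winWt κ s θ σ ψ χ h t * F) = winM β κ W s θ σ ψ χ h t F := by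
  induction t, ht using Nat.le_induction generalizing F with
  | base =>
    rw [condM, winM, iterM_of_le le_rfl, iterM_of_le le_rfl]
    funext d
    rw [Pi.mul_apply, winWt, filter_false_of_mem fun b _ => by omega, prod_empty, one_mul]
  | succ k hk ih =>
    have hk' : k < r := htr
    rw [winWt_succ κ s θ σ ψ χ ⟨k, hk'⟩ hk, mul_assoc, condM, iterM_succ hk,
      stepN_pull β κ W s θ true k (winWt_upto hθ κ s σ ψ χ h k), ← condM, ih (by omega)]
    simp only [winM, iterM_succ hk]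
    congr 1
    simp only [stepN, winN, hk', dif_pos]
    exact stepM_winF σ ψ χ ⟨k, hk'⟩ F

theorem winN_one_one {ψ χ : ℝ → ℝ} (hw : WinBase W ψ χ) (β κ s : ℝ) (θ : Coef (ncol r)) (σ : Bool)
    (b : ℕ) : winN β κ W s θ σ ψ (fun _ => 1) b (fun _ => 1) = fun _ => 1 := by
  unfold winN
  split
  · next h =>
    funext d
    have e : ∀ g : ℝ × ℝ × ℝ, ∑ x, winK κ s θ σ ψ (fun _ => 1) ⟨b, h⟩ x
        (upd β W ⟨b, h⟩ d g x) * 1 = ψ (√W * g.1) := fun g => by simp [winK, upd]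
    simp only [kerM, e]
    rw [g3_fst (f := fun a => ψ (√W * a)) (hw.psi_cont.measurable.comp (by fun_prop))]
    exact hw.psi_mass
  · rfl

theorem winN_diff {ψ χ : ℝ → ℝ} (hw : WinBase W ψ χ) (β κ s : ℝ) (θ : Coef (ncol r)) (σ : Bool)
    (b : ℕ) {G : Site r → ℝ} (hG : BM G) (hG1 : ∀ d, |G d| ≤ 1) (d : Site r) :
    |winN β κ W s θ σ ψ χ b G d - winN β κ W s θ σ ψ (fun _ => 1) b G d|
      ≤ 1 - winN β κ W s θ σ ψ χ b (fun _ => 1) d := by
  have h1 := congrFun (winN_one_one hw β κ s θ σ b) d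
  simp only [winN] at h1 ⊢
  split
  · next h =>
    rw [dif_pos h] at h1
    set K := winK κ s θ σ ψ χ (⟨b, h⟩ : Fin r)
    set K' := winK κ s θ σ ψ (fun _ => 1) (⟨b, h⟩ : Fin r)
    have hi : ∀ (L : Bool → Site r → ℝ) (F : Site r → ℝ), (∀ x, BM (L x)) → BM F →
        Integrable (fun g => ∑ x, L x (upd β W ⟨b, h⟩ d g x) * F (upd β W ⟨b, h⟩ d g x)) g3 :=
      fun L F hL hF => integrable_finsetSum _ fun x _ => (((hL x).mul hF).comp
        ((measurable_upd β W ⟨b, h⟩ x).comp (measurable_const.prodMk measurable_id))).integrable _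
    have hle : ∀ x e, K x e ≤ K' x e := fun x e => by
      simp only [K, K', winK]
      split
      · exact mul_le_mul_of_nonneg_left (hw.chi_mem _).2 (hw.psi_nonneg _)
      · exact le_rfl
    have hD := kerM_posOp β W ⟨b, h⟩ (K := K' - K)
      (fun x => (winK_bm hw.one κ s θ σ _ x).sub (winK_bm hw κ s θ σ _ x))
      fun x e => sub_nonneg.2 (hle x e)
    have e : ∀ F, BM F → kerM β W ⟨b, h⟩ (K' - K) F d
        = kerM β W ⟨b, h⟩ K' F d - kerM β W ⟨b, h⟩ K F d := fun F hF => by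
      simp only [kerM, Pi.sub_apply, sub_mul, sum_sub_distrib]
      exact integral_sub (hi K' F (winK_bm hw.one κ s θ σ _) hF)
        (hi K F (winK_bm hw κ s θ σ _) hF)
    have := hD.abs_map_le hG (BM.const 1) hG1 d
    rw [e G hG, e _ (BM.const 1), h1] at this
    rwa [abs_sub_comm]
  · simp

theorem winM_diff {ψ χ : ℝ → ℝ} (hw : WinBase W ψ χ) (β κ s : ℝ) (θ : Coef (ncol r)) (σ : Bool)
    (h t : ℕ) : ∀ G : Site r → ℝ, BM G → (∀ d, |G d| ≤ 1) → ∀ d,
      |winM β κ W s θ σ ψ χ h t G d - winM β κ W s θ σ ψ (fun _ => 1) h t G d|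
        ≤ 1 - winM β κ W s θ σ ψ χ h t (fun _ => 1) d := by
  induction t with
  | zero => intro G _ _ d; simp [winM, iterM_zero]
  | succ t ih =>
    intro G hG hG1 d
    by_cases ht : h ≤ t
    · simp only [winM, iterM_succ ht]
      set Q := winN β κ W s θ σ ψ χ t
      set P := winN β κ W s θ σ ψ (fun _ => 1) t
      have hQ := winN_posOp hw β κ s θ σ t
      have hP := winN_posOp hw.one β κ s θ σ t
      have hM := iterM_posOp (winN_posOp hw β κ s θ σ) h t
      have hP1 : ∀ e, |P G e| ≤ 1 := fun e => by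
        have := hP.abs_map_le hG (BM.const 1) hG1 e
        rwa [winN_one_one hw] at this
      have h2 := ih (P G) (hP.bm hG) hP1 d
      have h1 : |iterM (winN β κ W s θ σ ψ χ) h t (Q G) d
            - iterM (winN β κ W s θ σ ψ χ) h t (P G) d|
          ≤ iterM (winN β κ W s θ σ ψ χ) h t (fun _ => 1) d
            - iterM (winN β κ W s θ σ ψ χ) h t (Q fun _ => 1) d := by
        have a := hM.abs_map_le ((hQ.bm hG).sub (hP.bm hG))
          ((BM.const 1).sub (hQ.bm (BM.const 1))) (fun e => winN_diff hw β κ s θ σ t hG hG1 e) d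
        rwa [hM.sub (hQ.bm hG) (hP.bm hG), hM.sub (BM.const 1) (hQ.bm (BM.const 1))] at a
      have := abs_sub_le (iterM (winN β κ W s θ σ ψ χ) h t (Q G) d)
        (iterM (winN β κ W s θ σ ψ χ) h t (P G) d)
        (iterM (winN β κ W s θ σ ψ fun _ => 1) h t (P G) d)
      unfold winM at h2
      linarith
    · simp [winM, iterM_of_le (show t + 1 ≤ h by omega)]

end Vale.Agent.P150.Fast
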