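import Mathlib
import Vale.Agent.P150.Fast.Cavity.ModelCond

/-!
The exponential martingale of bounded past-weighted tests in the causal model of one site.
Used for P150 (module M4c).
-/

open MeasureTheory ProbabilityTheory Real Finset

namespace Vale.Agent.P150.Fast

variable {r : ℕ} {β κ W s C : ℝ} {θ : Coef (ncol r)}

/-- The chord bound for the exponential on `[-c, c]`. -/
theorem exp_le_chord {c x : ℝ} (hc : 0 < c) (hx : |x| ≤ c) :
    exp x ≤ cosh c + x / c * sinh c := by
  obtain ⟨h1, h2⟩ := abs_le.1 hx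
  have ha : 0 ≤ (c + x) / (2 * c) := div_nonneg (by linarith) (by linarith)
  have hb : 0 ≤ (c - x) / (2 * c) := div_nonneg (by linarith) (by linarith)
  have h := convexOn_exp.2 (Set.mem_univ c) (Set.mem_univ (-c)) ha hb (by field_simp; ring)
  simp only [smul_eq_mul] at h
  have e : (c + x) / (2 * c) * c + (c - x) / (2 * c) * -c = x := by field_simp; ring
  rw [e] at h
  refine h.trans (le_of_eq ?_)
  rw [cosh_eq, sinh_eq]
  field_simp
  ring

/-- Hoeffding's lemma for a positive operator that fixes the constants. -/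
theorem PosOp.hoeffding {A : (Site r → ℝ) → Site r → ℝ} (hA : PosOp A)
    (h1 : A (fun _ => 1) = fun _ => 1) {X : Site r → ℝ} (hX : BM X) {c : ℝ} (hc : 0 ≤ c)
    (hXc : ∀ d, |X d| ≤ c) (d : Site r) (h0 : A X d = 0) :
    A (fun e => Real.exp (X e)) d ≤ Real.exp (c ^ 2 / 2) := by
  rcases hc.eq_or_lt with hc | hc
  · have e : (fun e => Real.exp (X e)) = fun _ => 1 := funext fun e => by
      rw [show X e = 0 from abs_eq_zero.1 (le_antisymm (hc ▸ hXc e) (abs_nonneg _)), exp_zero]
    rw [e, h1]
    exact one_le_exp (by positivity)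
  have h := hA.mono hX.exp ((BM.const (cosh c)).add (hX.smul (sinh c / c)))
    (fun e => (exp_le_chord hc (hXc e)).trans (le_of_eq (by simp; ring))) d
  rw [hA.add (BM.const _) (hX.smul _), hA.smul, Pi.add_apply, Pi.smul_apply, hA.const, h1, h0,
    smul_eq_mul, mul_zero, add_zero, mul_one] at h
  exact h.trans (cosh_le_exp_half_sq c)

/-- The martingale bound: tests of the windows, weighted by the past, less their model means. -/
theorem modE_martingale (hθ : NetOK C θ) (free : Bool) (L : ℕ) (h : ℕ → ℕ)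
    (hh : ∀ j < L, h j ≤ h (j + 1)) (hr : h L ≤ r) (Z φ : ℕ → Site r → ℝ) {B : ℝ} (hB : 0 ≤ B)
    (hZu : ∀ j < L, Upto (h (j + 1)) (Z j)) (hZm : ∀ j < L, Measurable (Z j))
    (hZb : ∀ j < L, ∀ d, |Z j d| ≤ B) (hφu : ∀ j < L, Upto (h j) (φ j))
    (hφm : ∀ j < L, Measurable (φ j)) (hφb : ∀ j < L, ∀ d, |φ j d| ≤ 1) (lam : ℝ) :
    modE β κ W s θ free (fun d => exp (lam * (∑ j ∈ range L,
        φ j d * (Z j d - condM β κ W s θ free (h j) (h (j + 1)) (Z j) d))
      - L * (2 * B * lam) ^ 2 / 2)) ≤ 1 := by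
  set c : ℝ := 2 * B * |lam| with hc
  set N : ℕ → Site r → ℝ := fun j => condM β κ W s θ free (h j) (h (j + 1)) (Z j) with hN
  have hc0 : 0 ≤ c := by positivity
  have hmono : ∀ j k, j ≤ k → k ≤ L → h j ≤ h k := by
    intro j k hjk
    induction k, hjk using Nat.le_induction with
    | base => exact fun _ => le_rfl
    | succ k _ ih => exact fun hk => (ih (by omega)).trans (hh k (by omega))
  have hZ : ∀ j < L, BM (Z j) := fun j hj => ⟨hZm j hj, B, hZb j hj⟩
  have hφ : ∀ j < L, BM (φ j) := fun j hj => ⟨hφm j hj, 1, hφb j hj⟩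
  have hNbm : ∀ j < L, BM (N j) := fun j hj => (condM_posOp β κ W s θ free _ _).bm (hZ j hj)
  have hNu : ∀ j < L, Upto (h j) (N j) := fun j hj =>
    condM_upto β κ W s free hθ (hh j hj) (hZu j hj)
  obtain ⟨E, hE⟩ : ∃ E : ℕ → Site r → ℝ, E = fun J d =>
      exp (lam * (∑ j ∈ range J, φ j d * (Z j d - N j d)) - J * c ^ 2 / 2) := ⟨_, rfl⟩
  have hEb : ∀ J ≤ L, BM (E J) := fun J hJ => by
    have hs : BM fun d => ∑ j ∈ range J, φ j d * (Z j d - N j d) := BM.sum _ fun j hj => by
      have hj' : j < L := (mem_range.1 hj).trans_le hJ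
      exact (hφ j hj').mul ((hZ j hj').sub (hNbm j hj'))
    rw [hE]; exact (((BM.const lam).mul hs).sub (BM.const _)).exp
  have hEu : ∀ J ≤ L, Upto (h J) (E J) := fun J hJ d d' h1 h2 h3 => by
    simp only [hE]
    congr 3
    refine sum_congr rfl fun j hj => ?_
    have hj' : j < L := (mem_range.1 hj).trans_le hJ
    have ha := hmono (j + 1) J (by have := mem_range.1 hj; omega) hJ
    have hb := (hh j hj').trans ha
    rw [((hφu j hj').mono hb) d d' h1 h2 h3, ((hZu j hj').mono ha) d d' h1 h2 h3,
      ((hNu j hj').mono hb) d d' h1 h2 h3]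
  have step : ∀ J ≤ L, ∀ d, condM β κ W s θ free 0 (h J) (E J) d ≤ 1 := by
    intro J
    induction J with
    | zero =>
      intro _ d
      refine condM_le β κ W s free hθ (hEb 0 (Nat.zero_le _)) (fun e => ?_) d
      simp [hE]
    | succ J ih =>
      intro hJ d
      have hJ' : J < L := hJ
      refine le_trans ?_ (ih (by omega) d)
      have e : condM β κ W s θ free 0 (h (J + 1)) (E (J + 1))
          = condM β κ W s θ free 0 (h J)
            (condM β κ W s θ free (h J) (h (J + 1)) (E (J + 1))) :=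
        (iterM_trans (Nat.zero_le _) (hh J hJ') _).symm
      rw [e]
      refine (condM_posOp β κ W s θ free 0 (h J)).mono
        ((condM_posOp β κ W s θ free _ _).bm (hEb _ hJ)) (hEb J (by omega)) (fun d => ?_) d
      set X : Site r → ℝ := lam • (φ J * (Z J - N J)) with hXd
      have hX : BM X := ((hφ J hJ').mul ((hZ J hJ').sub (hNbm J hJ'))).smul lam
      have e1 : E (J + 1) = E J * (exp (-(c ^ 2 / 2)) • fun e => exp (X e)) := funext fun e => by
        simp only [hE, hXd, Pi.mul_apply, Pi.smul_apply, smul_eq_mul, Pi.sub_apply, sum_range_succ]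
        rw [← exp_add, ← exp_add]
        push_cast
        ring_nf
      rw [e1, condM_pull β κ W s θ free (hEu J (by omega)), (condM_posOp β κ W s θ free _ _).smul,
        Pi.mul_apply, Pi.smul_apply, smul_eq_mul]
      have hE0 : 0 ≤ E J d := by rw [hE]; exact (exp_pos _).le
      refine mul_le_of_le_one_right hE0 ?_
      rw [exp_neg, inv_mul_le_iff₀ (exp_pos _), mul_one]
      refine (condM_posOp β κ W s θ free _ _).hoeffding (condM_one β κ W s free hθ _ _) hX hc0
        (fun e => ?_) d ?_
      · have hn : |N J e| ≤ B := condM_abs_le β κ W s free hθ (hZ J hJ') (hZb J hJ') e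
        have hz := abs_sub (Z J e) (N J e)
        simp only [hXd, Pi.smul_apply, Pi.mul_apply, Pi.sub_apply, smul_eq_mul, abs_mul]
        calc |lam| * (|φ J e| * |Z J e - N J e|) ≤ |lam| * (1 * (2 * B)) :=
              mul_le_mul_of_nonneg_left (mul_le_mul (hφb J hJ' e)
                (hz.trans (by linarith [hZb J hJ' e])) (abs_nonneg _) zero_le_one) (abs_nonneg _)
          _ = c := by rw [hc]; ring
      · rw [hXd, (condM_posOp β κ W s θ free _ _).smul, condM_pull β κ W s θ free (hφu J hJ'),
          (condM_posOp β κ W s θ free _ _).sub (hZ J hJ') (hNbm J hJ'),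
          condM_of_upto β κ W s free hθ (hNu J hJ')]
        simp [hN]
  have e : (fun d => exp (lam * (∑ j ∈ range L,
      φ j d * (Z j d - condM β κ W s θ free (h j) (h (j + 1)) (Z j) d))
      - L * (2 * B * lam) ^ 2 / 2)) = E L := by
    simp only [hE, hc, hN]
    funext d
    rw [mul_pow (2 * B) lam, mul_pow (2 * B) |lam|, sq_abs]
  rw [e, modE_eq_initE hθ free (hEb L le_rfl)]
  have hA : condM β κ W s θ free 0 r (E L) = condM β κ W s θ free 0 (h L) (E L) := by
    rw [condM, ← iterM_trans (Nat.zero_le (h L)) hr, ← condM, ← condM,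
      condM_of_upto β κ W s free hθ (hEu L le_rfl)]
  rw [hA]
  refine (initE_mono β W ((condM_posOp β κ W s θ free _ _).bm (hEb L le_rfl)) (BM.const 1)
    (fun d => step L le_rfl d)).trans_eq (initE_const β W 1)

end Vale.Agent.P150.Fast
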