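import Mathlib
import Vale.Agent.P150.Fast.Cavity.ModelWin
import Vale.Agent.P150.Fast.Cavity.ModelMart

/-!
The value of a window in the causal model of one site: the normal law of the coupling field at
the end of a window, given the past. Used for P150 (module M4c).
-/

open MeasureTheory ProbabilityTheory Real Finset

namespace Vale.Agent.P150.Fast

variable {r : ℕ} {β κ W s C kap : ℝ} {θ : Coef (ncol r)} {ψ χ : ℝ → ℝ}

/-- The data with the spin held at `σ` and the noises and innovations removed after `m`. -/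
def cutAt (σ : Bool) (m : ℕ) (d : Site r) : Site r :=
  (fun b => if b.1 ≤ m then d.1 b else σ, fun b => if b.1 ≤ m then d.2.1 b else 0,
    fun l => if l.1 ≤ 2 * m + 1 then d.2.2 l else 0)

/-- The variance from the innovations after `h` up to `t`. -/
noncomputable def vWin (β : ℝ) (θ : Coef (ncol r)) (h t : ℕ) (k : Fin (ncol r)) : ℝ :=
  β ^ 2 * ∑ l ∈ univ.filter (fun l : Fin (ncol r) => 2 * h + 1 < l.1 ∧ l.1 ≤ 2 * t + 1),
    θ.al k l ^ 2

theorem vWin_nonneg (β : ℝ) (θ : Coef (ncol r)) (h t : ℕ) (k : Fin (ncol r)) :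
    0 ≤ vWin β θ h t k :=
  mul_nonneg (sq_nonneg _) (sum_nonneg fun _ _ => sq_nonneg _)

theorem vWin_self (β : ℝ) (θ : Coef (ncol r)) (t : ℕ) (k : Fin (ncol r)) :
    vWin β θ t t k = 0 := by
  rw [vWin, filter_false_of_mem fun l _ => by omega]; simp

theorem vWin_step (β : ℝ) (θ : Coef (ncol r)) (b : Fin r) {t : ℕ} (hb : b.1 < t)
    (k : Fin (ncol r)) :
    vWin β θ b.1 t k = vWin β θ (b.1 + 1) t k
      + ((θ.al k (ecol b.succ) * β) ^ 2 + (θ.al k (xcol b.succ) * β) ^ 2) := by
  have e : univ.filter (fun l : Fin (ncol r) => 2 * b.1 + 1 < l.1 ∧ l.1 ≤ 2 * t + 1)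
      = insert (ecol b.succ) (insert (xcol b.succ)
        (univ.filter fun l : Fin (ncol r) => 2 * (b.1 + 1) + 1 < l.1 ∧ l.1 ≤ 2 * t + 1)) := by
    ext l; simp [Fin.ext_iff, ecol, xcol]; omega
  rw [vWin, e, sum_insert (by simp [Fin.ext_iff, ecol, xcol]),
    sum_insert (by simp [xcol]), vWin]
  ring

@[fun_prop]
theorem measurable_cutAt (σ : Bool) (m : ℕ) : Measurable (cutAt (r := r) σ m) := by
  unfold cutAt
  refine Measurable.prodMk ?_ (Measurable.prodMk ?_ ?_) <;> refine measurable_pi_iff.2 fun i => ?_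
  · exact Measurable.ite (MeasurableSet.const _) ((measurable_pi_apply i).comp measurable_fst)
      measurable_const
  · exact Measurable.ite (MeasurableSet.const _)
      ((measurable_pi_apply i).comp (measurable_fst.comp measurable_snd)) measurable_const
  · exact Measurable.ite (MeasurableSet.const _)
      ((measurable_pi_apply i).comp (measurable_snd.comp measurable_snd)) measurable_const

theorem cutAt_upto (σ : Bool) (m : ℕ) (k : Fin (ncol r)) :
    Upto m fun d => zSite θ (cutAt σ m d) k := fun d d' h1 h2 h3 => by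
  have e : cutAt σ m d = cutAt σ m d' := by
    unfold cutAt
    refine Prod.ext ?_ (Prod.ext ?_ ?_) <;> funext i <;> simp only <;> split
    all_goals first | rfl | exact h1 i ‹_› | exact h2 i ‹_› | exact h3 i ‹_›
  simp only [e]

theorem zSite_cut (hθ : NetOK C θ) (σ : Bool) (t : Fin (r + 1)) (d : Site r) :
    zSite θ (cutAt σ t.1 d) (xcol t) = zSite θ d (xcol t) :=
  zSite_congr hθ (fun i hi => if_pos (by simp [xcol] at hi; omega))
    (fun i hi => if_pos (by simp [xcol] at hi; omega))
    fun l hl => if_pos (by have := Fin.le_def.1 hl; simp [xcol] at this; omega)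

/-- The coefficient of a column in an image. -/
noncomputable def zCoef (θ : Coef (ncol r)) (k j : Fin (ncol r)) : ℝ :=
  ∑ l, θ.al k l * ∑ c, θ.G l c * θ.R c j

theorem abs_zCoef_le (hθ : NetOK C θ) (k j : Fin (ncol r)) :
    |zCoef θ k j| ≤ (ncol r : ℝ) ^ 2 * |C| ^ 3 := by
  have hR := fun l c => (hθ.1 l c).1.trans (le_abs_self C)
  have hG := fun l c => (hθ.1 l c).2.1.trans (le_abs_self C)
  have hA := fun l c => (hθ.1 l c).2.2.trans (le_abs_self C)
  refine (abs_sum_le_sum_abs _ _).trans ((sum_le_sum (g := fun _ => |C| * ((ncol r : ℝ) * |C| ^ 2))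
    fun l _ => ?_).trans_eq ?_)
  · rw [abs_mul]
    refine mul_le_mul (hA k l) ((abs_sum_le_sum_abs _ _).trans ((sum_le_sum (g := fun _ => |C| ^ 2)
      fun c _ => ?_).trans_eq ?_)) (abs_nonneg _) (abs_nonneg _)
    · rw [abs_mul, sq]; exact mul_le_mul (hG l c) (hR c j) (abs_nonneg _) (abs_nonneg _)
    · simp [-sq_abs]
  · simp [-sq_abs]; ring

/-- One step moves the cut image affinely. -/
theorem zSite_upd (σ : Bool) (β W : ℝ) (b : Fin r) (d : Site r) (g : ℝ × ℝ × ℝ)
    (k : Fin (ncol r)) :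
    zSite θ (cutAt σ (b.1 + 1) (upd β W b d g σ)) k
      = zSite θ (cutAt σ b.1 d) k + zCoef θ k (ecol b.succ) * (√W * g.1)
        + θ.al k (ecol b.succ) * (β * g.2.1) + θ.al k (xcol b.succ) * (β * g.2.2) := by
  set d1 := cutAt σ (b.1 + 1) (upd β W b d g σ)
  set d0 := cutAt σ b.1 d
  have hx : d1.1 = d0.1 := by
    funext i
    simp only [d1, d0, cutAt, upd]
    rcases eq_or_ne i b.succ with rfl | hi
    · simp
    · have := Fin.val_ne_of_ne hi
      simp only [Fin.val_succ] at this
      rw [Function.update_of_ne hi]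
      by_cases h : i.1 ≤ b.1
      · rw [if_pos h, if_pos (by omega)]
      · rw [if_neg h, if_neg (by omega)]
  have he : ∀ i, d1.2.1 i = d0.2.1 i + if i = b.succ then √W * g.1 else 0 := fun i => by
    simp only [d1, d0, cutAt, upd]
    rcases eq_or_ne i b.succ with rfl | hi
    · simp
    · have := Fin.val_ne_of_ne hi
      simp only [Fin.val_succ] at this
      rw [Function.update_of_ne hi, if_neg hi, add_zero]
      by_cases h : i.1 ≤ b.1
      · rw [if_pos h, if_pos (by omega)]
      · rw [if_neg h, if_neg (by omega)]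
  have hq : ∀ l, d1.2.2 l = d0.2.2 l + ((if l = ecol b.succ then β * g.2.1 else 0)
      + if l = xcol b.succ then β * g.2.2 else 0) := fun l => by
    simp only [d1, d0, cutAt, upd]
    rcases eq_or_ne l (xcol b.succ) with rfl | hl
    · rw [if_pos (by simp [xcol]), if_neg (by simp [xcol]), if_neg (by simp [xcol, ecol, Fin.ext_iff]),
        Function.update_self, if_pos rfl, zero_add, zero_add]
    rcases eq_or_ne l (ecol b.succ) with rfl | hl'
    · rw [if_pos (by simp [ecol]), if_neg (by simp [ecol]; omega), Function.update_of_ne hl,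
        Function.update_self, if_pos rfl, if_neg hl, zero_add, add_zero]
    have h1 := Fin.val_ne_of_ne hl
    have h2 := Fin.val_ne_of_ne hl'
    simp only [xcol, ecol, Fin.val_succ] at h1 h2
    rw [Function.update_of_ne hl, Function.update_of_ne hl', if_neg hl, if_neg hl', add_zero,
      add_zero]
    by_cases h : l.1 ≤ 2 * b.1 + 1
    · rw [if_pos h, if_pos (by omega)]
    · rw [if_neg h, if_neg (by omega)]
  have hc : ∀ j, colOf (fun i => spin (d1.1 i)) d1.2.1 j
      = colOf (fun i => spin (d0.1 i)) d0.2.1 j + if j = ecol b.succ then √W * g.1 else 0 := by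
    intro j
    rw [hx]
    unfold colOf
    split
    · next h =>
      rw [he]
      congr 1
      refine if_congr ?_ rfl rfl
      simp [Fin.ext_iff, ecol]; omega
    · next h =>
      rw [if_neg, add_zero]
      intro e; rw [e] at h; simp [ecol] at h
  simp only [zSite, hc, hq, mul_add, sum_add_distrib, mul_ite, mul_zero, sum_ite_eq', mem_univ,
    if_true, zCoef, sum_mul, ← mul_assoc, mul_sum]
  ring

/-- The sum of the squared noise coefficients of a window. -/
noncomputable def winGam (θ : Coef (ncol r)) (k : Fin (ncol r)) (h t : ℕ) : ℝ :=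
  ∑ b ∈ univ.filter (fun b : Fin r => h ≤ b.1 ∧ b.1 < t), zCoef θ k (ecol b.succ) ^ 2

theorem winGam_nonneg (θ : Coef (ncol r)) (k : Fin (ncol r)) (h t : ℕ) : 0 ≤ winGam θ k h t :=
  sum_nonneg fun _ _ => sq_nonneg _

theorem winGam_self (θ : Coef (ncol r)) (k : Fin (ncol r)) (h : ℕ) : winGam θ k h h = 0 := by
  rw [winGam, filter_false_of_mem fun b _ => by omega]; simp

theorem winGam_last (θ : Coef (ncol r)) (k : Fin (ncol r)) (b : Fin r) {h : ℕ} (hb : h ≤ b.1) :
    winGam θ k h (b.1 + 1) = winGam θ k h b.1 + zCoef θ k (ecol b.succ) ^ 2 := by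
  have e : univ.filter (fun t : Fin r => h ≤ t.1 ∧ t.1 < b.1 + 1)
      = insert b (univ.filter fun t : Fin r => h ≤ t.1 ∧ t.1 < b.1) := by
    ext t; simp [Fin.ext_iff]; omega
  rw [winGam, e, sum_insert (by simp), add_comm]; rfl

theorem winGam_first (θ : Coef (ncol r)) (k : Fin (ncol r)) (b : Fin r) {t : ℕ} (hb : b.1 < t) :
    winGam θ k b.1 t = winGam θ k (b.1 + 1) t + zCoef θ k (ecol b.succ) ^ 2 := by
  have e : univ.filter (fun l : Fin r => b.1 ≤ l.1 ∧ l.1 < t)
      = insert b (univ.filter fun l : Fin r => b.1 + 1 ≤ l.1 ∧ l.1 < t) := by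
    ext l; simp [Fin.ext_iff]; omega
  rw [winGam, e, sum_insert (by simp), add_comm]; rfl

/-- A test of a value and a parameter: bounded by one and one-Lipschitz. -/
structure TestOK (Φ : ℝ → ℝ → ℝ) : Prop where
  bd : ∀ u v, |Φ u v| ≤ 1
  lip : ∀ u v u' v', |Φ u v - Φ u' v'| ≤ |u - u'| + |v - v'|

theorem TestOK.cont {Φ : ℝ → ℝ → ℝ} (hΦ : TestOK Φ) (c : ℝ) : Continuous fun u => Φ u c :=
  (LipschitzWith.of_dist_le_mul (K := 1) fun x y => by
    simpa [Real.dist_eq] using hΦ.lip x c y c).continuous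

theorem TestOK.abs_nE_sub {Φ : ℝ → ℝ → ℝ} (hΦ : TestOK Φ) (a c a' c' v : ℝ) :
    |nE a v (fun u => Φ u c) - nE a' v (fun u => Φ u c')| ≤ |a - a'| + |c - c'| := by
  rw [nE, nE, ← integral_sub (integrable_nE_of_bdd (hΦ.cont c) (fun u => hΦ.bd u c) a v)
    (integrable_nE_of_bdd (hΦ.cont c') (fun u => hΦ.bd u c') a' v)]
  have := norm_integral_le_of_norm_le (integrable_const (|a - a'| + |c - c'|))
    (μ := gaussianReal 0 1) (f := fun g => Φ (a + √v * g) c - Φ (a' + √v * g) c')
    (.of_forall fun g => by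
      simpa [Real.norm_eq_abs] using hΦ.lip (a + √v * g) c (a' + √v * g) c')
  simpa [Real.norm_eq_abs] using this

theorem abs_nE_le_one {F : ℝ → ℝ} (hF : ∀ u, |F u| ≤ 1) (a v : ℝ) : |nE a v F| ≤ 1 := by
  have := norm_integral_le_of_norm_le (integrable_const (1 : ℝ)) (μ := gaussianReal 0 1)
    (f := fun g => F (a + √v * g)) (.of_forall fun g => by rw [Real.norm_eq_abs]; exact hF _)
  simpa [Real.norm_eq_abs, nE] using this

theorem TestOK.cont_nE {Φ : ℝ → ℝ → ℝ} (hΦ : TestOK Φ) (v : ℝ) :
    Continuous fun p : ℝ × ℝ => nE p.1 v fun u => Φ u p.2 :=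
  (LipschitzWith.of_dist_le_mul (K := 2) fun x y => by
    have h := hΦ.abs_nE_sub x.1 x.2 y.1 y.2 v
    rw [Real.dist_eq, Prod.dist_eq, Real.dist_eq, Real.dist_eq]
    push_cast
    linarith [le_max_left |x.1 - y.1| |x.2 - y.2|, le_max_right |x.1 - y.1| |x.2 - y.2|]).continuous

theorem TestOK.cont_mean {Φ : ℝ → ℝ → ℝ} (hΦ : TestOK Φ) (c v : ℝ) :
    Continuous fun a => nE a v fun u => Φ u c :=
  (hΦ.cont_nE v).comp (Continuous.prodMk_left c)

/-- A normal mean adds the variances. -/
theorem nE_comp {F : ℝ → ℝ} (hF : ∀ u, |F u| ≤ 1) (hc : Continuous F) (a p : ℝ) {v : ℝ}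
    (hv : 0 ≤ v) : ∫ g, nE (a + p * g) v F ∂gaussianReal 0 1 = nE a (v + p ^ 2) F := by
  set γ := gaussianReal 0 1
  have hm : Measurable fun u => F (a + u) := hc.measurable.comp (by fun_prop)
  have h1 : ((γ.map (p * ·)).prod (γ.map (√v * ·))).map (fun z : ℝ × ℝ => z.1 + z.2)
      = γ.map (√(v + p ^ 2) * ·) := by
    rw [gaussianReal_map_const_mul, gaussianReal_map_const_mul, gaussianReal_map_const_mul]
    rw [← Measure.conv, gaussianReal_conv_gaussianReal]
    congr 1
    · simp
    · ext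
      push_cast
      rw [sq_sqrt hv, sq_sqrt (by positivity)]
      ring
  rw [Measure.map_prod_map _ _ (by fun_prop) (by fun_prop),
    Measure.map_map (by fun_prop) (by fun_prop)] at h1
  have hi : Integrable (fun z : ℝ × ℝ => F (a + (p * z.1 + √v * z.2))) (γ.prod γ) :=
    Integrable.of_bound (hc.comp (by fun_prop)).aestronglyMeasurable 1
      (.of_forall fun z => by rw [Real.norm_eq_abs]; exact hF _)
  have e1 := integral_map (μ := γ.prod γ) (φ := fun z : ℝ × ℝ => p * z.1 + √v * z.2) (by fun_prop)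
    (f := fun u => F (a + u)) hm.aestronglyMeasurable
  have e2 := integral_map (μ := γ) (φ := fun g => √(v + p ^ 2) * g) (by fun_prop)
    (f := fun u => F (a + u)) hm.aestronglyMeasurable
  simp only [nE, add_assoc]
  rw [← integral_prod _ hi, ← e1, ← e2]
  congr 1

/-- A step without the noise coefficient adds the variances of the innovations. -/
theorem smooth_step {ψ : ℝ → ℝ} (hw : WinBase W ψ χ) {Φ : ℝ → ℝ → ℝ} (hΦ : TestOK Φ)
    (a c p q : ℝ) {v : ℝ} (hv : 0 ≤ v) :
    ∫ g, ψ (√W * g.1) * nE (a + p * g.2.1 + q * g.2.2) v (fun u => Φ u c) ∂g3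
      = nE a (v + (p ^ 2 + q ^ 2)) fun u => Φ u c := by
  have hn := hΦ.cont_mean c v
  have hb : ∀ u, |Φ u c| ≤ 1 := fun u => hΦ.bd u c
  unfold g3
  rw [integral_prod_mul (f := fun e => ψ (√W * e))
    (g := fun z : ℝ × ℝ => nE (a + p * z.1 + q * z.2) v fun u => Φ u c), hw.psi_mass, one_mul,
    integral_prod _ ?_]
  · simp only [nE_comp hb (hΦ.cont c) _ q hv]
    rw [nE_comp hb (hΦ.cont c) a p (by positivity)]
    congr 1; ring
  · exact Integrable.of_bound (hn.comp (by fun_prop : Continuous fun z : ℝ × ℝ =>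
      a + p * z.1 + q * z.2)).aestronglyMeasurable 1
      (.of_forall fun g => by rw [Real.norm_eq_abs]; exact abs_nE_le_one hb _ _)

/-- A step without slice adds also the variance of the noise. -/
theorem free_step (hW : 0 ≤ W) {Φ : ℝ → ℝ → ℝ} (hΦ : TestOK Φ) (a c co p q : ℝ) {v : ℝ}
    (hv : 0 ≤ v) :
    ∫ g, nE (a + co * (√W * g.1) + p * g.2.1 + q * g.2.2) v (fun u => Φ u c) ∂g3
      = nE a (v + (p ^ 2 + q ^ 2) + W * co ^ 2) fun u => Φ u c := by
  have hn := hΦ.cont_mean c v
  have hb : ∀ u, |Φ u c| ≤ 1 := fun u => hΦ.bd u c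
  unfold g3
  rw [integral_prod _ ?_]
  · have e : ∀ x : ℝ, ∫ z : ℝ × ℝ, nE (a + co * (√W * x) + p * z.1 + q * z.2) v (fun u => Φ u c)
        ∂(gaussianReal 0 1).prod (gaussianReal 0 1)
        = nE (a + co * √W * x) (v + (p ^ 2 + q ^ 2)) fun u => Φ u c := fun x => by
      rw [integral_prod _ ?_]
      · simp only [nE_comp hb (hΦ.cont c) _ q hv]
        rw [nE_comp hb (hΦ.cont c) _ p (by positivity), mul_assoc]
        congr 1; ring
      · exact Integrable.of_bound (hn.comp (by fun_prop : Continuous fun z : ℝ × ℝ =>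
          a + co * (√W * x) + p * z.1 + q * z.2)).aestronglyMeasurable 1
          (.of_forall fun g => by rw [Real.norm_eq_abs]; exact abs_nE_le_one hb _ _)
    simp only [e]
    rw [nE_comp hb (hΦ.cont c) a _ (by positivity), mul_pow, sq_sqrt hW]
    congr 1; ring
  · exact Integrable.of_bound (hn.comp (by fun_prop : Continuous fun g : ℝ × ℝ × ℝ =>
      a + co * (√W * g.1) + p * g.2.1 + q * g.2.2)).aestronglyMeasurable 1
      (.of_forall fun g => by rw [Real.norm_eq_abs]; exact abs_nE_le_one hb _ _)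

/-- The weight of a window is measurable. -/
theorem measurable_winWt (hw : WinBase W ψ χ) (κ s : ℝ) (θ : Coef (ncol r)) (σ : Bool) (h t : ℕ) :
    Measurable (winWt κ s θ σ ψ χ h t) := by
  have hsig : Continuous (sig σ) := continuous_sig σ
  refine Finset.measurable_fun_prod _ fun b _ => Measurable.mul ?_ ?_
  · exact Measurable.ite
      (measurableSet_eq_fun ((measurable_pi_apply b.succ).comp measurable_fst) measurable_const)
      ((hsig.measurable.comp (measurable_ySite κ s θ b)).inv) measurable_const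
  · exact (hw.psi_cont.measurable.comp
      ((measurable_pi_apply _).comp (measurable_fst.comp measurable_snd))).mul
      (hw.chi_cont.measurable.comp (measurable_ySite κ s θ b))

end Vale.Agent.P150.Fast
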