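import Mathlib
import Vale.Agent.P150.Fast.Cavity.PartsConc

/-!
Window weights along the path act as the sliced kernel: the single steps for `ConvStmt`. The window weights are
compared with the sliced kernel cut by `χ`, which loses at most the clipped mass at every step
without amplification, and the cut kernel with the sliced kernel itself. Used for P150 (module M4).
-/

open MeasureTheory Real Finset
open scoped Matrix

namespace Vale.Agent.P150.Fast

variable {n : ℕ}

/-- Iterated operators with functions inserted at every time. -/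
noncomputable def insF (T : (Conf n → ℝ) → Conf n → ℝ) :
    {m : ℕ} → (Fin (m + 1) → Conf n → ℝ) → Conf n → ℝ
  | 0, G => G 0
  | _ + 1, G => fun x => G 0 x * T (insF T (Fin.tail G)) x

theorem insOp_eq (Q : Conf n → Conf n → ℝ) : ∀ {m : ℕ} (G : Fin (m + 1) → Conf n → ℝ),
    insOp Q G = insF (fun f x => ∑ z, Q x z * f z) G
  | 0, _ => rfl
  | _ + 1, G => by
    funext x
    simp only [insOp, insF, insOp_eq Q (Fin.tail G)]

/-- The weight of one step of a window. -/
noncomputable def kWin (st : Step n) (i : Fin n) (b : Bool) (ψ χ : ℝ → ℝ) (y : Fin n → ℝ) : ℝ :=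
  (sig b (y i + st.h i))⁻¹ * (ψ (sliceU st.A i b y) * χ (y i + st.h i))

/-- One step of a window of the path. -/
noncomputable def winStep (μ : Conf n → ℝ) (st : Step n) (i : Fin n) (b : Bool) (ψ χ : ℝ → ℝ)
    (f : Conf n → ℝ) (x : Conf n) : ℝ :=
  ∫ y, chan st.A x y * (kWin st i b ψ χ y * ∑ z, pR μ st x y z * (onVal i b z * f z))

/-- One sliced step cut by `χ`. -/
noncomputable def cutStep (μ : Conf n → ℝ) (st : Step n) (i : Fin n) (b : Bool) (g χ : ℝ → ℝ)
    (P : ℝ) (f : Conf n → ℝ) (x : Conf n) : ℝ :=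
  ∫ y, chan st.A x y * (g (sliceU st.A i b y) * χ (y i + st.h i) / P * condE μ (st.freeze i) f y x)

/-- The mean of a function on the configurations with site `i` at `b`. -/
noncomputable def onNorm (μ : Conf n → ℝ) (i : Fin n) (b : Bool) (f : Conf n → ℝ) : ℝ :=
  ∑ x, μ x * (onVal i b x * |f x|)

/-- The hypotheses on a window. -/
structure ConvHyp (μ : Conf n → ℝ) (st : Step n) (i : Fin n) (b : Bool) (g χ : ℝ → ℝ)
    (R M m₀ : ℝ) : Prop where
  hμ : ∀ x, 0 < μ x
  h1 : ∑ x, μ x = 1
  hA : st.A.PosDef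
  hR : 0 ≤ R
  hm₀ : 0 < m₀
  gc : Continuous g
  cc : Continuous χ
  g0 : ∀ u, 0 ≤ g u ∧ g u ≤ M
  c0 : ∀ v, 0 ≤ χ v ∧ χ v ≤ 1
  csupp : ∀ v, R < |v| → χ v = 0
  hP : 0 < nE 0 (st.A⁻¹ i i) g

variable {μ : Conf n → ℝ} {st : Step n} {i : Fin n} {b : Bool} {g χ : ℝ → ℝ} {R M m₀ : ℝ}

theorem onVal_cases (i : Fin n) (b : Bool) (x : Conf n) : onVal i b x = 0 ∨ onVal i b x = 1 := by
  unfold onVal; split <;> simp

theorem onVal_le_one (i : Fin n) (b : Bool) (x : Conf n) : onVal i b x ≤ 1 := by
  rcases onVal_cases i b x with h | h <;> simp [h]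

namespace ConvHyp

theorem M_nonneg (H : ConvHyp μ st i b g χ R M m₀) : 0 ≤ M := (H.g0 0).1.trans (H.g0 0).2

theorem sliceW (H : ConvHyp μ st i b g χ R M m₀) :
    SliceW (st.freeze i) (onVal i b) (fun y => g (sliceU st.A i b y)) (nE 0 (st.A⁻¹ i i) g) M :=
  sliceW_of H.hA st.h st.S i b H.gc.measurable (fun u => (H.g0 u).1) (fun u => (H.g0 u).2) H.hP

/-- The bound on the weight of one step. -/
theorem kWin_bound (H : ConvHyp μ st i b g χ R M m₀) (y : Fin n → ℝ) :
    0 ≤ kWin st i b (fun u => g u / m₀) χ y ∧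
      kWin st i b (fun u => g u / m₀) χ y ≤ M / m₀ * (1 + exp (2 * R)) := by
  have hg : 0 ≤ g (sliceU st.A i b y) / m₀ := div_nonneg (H.g0 _).1 H.hm₀.le
  refine ⟨mul_nonneg (inv_nonneg.2 (sig_nonneg _ _)) (mul_nonneg hg (H.c0 _).1), ?_⟩
  set u := y i + st.h i
  rcases lt_or_ge R |u| with h | h
  · rw [kWin, H.csupp _ h]
    simp only [mul_zero]
    exact mul_nonneg (div_nonneg H.M_nonneg H.hm₀.le) (by positivity)
  · have hs : (sig b u)⁻¹ ≤ 1 + exp (2 * R) := by
      obtain ⟨h1, h2⟩ := abs_le.1 h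
      have e : (sig b u)⁻¹ = 1 + exp (-(2 * (spin b * u))) := by
        rw [sig, inv_div, div_eq_iff (exp_pos _).ne', add_mul, one_mul, ← exp_add]
        cases b <;> simp only [spin, if_true, Bool.false_eq_true, if_false, one_mul, neg_mul] <;>
          ring_nf
      rw [e]
      refine add_le_add le_rfl (exp_le_exp.2 ?_)
      cases b <;> simp only [spin, if_true, Bool.false_eq_true, if_false] <;> linarith
    rw [kWin, mul_comm (M / m₀)]
    refine mul_le_mul hs ((mul_le_of_le_one_right hg (H.c0 _).2).trans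
      (div_le_div_of_nonneg_right (H.g0 _).2 H.hm₀.le)) (mul_nonneg hg (H.c0 _).1) (by positivity)

theorem kWin_meas (H : ConvHyp μ st i b g χ R M m₀) :
    Measurable (kWin st i b (fun u => g u / m₀) χ) := by
  have hu : Measurable fun y : Fin n → ℝ => y i + st.h i := (measurable_pi_apply i).add_const _
  exact (((continuous_sig b).measurable.comp hu).inv).mul
    (((H.gc.measurable.comp (continuous_sliceU st.A i b).measurable).div_const _).mul
      (H.cc.measurable.comp hu))

/-- The cut weight is at most the sliced one. -/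
theorem cut_bound (H : ConvHyp μ st i b g χ R M m₀) (y : Fin n → ℝ) :
    0 ≤ g (sliceU st.A i b y) * χ (y i + st.h i) / nE 0 (st.A⁻¹ i i) g ∧
    g (sliceU st.A i b y) * χ (y i + st.h i) / nE 0 (st.A⁻¹ i i) g
      ≤ g (sliceU st.A i b y) / nE 0 (st.A⁻¹ i i) g :=
  ⟨div_nonneg (mul_nonneg (H.g0 _).1 (H.c0 _).1) H.hP.le,
    div_le_div_of_nonneg_right (mul_le_of_le_one_right (H.g0 _).1 (H.c0 _).2) H.hP.le⟩

theorem cut_meas (H : ConvHyp μ st i b g χ R M m₀) : Measurable fun y : Fin n → ℝ =>
    g (sliceU st.A i b y) * χ (y i + st.h i) / nE 0 (st.A⁻¹ i i) g :=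
  ((H.gc.measurable.comp (continuous_sliceU st.A i b).measurable).mul
    (H.cc.measurable.comp ((measurable_pi_apply i).add_const _))).div_const _

end ConvHyp

theorem pR_freeze (hμ : ∀ x, 0 < μ x) (hA : st.A.PosDef) (i : Fin n) {b : Bool} {x : Conf n}
    (hx : x i = b) (y : Fin n → ℝ) (f : Conf n → ℝ) :
    ∑ z, pR μ st x y z * (onVal i b z * f z)
      = (∑ z, pR μ st x y z * onVal i b z) * condE μ (st.freeze i) f y x := by
  have hp : ∀ z, 0 < μ z * chan st.A z y := fun z => mul_pos (hμ z) (chanV_pos hA _ _)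
  have hf : fib (st.freeze i).S x = (fib st.S x).filter fun z => z i = b := by
    ext z
    simp only [fib, Step.freeze, mem_filter, mem_univ, true_and, mem_insert, forall_eq_or_imp, hx]
    exact and_comm
  set D := ∑ w ∈ fib st.S x, μ w * chan st.A w y
  set D' := ∑ w ∈ fib (st.freeze i).S x, μ w * chan st.A w y
  have hD' : D' ≠ 0 := (sum_pos (fun z _ => hp z) ⟨x, self_mem_fib _ x⟩).ne'
  have key : ∀ F : Conf n → ℝ, ∑ z, pR μ st x y z * (onVal i b z * F z)
      = (∑ z ∈ fib (st.freeze i).S x, μ z * chan st.A z y * F z) / D := fun F => by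
    have e : ∀ z, pR μ st x y z * (onVal i b z * F z)
        = if z ∈ fib (st.freeze i).S x then μ z * chan st.A z y * F z / D else 0 := fun z => by
      simp only [hf, mem_filter, pR, postS, onVal]
      by_cases h1 : z ∈ fib st.S x <;> by_cases h2 : z i = b <;> simp [h1, h2, D, div_mul_eq_mul_div]
    simp only [e, sum_ite_mem, univ_inter, sum_div]
  have k1 : ∑ z, pR μ st x y z * onVal i b z = D' / D := by
    have := key fun _ => 1
    simpa using this
  have k2 : condE μ (st.freeze i) f y x
      = (∑ z ∈ fib (st.freeze i).S x, μ z * chan st.A z y * f z) / D' := by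
    have e : ∀ z, pR μ (st.freeze i) x y z * f z
        = if z ∈ fib (st.freeze i).S x then μ z * chan st.A z y * f z / D' else 0 := fun z => by
      simp only [pR, postS]
      by_cases h1 : z ∈ fib (st.freeze i).S x
      · rw [if_pos h1, if_pos h1, div_mul_eq_mul_div]; rfl
      · rw [if_neg h1, if_neg h1, zero_mul]
    simp only [condE, e, sum_ite_mem, univ_inter, sum_div]
  rw [key, k1, k2, div_mul_div_comm, mul_comm D', mul_div_mul_right _ _ hD']

theorem abs_condE_on (hμ : ∀ x, 0 < μ x) (hA : st.A.PosDef) (i : Fin n) {b : Bool} {x : Conf n}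
    (hx : x i = b) {f : Conf n → ℝ} {B : ℝ} (hB : ∀ z, z i = b → |f z| ≤ B) (y : Fin n → ℝ) :
    |condE μ (st.freeze i) f y x| ≤ B := by
  refine (abs_sum_le_sum_abs _ _).trans ?_
  calc ∑ z, |pR μ (st.freeze i) x y z * f z| ≤ ∑ z, pR μ (st.freeze i) x y z * B := by
        refine sum_le_sum fun z _ => ?_
        rw [abs_mul, pR, abs_of_nonneg (postS_nonneg (A := (st.freeze i).A) hA hμ _ x y z)]
        by_cases hz : z ∈ fib (st.freeze i).S x
        · refine mul_le_mul_of_nonneg_left (hB z ?_) (postS_nonneg (A := (st.freeze i).A) hA hμ _ x y z)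
          rw [← hx]
          exact (mem_filter.1 hz).2 i (mem_insert_self i st.S)
        · simp [postS, hz]
    _ = B := by rw [← sum_mul, pR, postS_sum (A := (st.freeze i).A) hA hμ, one_mul]

section

variable (H : ConvHyp μ st i b g χ R M m₀)
include H

theorem winStep_int (f : Conf n → ℝ) (x : Conf n) : Integrable fun y =>
    chan st.A x y * (kWin st i b (fun u => g u / m₀) χ y
      * ∑ z, pR μ st x y z * (onVal i b z * f z)) := by
  refine chanV_bdd H.hA _ (H.kWin_meas.mul (Finset.measurable_fun_sum _ fun z _ =>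
    (measurable_postS st.A st.S x z).mul_const _))
    (M := M / m₀ * (1 + exp (2 * R)) * ∑ z, |f z|) fun y => ?_
  rw [abs_mul, abs_of_nonneg (H.kWin_bound y).1]
  refine mul_le_mul (H.kWin_bound y).2 (avg_bound (fun z => postS_nonneg H.hA H.hμ _ x y z)
    (postS_sum H.hA H.hμ _ x y) fun z => ?_) (abs_nonneg _)
    ((H.kWin_bound y).1.trans (H.kWin_bound y).2)
  rw [abs_mul, abs_of_nonneg (onVal_nonneg i b z)]
  exact (mul_le_of_le_one_left (abs_nonneg _) (onVal_le_one i b z)).trans (abs_le_sum_abs f z)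

theorem cutStep_int (f : Conf n → ℝ) (x : Conf n) : Integrable fun y =>
    chan st.A x y * (g (sliceU st.A i b y) * χ (y i + st.h i) / nE 0 (st.A⁻¹ i i) g
      * condE μ (st.freeze i) f y x) := by
  refine chanV_bdd H.hA _ (H.cut_meas.mul (measurable_condE f x))
    (M := M / nE 0 (st.A⁻¹ i i) g * ∑ z, |f z|) fun y => ?_
  rw [abs_mul, abs_of_nonneg (H.cut_bound y).1]
  exact mul_le_mul ((H.cut_bound y).2.trans (div_le_div_of_nonneg_right (H.g0 _).2 H.hP.le))
    (abs_condE_le (s := st.freeze i) H.hμ H.hA (abs_le_sum_abs f) y x) (abs_nonneg _)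
    (div_nonneg H.M_nonneg H.hP.le)

/-- A step of the window amplifies by at most its weight. -/
theorem onNorm_winStep (f : Conf n → ℝ) :
    onNorm μ i b (winStep μ st i b (fun u => g u / m₀) χ f)
      ≤ M / m₀ * (1 + exp (2 * R)) * onNorm μ i b f := by
  set K := M / m₀ * (1 + exp (2 * R))
  have hpt : ∀ x, |winStep μ st i b (fun u => g u / m₀) χ f x|
      ≤ K * stepOp (pR μ) st (fun z => onVal i b z * |f z|) x := fun x => by
    refine (abs_integral_le_integral_abs).trans ?_
    rw [stepOp, ← integral_const_mul]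
    have i2 : Integrable fun y => chan st.A x y * ∑ z, pR μ st x y z * (onVal i b z * |f z|) :=
      chanV_bdd H.hA _ (Finset.measurable_fun_sum _ fun z _ =>
        (measurable_postS st.A st.S x z).mul_const _) (M := ∑ z, |f z|) fun y =>
        avg_bound (fun z => postS_nonneg H.hA H.hμ _ x y z) (postS_sum H.hA H.hμ _ x y) fun z => by
          rw [abs_mul, abs_abs, abs_of_nonneg (onVal_nonneg i b z)]
          exact (mul_le_of_le_one_left (abs_nonneg _) (onVal_le_one i b z)).trans (abs_le_sum_abs f z)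
    refine integral_mono (winStep_int H f x).abs (i2.const_mul K) fun y => ?_
    simp only [abs_mul, chan_eq, abs_of_pos (chanV_pos H.hA _ y), abs_of_nonneg (H.kWin_bound y).1]
    rw [mul_left_comm K]
    refine mul_le_mul_of_nonneg_left (mul_le_mul (H.kWin_bound y).2
      ((abs_sum_le_sum_abs _ _).trans (le_of_eq (sum_congr rfl fun z _ => ?_))) (abs_nonneg _)
      ((H.kWin_bound y).1.trans (H.kWin_bound y).2)) (chanV_pos H.hA _ y).le
    rw [abs_mul, abs_mul, abs_of_nonneg (onVal_nonneg i b z)]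
    exact congrArg (· * _) (abs_of_nonneg (postS_nonneg H.hA H.hμ _ x y z))
  have hK0 : 0 ≤ K := (H.kWin_bound 0).1.trans (H.kWin_bound 0).2
  have hs0 : ∀ x, 0 ≤ stepOp (pR μ) st (fun z => onVal i b z * |f z|) x := fun x =>
    integral_nonneg fun y => mul_nonneg (chanV_pos H.hA _ y).le (sum_nonneg fun z _ =>
      mul_nonneg (postS_nonneg H.hA H.hμ _ x y z) (mul_nonneg (onVal_nonneg i b z) (abs_nonneg _)))
  calc onNorm μ i b (winStep μ st i b (fun u => g u / m₀) χ f)
      ≤ ∑ x, μ x * (K * stepOp (pR μ) st (fun z => onVal i b z * |f z|) x) :=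
        sum_le_sum fun x _ => mul_le_mul_of_nonneg_left
          ((mul_le_of_le_one_left (abs_nonneg _) (onVal_le_one i b x)).trans (hpt x)) (H.hμ x).le
    _ = K * onNorm μ i b f := by
        simp only [mul_left_comm _ K, ← mul_sum]
        rw [step_stationary H.hμ H.hA, onNorm]

/-- The sliced step. -/
theorem slice_apply (f : Conf n → ℝ) {x : Conf n} (hx : x i = b) :
    ∑ z, sliceKer μ (st.freeze i) (onVal i b) (fun y => g (sliceU st.A i b y))
        (nE 0 (st.A⁻¹ i i) g) x z * f z
      = ∫ y, chan st.A x y * (g (sliceU st.A i b y) / nE 0 (st.A⁻¹ i i) g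
          * condE μ (st.freeze i) f y x) := by
  have h := sliceKer_apply (s := st.freeze i) H.hμ H.hA H.sliceW f x
  rw [show onVal i b x = 1 by simp [onVal, hx], one_mul, one_mul] at h
  rw [h, ← integral_div]
  refine integral_congr_ae (ae_of_all _ fun y => ?_)
  show _ / _ = _
  simp only [Step.freeze]
  ring

theorem cutStep_abs_le (f : Conf n → ℝ) {x : Conf n} (hx : x i = b) :
    |cutStep μ st i b g χ (nE 0 (st.A⁻¹ i i) g) f x|
      ≤ ∑ z, sliceKer μ (st.freeze i) (onVal i b) (fun y => g (sliceU st.A i b y))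
          (nE 0 (st.A⁻¹ i i) g) x z * |f z| := by
  rw [slice_apply H _ hx]
  refine (abs_integral_le_integral_abs).trans (integral_mono (cutStep_int H f x).abs ?_ fun y => ?_)
  · refine chanV_bdd H.hA _ (((H.gc.measurable.comp (continuous_sliceU st.A i b).measurable).div_const
      _).mul (measurable_condE _ x)) (M := M / nE 0 (st.A⁻¹ i i) g * ∑ z, |f z|) fun y => ?_
    rw [abs_mul, abs_of_nonneg (div_nonneg (H.g0 _).1 H.hP.le)]
    refine mul_le_mul (div_le_div_of_nonneg_right (H.g0 _).2 H.hP.le)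
      (abs_condE_le (s := st.freeze i) H.hμ H.hA (fun z => ?_) y x) (abs_nonneg _)
      (div_nonneg H.M_nonneg H.hP.le)
    rw [abs_abs]; exact abs_le_sum_abs f z
  · simp only [abs_mul, chan_eq, abs_of_pos (chanV_pos H.hA _ y), abs_of_nonneg (H.cut_bound y).1]
    refine mul_le_mul_of_nonneg_left (mul_le_mul (H.cut_bound y).2
      ((abs_sum_le_sum_abs _ _).trans (le_of_eq (sum_congr rfl fun z _ => ?_))) (abs_nonneg _)
      (div_nonneg (H.g0 _).1 H.hP.le)) (chanV_pos H.hA _ y).le
    rw [abs_mul]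
    exact congrArg (· * _) (abs_of_nonneg (postS_nonneg (A := (st.freeze i).A) H.hA H.hμ _ x y z))

/-- The cut step does not increase the norm. -/
theorem onNorm_cutStep (f : Conf n → ℝ) :
    onNorm μ i b (cutStep μ st i b g χ (nE 0 (st.A⁻¹ i i) g) f) ≤ onNorm μ i b f := by
  have hK := sliceKer_isPsd (s := st.freeze i) H.hμ H.hA H.sliceW (onVal_nonneg i b)
    (onVal_fib st i b)
  set Q := sliceKer μ (st.freeze i) (onVal i b) (fun y => g (sliceU st.A i b y))
    (nE 0 (st.A⁻¹ i i) g)
  have e : ∑ x, μ x * (onVal i b x * ∑ z, Q x z * |f z|) = onNorm μ i b f := by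
    rw [onNorm]
    simp only [mul_sum]
    rw [sum_comm]
    refine sum_congr rfl fun z _ => ?_
    have hs : ∀ x, μ x * (onVal i b x * (Q x z * |f z|))
        = onVal i b z * μ z * |f z| * Q z x := fun x => by
      linear_combination |f z| * hK.symm x z
    rw [sum_congr rfl fun x _ => hs x, ← mul_sum, hK.row z]
    ring
  rw [← e]
  refine sum_le_sum fun x _ => mul_le_mul_of_nonneg_left ?_ (H.hμ x).le
  by_cases hx : x i = b
  · exact mul_le_mul_of_nonneg_left (cutStep_abs_le H f hx) (onVal_nonneg i b x)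
  · simp [onVal, hx]

/-- Cutting costs the clipped mass. -/
theorem onNorm_cut_slice {f : Conf n → ℝ} (hf : ∀ z, z i = b → |f z| ≤ 1) :
    onNorm μ i b (fun x => cutStep μ st i b g χ (nE 0 (st.A⁻¹ i i) g) f x
      - ∑ z, sliceKer μ (st.freeze i) (onVal i b) (fun y => g (sliceU st.A i b y))
          (nE 0 (st.A⁻¹ i i) g) x z * f z)
      ≤ M / nE 0 (st.A⁻¹ i i) g * clipTail μ st χ i := by
  have iχ : ∀ x, Integrable fun y => chan st.A x y * (1 - χ (y i + st.h i)) := fun x =>
    chanV_bdd H.hA _ ((H.cc.measurable.comp ((measurable_pi_apply i).add_const _)).const_sub 1)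
      (M := 1) fun y => by
        rw [abs_le]; constructor <;> linarith [(H.c0 (y i + st.h i)).1, (H.c0 (y i + st.h i)).2]
  rw [clipTail, mul_sum]
  refine sum_le_sum fun x _ => ?_
  rw [mul_left_comm (M / nE 0 (st.A⁻¹ i i) g)]
  refine mul_le_mul_of_nonneg_left ?_ (H.hμ x).le
  have h0 : 0 ≤ M / nE 0 (st.A⁻¹ i i) g * ∫ y, chan st.A x y * (1 - χ (y i + st.h i)) :=
    mul_nonneg (div_nonneg H.M_nonneg H.hP.le) (integral_nonneg fun y =>
      mul_nonneg (chanV_pos H.hA _ y).le (sub_nonneg.2 (H.c0 _).2))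
  by_cases hx : x i = b
  · refine (mul_le_of_le_one_left (abs_nonneg _) (onVal_le_one i b x)).trans ?_
    have is : Integrable fun y => chan st.A x y * (g (sliceU st.A i b y) / nE 0 (st.A⁻¹ i i) g
        * condE μ (st.freeze i) f y x) := by
      refine chanV_bdd H.hA _ (((H.gc.measurable.comp (continuous_sliceU st.A i b).measurable).div_const
        _).mul (measurable_condE _ x)) (M := M / nE 0 (st.A⁻¹ i i) g) fun y => ?_
      rw [abs_mul, abs_of_nonneg (div_nonneg (H.g0 _).1 H.hP.le)]
      exact (mul_le_of_le_one_right (div_nonneg (H.g0 _).1 H.hP.le)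
        (abs_condE_on H.hμ H.hA i hx hf y)).trans (div_le_div_of_nonneg_right (H.g0 _).2 H.hP.le)
    simp only
    rw [slice_apply H f hx, cutStep, ← integral_sub (cutStep_int H f x) is, ← integral_const_mul]
    refine (abs_integral_le_integral_abs).trans (integral_mono ((cutStep_int H f x).sub is).abs
      ((iχ x).const_mul _) fun y => ?_)
    have hc := chanV_pos H.hA (st.A *ᵥ vec x) y
    simp only [Pi.sub_apply, ← mul_sub, ← sub_mul, abs_mul, chan_eq, abs_of_pos hc]
    rw [mul_left_comm (M / nE 0 (st.A⁻¹ i i) g)]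
    refine mul_le_mul_of_nonneg_left ?_ hc.le
    refine (mul_le_of_le_one_right (abs_nonneg _) (abs_condE_on H.hμ H.hA i hx hf y)).trans ?_
    rw [abs_sub_comm, ← sub_div, ← mul_one_sub, abs_div, abs_of_pos H.hP,
      abs_of_nonneg (mul_nonneg (H.g0 _).1 (sub_nonneg.2 (H.c0 _).2)), mul_div_right_comm]
    exact mul_le_mul_of_nonneg_right (div_le_div_of_nonneg_right (H.g0 _).2 H.hP.le)
      (sub_nonneg.2 (H.c0 _).2)
  · simpa [onVal, hx] using h0

/-- The window step against the cut step. -/
theorem onNorm_win_cut {f : Conf n → ℝ} (hf : ∀ z, z i = b → |f z| ≤ 1) :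
    onNorm μ i b (fun x => winStep μ st i b (fun u => g u / m₀) χ f x
      - cutStep μ st i b g χ (nE 0 (st.A⁻¹ i i) g) f x)
      ≤ M / m₀ * (1 + exp (2 * R)) * sigErr μ st i b + |nE 0 (st.A⁻¹ i i) g / m₀ - 1| := by
  set P := nE 0 (st.A⁻¹ i i) g
  set Kb := M / m₀ * (1 + exp (2 * R))
  set pb : Conf n → (Fin n → ℝ) → ℝ := fun x y => ∑ z, pR μ st x y z * onVal i b z
  have hd : ∀ x y, |pb x y - sig b (y i + st.h i)| ≤ 2 := fun x y => by
    refine (abs_sub _ _).trans ?_
    have h := avg_bound (M := 1) (fun z => postS_nonneg H.hA H.hμ st.S x y z)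
      (postS_sum H.hA H.hμ _ x y) (a := fun z => onVal i b z) fun z => by
        rw [onVal]; split <;> norm_num
    have := abs_of_nonneg (sig_nonneg b (y i + st.h i))
    have := sig_le_one b (y i + st.h i)
    simp only [pb, pR] at h ⊢
    linarith
  have hdm : ∀ x, Measurable fun y => |pb x y - sig b (y i + st.h i)| := fun x =>
    continuous_abs.measurable.comp ((Finset.measurable_fun_sum _ fun z _ =>
      (measurable_postS st.A st.S x z).mul_const _).sub
      ((continuous_sig b).measurable.comp ((measurable_pi_apply i).add_const _)))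
  have iE : ∀ x, Integrable fun y => μ x * chan st.A x y * |pb x y - sig b (y i + st.h i)| :=
    fun x => ((chanV_bdd H.hA _ (hdm x) (M := 2) fun y => by rw [abs_abs]; exact hd x y).const_mul
      (μ x)).congr (ae_of_all _ fun y => by simp only [chan_eq]; ring)
  have ig : ∀ x, Integrable fun y => chan st.A x y * g (sliceU st.A i b y) := fun x =>
    chanV_bdd H.hA _ (H.gc.measurable.comp (continuous_sliceU st.A i b).measurable) (M := M)
      fun y => by rw [abs_of_nonneg (H.g0 _).1]; exact (H.g0 _).2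
  have hK0 : 0 ≤ Kb := (H.kWin_bound 0).1.trans (H.kWin_bound 0).2
  have hpt : ∀ x, onVal i b x * |winStep μ st i b (fun u => g u / m₀) χ f x
        - cutStep μ st i b g χ P f x|
      ≤ Kb * (∫ y, chan st.A x y * |pb x y - sig b (y i + st.h i)|) + |P / m₀ - 1| := by
    intro x
    have h0 : 0 ≤ Kb * ∫ y, chan st.A x y * |pb x y - sig b (y i + st.h i)| :=
      mul_nonneg hK0 (integral_nonneg fun y => mul_nonneg (chanV_pos H.hA _ y).le (abs_nonneg _))
    by_cases hx : x i = b
    swap
    · simp only [onVal, hx, if_false, zero_mul]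
      linarith [abs_nonneg (P / m₀ - 1)]
    refine (mul_le_of_le_one_left (abs_nonneg _) (onVal_le_one i b x)).trans ?_
    have i1 : Integrable fun y => chan st.A x y * |pb x y - sig b (y i + st.h i)| :=
      chanV_bdd H.hA _ (hdm x) (M := 2) fun y => by rw [abs_abs]; exact hd x y
    have hmass : ∫ y, chan st.A x y * g (sliceU st.A i b y) = P :=
      slice_mass H.hA i hx H.gc.measurable
    have ee : |P / m₀ - 1| = |1 / m₀ - 1 / P| * P := by
      conv_rhs => rhs; rw [← abs_of_pos (show 0 < P from H.hP)]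
      rw [← abs_mul, sub_mul, one_div_mul_cancel H.hP.ne', one_div_mul_eq_div]
    rw [winStep, cutStep, ← integral_sub (winStep_int H f x) (cutStep_int H f x)]
    refine (abs_integral_le_integral_abs).trans ((integral_mono ((winStep_int H f x).sub
      (cutStep_int H f x)).abs ((i1.const_mul Kb).add ((ig x).const_mul |1 / m₀ - 1 / P|))
      fun y => ?_).trans_eq ?_)
    · simp only [Pi.sub_apply, Pi.add_apply, pR_freeze H.hμ H.hA i hx, ← mul_sub, abs_mul, chan_eq,
        abs_of_pos (chanV_pos H.hA _ y)]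
      rw [mul_left_comm Kb, mul_left_comm |1 / m₀ - 1 / P|, ← mul_add]
      refine mul_le_mul_of_nonneg_left ?_ (chanV_pos H.hA _ y).le
      rw [← mul_assoc, ← sub_mul, abs_mul]
      refine (mul_le_of_le_one_right (abs_nonneg _) (abs_condE_on H.hμ H.hA i hx hf y)).trans ?_
      have hs : 0 < sig b (y i + st.h i) := by unfold sig; positivity
      have e : kWin st i b (fun u => g u / m₀) χ y * pb x y
            - g (sliceU st.A i b y) * χ (y i + st.h i) / P
          = kWin st i b (fun u => g u / m₀) χ y * (pb x y - sig b (y i + st.h i))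
            + g (sliceU st.A i b y) * χ (y i + st.h i) * (1 / m₀ - 1 / P) := by
        have := hs.ne'; have := H.hm₀.ne'; have := H.hP.ne'
        rw [kWin]; field_simp; ring
      rw [e]
      refine (abs_add_le _ _).trans (add_le_add ?_ ?_)
      · rw [abs_mul, abs_of_nonneg (H.kWin_bound y).1]
        exact mul_le_mul_of_nonneg_right (H.kWin_bound y).2 (abs_nonneg _)
      · rw [abs_mul, abs_of_nonneg (mul_nonneg (H.g0 _).1 (H.c0 _).1), mul_comm |1 / m₀ - 1 / P|]
        exact mul_le_mul_of_nonneg_right (mul_le_of_le_one_right (H.g0 _).1 (H.c0 _).2) (abs_nonneg _)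
    · simp only [Pi.add_apply]
      rw [integral_add (i1.const_mul Kb) ((ig x).const_mul _), integral_const_mul, integral_const_mul,
        hmass, ← ee]
  calc onNorm μ i b _ ≤ ∑ x, μ x * (Kb * (∫ y, chan st.A x y * |pb x y - sig b (y i + st.h i)|)
          + |P / m₀ - 1|) := sum_le_sum fun x _ => mul_le_mul_of_nonneg_left (hpt x) (H.hμ x).le
    _ = Kb * sigErr μ st i b + |P / m₀ - 1| := by
      simp only [mul_add, sum_add_distrib, ← sum_mul, H.h1, one_mul]
      congr 1
      rw [sigErr]
      rw [integral_finsetSum _ fun x _ => iE x, mul_sum]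
      refine sum_congr rfl fun x _ => ?_
      rw [mul_left_comm, ← integral_const_mul (μ x)]
      simp only [pb, ← mul_assoc]

end

end Vale.Agent.P150.Fast
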