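import Mathlib
import Vale.Agent.P150.Fast.Cavity.PartsConvStep

/-!
Windows of the path against powers of the sliced kernel: proof of `ConvStmt` from the single steps.
Used for P150 (module M4).
-/

open MeasureTheory Real Finset
open scoped Matrix

namespace Vale.Agent.P150.Fast

variable {n : ℕ} {μ : Conf n → ℝ} {st : Step n} {i : Fin n} {b : Bool} {g χ : ℝ → ℝ} {R M m₀ : ℝ}

/-- The path with window weights is the iterated window step. -/
theorem path_win (H : ConvHyp μ st i b g χ R M m₀) :
    ∀ {m : ℕ} (G : Fin (m + 1) → Conf n → ℝ), (∀ t x, |G t x| ≤ 1) → ∀ x,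
      pathE (pR μ) (fun _ : Fin m => st) x (fun ω => winP st i b (fun u => g u / m₀) χ x ω
        * ∏ t, G t ((Fin.cons x fun k => (ω k).2 : Fin (m + 1) → Conf n) t))
      = onVal i b x * insF (winStep μ st i b (fun u => g u / m₀) χ) G x
  | 0, G, _, x => by simp [pathE, winP, insF, Fin.cons_zero]
  | m + 1, G, hG, x => by
    have hw : ∀ (y : Fin n → ℝ) (z : Conf n) (ω : Fin m → (Fin n → ℝ) × Conf n),
        winP st i b (fun u => g u / m₀) χ x (Fin.cons (y, z) ω)
          * ∏ t, G t ((Fin.cons x fun k => ((Fin.cons (y, z) ω : Fin (m + 1) →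
              (Fin n → ℝ) × Conf n) k).2 : Fin (m + 1 + 1) → Conf n) t)
        = onVal i b x * G 0 x * kWin st i b (fun u => g u / m₀) χ y
          * (winP st i b (fun u => g u / m₀) χ z ω
            * ∏ t, Fin.tail G t ((Fin.cons z fun k => (ω k).2 : Fin (m + 1) → Conf n) t)) + 0 := by
      intro y z ω
      have hs : ((fun k => ((Fin.cons (y, z) ω : Fin (m + 1) → (Fin n → ℝ) × Conf n) k).2)
          : Fin (m + 1) → Conf n) = Fin.cons z fun k => (ω k).2 := by
        funext k; cases k using Fin.cases <;> simp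
      rw [hs, Fin.prod_univ_succ (f := fun t : Fin (m + 1 + 1) => G t _), winP, winP,
        Fin.prod_univ_succ (f := fun t : Fin (m + 1) => _ * (_ * _))]
      simp only [Fin.cons_zero, Fin.cons_succ, kWin, Fin.tail]
      ring
    obtain ⟨Kb, hKb⟩ : ∃ Kb, Kb = M / m₀ * (1 + exp (2 * R)) := ⟨_, rfl⟩
    have hterm : ∀ (z : Conf n) (ω : Fin m → (Fin n → ℝ) × Conf n),
        |winP st i b (fun u => g u / m₀) χ z ω
          * ∏ t, Fin.tail G t ((Fin.cons z fun k => (ω k).2 : Fin (m + 1) → Conf n) t)|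
        ≤ Kb ^ m := fun z ω => by
      rw [abs_mul]
      refine (mul_le_of_le_one_right (abs_nonneg _) ?_).trans ?_
      · rw [abs_prod]; exact prod_le_one (fun t _ => abs_nonneg _) fun t _ => hG _ _
      rw [winP, abs_mul, abs_of_nonneg (onVal_nonneg i b z), abs_prod]
      refine (mul_le_of_le_one_left (prod_nonneg fun t _ => abs_nonneg _) (onVal_le_one i b z)).trans ?_
      refine (prod_le_prod (g := fun _ => Kb) (fun t _ => abs_nonneg _) fun t _ => ?_).trans_eq
        (by simp)
      rw [hKb, show onVal i b (ω t).2 * (sig b ((ω t).1 i + st.h i))⁻¹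
          * (g (sliceU st.A i b (ω t).1) / m₀ * χ ((ω t).1 i + st.h i))
          = onVal i b (ω t).2 * kWin st i b (fun u => g u / m₀) χ (ω t).1 by rw [kWin]; ring,
        abs_of_nonneg (mul_nonneg (onVal_nonneg i b _) (H.kWin_bound _).1)]
      exact (mul_le_of_le_one_left (H.kWin_bound _).1 (onVal_le_one i b _)).trans (H.kWin_bound _).2
    have hmeas : ∀ z : Conf n, Measurable fun ω : Fin m → (Fin n → ℝ) × Conf n =>
        winP st i b (fun u => g u / m₀) χ z ω
          * ∏ t, Fin.tail G t ((Fin.cons z fun k => (ω k).2 : Fin (m + 1) → Conf n) t) := fun z => by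
      unfold winP
      refine ((Finset.measurable_fun_prod _ fun t _ => ?_).const_mul _).mul
        (Finset.measurable_fun_prod _ fun t _ => ?_)
      · have hy : Measurable fun ω : Fin m → (Fin n → ℝ) × Conf n => kWin st i b
            (fun u => g u / m₀) χ (ω t).1 := H.kWin_meas.comp (measurable_pi_apply t).fst
        have hz : Measurable fun ω : Fin m → (Fin n → ℝ) × Conf n => onVal i b (ω t).2 :=
          (measurable_of_finite (onVal i b)).comp (measurable_pi_apply t).snd
        simp only [mul_assoc]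
        exact hz.mul hy
      · refine (measurable_of_finite (Fin.tail G t)).comp ?_
        refine Fin.cases ?_ (fun j => ?_) t
        · exact measurable_const
        · exact (measurable_pi_apply j).snd
    simp only [pathE, insF, winStep]
    rw [← mul_assoc, ← integral_const_mul]
    refine integral_congr_ae (ae_of_all _ fun y => ?_)
    simp only [mul_sum]
    refine sum_congr rfl fun z _ => ?_
    have e := pathE_affine (R := pR μ) (fun _ : Fin m => st) (fun _ => ok_pR H.hμ H.hA) _ (hmeas z)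
      (Kb ^ m) (hterm z) (onVal i b x * G 0 x * kWin st i b (fun u => g u / m₀) χ y) 0 z
    simp only [hw]
    rw [show (Fin.tail fun _ : Fin (m + 1) => st) = fun _ => st from rfl, e,
      path_win H (Fin.tail G) (fun t x => hG _ _) z]
    ring

/-- The iterated sliced and cut steps stay bounded by one. -/
theorem ins_bound (H : ConvHyp μ st i b g χ R M m₀) :
    ∀ {m : ℕ} (G : Fin (m + 1) → Conf n → ℝ), (∀ t x, |G t x| ≤ 1) → ∀ x, x i = b →
      |insF (cutStep μ st i b g χ (nE 0 (st.A⁻¹ i i) g)) G x| ≤ 1 ∧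
      |insF (fun f x => ∑ z, sliceKer μ (st.freeze i) (onVal i b)
        (fun y => g (sliceU st.A i b y)) (nE 0 (st.A⁻¹ i i) g) x z * f z) G x| ≤ 1
  | 0, G, hG, x, _ => ⟨hG 0 x, hG 0 x⟩
  | m + 1, G, hG, x, hx => by
    have hK := sliceKer_isPsd (s := st.freeze i) H.hμ H.hA H.sliceW (onVal_nonneg i b)
      (onVal_fib st i b)
    have ih := fun z hz => ins_bound H (Fin.tail G) (fun t x => hG _ _) z hz
    have main : ∀ f : Conf n → ℝ, (∀ z, z i = b → |f z| ≤ 1) →
        ∑ z, sliceKer μ (st.freeze i) (onVal i b) (fun y => g (sliceU st.A i b y))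
          (nE 0 (st.A⁻¹ i i) g) x z * |f z| ≤ 1 := fun f hf => by
      refine (sum_le_sum fun z _ => ?_).trans_eq (hK.row x)
      by_cases hz : z i = b
      · exact mul_le_of_le_one_right (hK.nn x z) (hf z hz)
      · have : sliceKer μ (st.freeze i) (onVal i b) (fun y => g (sliceU st.A i b y))
            (nE 0 (st.A⁻¹ i i) g) x z = 0 := by
          have hzf : z ∉ fib (st.freeze i).S x := fun h =>
            hz (((mem_filter.1 h).2 i (mem_insert_self i st.S)).trans hx)
          simp [sliceKer, onVal, hx, pR, postS, hzf]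
        simp [this]
    constructor
    · simp only [insF, abs_mul]
      exact mul_le_one₀ (hG 0 x) (abs_nonneg _)
        ((cutStep_abs_le H _ hx).trans (main _ fun z hz => (ih z hz).1))
    · simp only [insF, abs_mul]
      refine mul_le_one₀ (hG 0 x) (abs_nonneg _) (((abs_sum_le_sum_abs _ _).trans (le_of_eq
        (sum_congr rfl fun z _ => ?_))).trans (main _ fun z hz => (ih z hz).2))
      rw [abs_mul, abs_of_nonneg (hK.nn x z)]

theorem onNorm_mul_le (hμ : ∀ x, 0 < μ x) {G f : Conf n → ℝ} (hG : ∀ x, |G x| ≤ 1) :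
    onNorm μ i b (fun x => G x * f x) ≤ onNorm μ i b f :=
  sum_le_sum fun x _ => mul_le_mul_of_nonneg_left (mul_le_mul_of_nonneg_left
    (by rw [abs_mul]; exact mul_le_of_le_one_left (abs_nonneg _) (hG x)) (onVal_nonneg i b x))
    (hμ x).le

theorem onNorm_tri (hμ : ∀ x, 0 < μ x) (a c : Conf n → ℝ) :
    onNorm μ i b (fun x => a x + c x) ≤ onNorm μ i b a + onNorm μ i b c := by
  simp only [onNorm, ← sum_add_distrib, ← mul_add]
  exact sum_le_sum fun x _ => mul_le_mul_of_nonneg_left
    (mul_le_mul_of_nonneg_left (abs_add_le _ _) (onVal_nonneg i b x)) (hμ x).le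

/-- Cut windows against sliced windows. -/
theorem ins_cut_slice (H : ConvHyp μ st i b g χ R M m₀) :
    ∀ {m : ℕ} (G : Fin (m + 1) → Conf n → ℝ), (∀ t x, |G t x| ≤ 1) →
      onNorm μ i b (fun x => insF (cutStep μ st i b g χ (nE 0 (st.A⁻¹ i i) g)) G x
        - insF (fun f x => ∑ z, sliceKer μ (st.freeze i) (onVal i b)
            (fun y => g (sliceU st.A i b y)) (nE 0 (st.A⁻¹ i i) g) x z * f z) G x)
        ≤ m * (M / nE 0 (st.A⁻¹ i i) g * clipTail μ st χ i)
  | 0, G, _ => by simp [insF, onNorm]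
  | m + 1, G, hG => by
    have hb := fun z hz => ins_bound H (Fin.tail G) (fun t x => hG _ _) z hz
    simp only [insF, ← mul_sub]
    refine (onNorm_mul_le H.hμ (hG 0)).trans ?_
    set T := cutStep μ st i b g χ (nE 0 (st.A⁻¹ i i) g)
    set J := insF T (Fin.tail G)
    set Sl : (Conf n → ℝ) → Conf n → ℝ := fun f x => ∑ z, sliceKer μ (st.freeze i) (onVal i b)
      (fun y => g (sliceU st.A i b y)) (nE 0 (st.A⁻¹ i i) g) x z * f z
    set I := insF Sl (Fin.tail G)
    have e : ∀ x, T J x - Sl I x = T (fun z => J z - I z) x + (T I x - Sl I x) := fun x => by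
      have hlin : T (fun z => J z - I z) x = T J x - T I x := by
        simp only [T, cutStep]
        rw [← integral_sub (cutStep_int H J x) (cutStep_int H I x)]
        refine integral_congr_ae (ae_of_all _ fun y => ?_)
        simp only [condE, mul_sub, sum_sub_distrib]
      rw [hlin]; ring
    rw [funext e, Nat.cast_succ, add_mul, one_mul]
    exact (onNorm_tri H.hμ _ _).trans (add_le_add ((onNorm_cutStep H _).trans
      (ins_cut_slice H (Fin.tail G) fun t x => hG _ _)) (onNorm_cut_slice H fun z hz => (hb z hz).2))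

/-- Windows of the path against cut windows. -/
theorem ins_win_cut (H : ConvHyp μ st i b g χ R M m₀) :
    ∀ {m : ℕ} (G : Fin (m + 1) → Conf n → ℝ), (∀ t x, |G t x| ≤ 1) →
      onNorm μ i b (fun x => insF (winStep μ st i b (fun u => g u / m₀) χ) G x
        - insF (cutStep μ st i b g χ (nE 0 (st.A⁻¹ i i) g)) G x)
        ≤ m * (1 + M / m₀ * (1 + exp (2 * R))) ^ m
          * (M / m₀ * (1 + exp (2 * R)) * sigErr μ st i b + |nE 0 (st.A⁻¹ i i) g / m₀ - 1|)
  | 0, G, _ => by simp [insF, onNorm]
  | m + 1, G, hG => by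
    have hb := fun z hz => ins_bound H (Fin.tail G) (fun t x => hG _ _) z hz
    simp only [insF, ← mul_sub]
    refine (onNorm_mul_le H.hμ (hG 0)).trans ?_
    set A := winStep μ st i b (fun u => g u / m₀) χ
    set T := cutStep μ st i b g χ (nE 0 (st.A⁻¹ i i) g)
    set U := insF A (Fin.tail G)
    set J := insF T (Fin.tail G)
    set Kb := M / m₀ * (1 + exp (2 * R))
    set D := Kb * sigErr μ st i b + |nE 0 (st.A⁻¹ i i) g / m₀ - 1|
    have e : ∀ x, A U x - T J x = A (fun z => U z - J z) x + (A J x - T J x) := fun x => by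
      have hlin : A (fun z => U z - J z) x = A U x - A J x := by
        simp only [A, winStep]
        rw [← integral_sub (winStep_int H U x) (winStep_int H J x)]
        refine integral_congr_ae (ae_of_all _ fun y => ?_)
        simp only [mul_sub, sum_sub_distrib]
      rw [hlin]; ring
    have hK0 : 0 ≤ Kb := (H.kWin_bound 0).1.trans (H.kWin_bound 0).2
    have hD0 : 0 ≤ D := add_nonneg (mul_nonneg hK0 (integral_nonneg fun y => sum_nonneg fun x _ =>
      mul_nonneg (mul_pos (H.hμ x) (chanV_pos H.hA _ y)).le (abs_nonneg _))) (abs_nonneg _)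
    rw [funext e]
    refine (onNorm_tri H.hμ _ _).trans ((add_le_add ((onNorm_winStep H _).trans
      (mul_le_mul_of_nonneg_left (ins_win_cut H (Fin.tail G) fun t x => hG _ _) hK0))
      (onNorm_win_cut H fun z hz => (hb z hz).1)).trans ?_)
    push_cast
    have h1 : (1 : ℝ) ≤ (1 + Kb) ^ m := one_le_pow₀ (by linarith)
    have h2 : 0 ≤ (m : ℝ) * (1 + Kb) ^ m := by positivity
    rw [pow_succ]
    nlinarith [mul_le_mul_of_nonneg_right h1 hD0, mul_nonneg h2 hD0, mul_nonneg hK0 hD0,
      mul_nonneg (mul_nonneg h2 hK0) hD0, mul_nonneg (mul_nonneg (zero_le_one.trans h1) hK0) hD0]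

theorem convThm : ConvStmt := by
  intro m R M m₀ hR hM hm₀
  set K := M / m₀ * (1 + exp (2 * R))
  have hK0 : 0 ≤ K := mul_nonneg (div_nonneg hM hm₀.le) (by positivity)
  refine ⟨m * (1 + K) ^ m * (1 + K), by positivity,
    fun n μ st hμ h1 hA i _ b g χ gc cc g0 c0 cs hP m₁ hm₁ G hG => ?_⟩
  have H : ConvHyp μ st i b g χ R M m₁ :=
    ⟨hμ, h1, hA, hR, hm₀.trans_le hm₁, gc, cc, g0, c0, cs, hP⟩
  have hm₁0 : 0 < m₁ := hm₀.trans_le hm₁
  set K₁ := M / m₁ * (1 + exp (2 * R))
  have hK1 : 0 ≤ K₁ := mul_nonneg (div_nonneg hM hm₁0.le) (by positivity)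
  have hKK : K₁ ≤ K := mul_le_mul_of_nonneg_right (div_le_div_of_nonneg_left hM hm₀ hm₁) (by positivity)
  rw [insOp_eq]
  simp only [path_win H G hG]
  set Iw := insF (winStep μ st i b (fun u => g u / m₁) χ) G
  set Ic := insF (cutStep μ st i b g χ (nE 0 (st.A⁻¹ i i) g)) G
  set Is := insF (fun f x => ∑ z, sliceKer μ (st.freeze i) (onVal i b)
    (fun y => g (sliceU st.A i b y)) (nE 0 (st.A⁻¹ i i) g) x z * f z) G
  have e : ∑ x, μ x * |onVal i b x * Iw x - onVal i b x * Is x|
      = onNorm μ i b fun x => (Iw x - Ic x) + (Ic x - Is x) := by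
    refine sum_congr rfl fun x _ => ?_
    simp only [sub_add_sub_cancel]
    rw [← mul_sub, abs_mul, abs_of_nonneg (onVal_nonneg i b x)]
  rw [e]
  refine (onNorm_tri hμ _ _).trans ((add_le_add (ins_win_cut H G hG) (ins_cut_slice H G hG)).trans ?_)
  have hs : 0 ≤ sigErr μ st i b := integral_nonneg fun y => sum_nonneg fun x _ =>
    mul_nonneg (mul_pos (hμ x) (chanV_pos hA _ y)).le (abs_nonneg _)
  have ha := abs_nonneg (nE 0 (st.A⁻¹ i i) g / m₁ - 1)
  rw [add_comm]
  refine add_le_add le_rfl ?_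
  calc (m : ℝ) * (1 + K₁) ^ m * (K₁ * sigErr μ st i b + |nE 0 (st.A⁻¹ i i) g / m₁ - 1|)
      ≤ m * (1 + K) ^ m * ((1 + K) * (sigErr μ st i b + |nE 0 (st.A⁻¹ i i) g / m₁ - 1|)) := by
        refine mul_le_mul (mul_le_mul_of_nonneg_left
          (pow_le_pow_left₀ (by linarith) (by linarith) m) (Nat.cast_nonneg m)) ?_
          (add_nonneg (mul_nonneg hK1 hs) ha) (by positivity)
        nlinarith [mul_le_mul_of_nonneg_right hKK hs, mul_nonneg hK0 ha]
    _ = _ := by ring

end Vale.Agent.P150.Fast
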