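import Mathlib
import Vale.Agent.P150.Fast.ChainPower
import Vale.Agent.P150.Fast.Cavity.SliceKer

/-!
Transfer between two positive reversible kernels: functions of small Dirichlet form factor out of
powers, and smoothed functions do not see a second kernel of comparable form (P150).
-/

open Real Finset

namespace Vale.Agent.P150.Fast

variable {ι : Type} [Fintype ι] {w : ι → ℝ} {K : ι → ι → ℝ}

theorem powOp_lin (K : ι → ι → ℝ) (k : ℕ) (f g : ι → ℝ) (a b : ℝ) :
    powOp K k (fun x => a * f x + b * g x) = fun x => a * powOp K k f x + b * powOp K k g x := by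
  induction k with
  | zero => rfl
  | succ k ih =>
    rw [powOp_succ, ih, powOp_succ K k f, powOp_succ K k g]
    funext x
    simp only [powOp, Function.iterate_one, mul_sum, ← sum_add_distrib]
    exact sum_congr rfl fun z _ => by ring

theorem powOp_nonneg (hK : IsPsdKer w K) (k : ℕ) {f : ι → ℝ} (hf : ∀ x, 0 ≤ f x) :
    ∀ x, 0 ≤ powOp K k f x := by
  induction k with
  | zero => exact hf
  | succ k ih =>
    intro x
    rw [powOp_succ]
    exact sum_nonneg fun z _ => mul_nonneg (hK.nn x z) (ih z)

theorem powOp_const (hK : IsPsdKer w K) (k : ℕ) (c : ℝ) :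
    powOp K k (fun _ => c) = fun _ => c := by
  induction k with
  | zero => rfl
  | succ k ih =>
    rw [powOp_succ, ih]
    funext x
    simp only [powOp, Function.iterate_one, ← sum_mul, hK.row, one_mul]

theorem powOp_mono (hK : IsPsdKer w K) (k : ℕ) {f g : ι → ℝ} (h : ∀ x, f x ≤ g x) (x : ι) :
    powOp K k f x ≤ powOp K k g x := by
  have := powOp_nonneg hK k (f := fun z => 1 * g z + (-1) * f z) (fun z => by linarith [h z]) x
  rw [powOp_lin] at this
  linarith

theorem powOp_abs_le (hK : IsPsdKer w K) (k : ℕ) {f : ι → ℝ} {M : ℝ} (h : ∀ x, |f x| ≤ M) (x : ι) :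
    |powOp K k f x| ≤ M := by
  have h1 := powOp_mono hK k (fun z => (abs_le.1 (h z)).2) x
  have h2 := powOp_mono hK k (fun z => (abs_le.1 (h z)).1) x
  rw [powOp_const hK] at h1 h2
  exact abs_le.2 ⟨h2, h1⟩

theorem ip_one_pow (hK : IsPsdKer w K) (k : ℕ) (f : ι → ℝ) :
    ∑ x, w x * powOp K k f x = ∑ x, w x * f x := by
  have h := ip_pow_symm hK k (fun _ => (1 : ℝ)) f
  rw [powOp_const hK] at h
  simpa [ip] using h

/-- Weighted Cauchy–Schwarz for a mean of absolute values. -/
theorem l1_le_l2 (hw : ∀ x, 0 ≤ w x) (h1 : ∑ x, w x ≤ 1) (f : ι → ℝ) :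
    ∑ x, w x * |f x| ≤ √(∑ x, w x * f x ^ 2) := by
  refine (le_sqrt (sum_nonneg fun x _ => mul_nonneg (hw x) (abs_nonneg _))
    (sum_nonneg fun x _ => mul_nonneg (hw x) (sq_nonneg _))).2 ?_
  refine (sum_sq_le_sum_mul_sum_of_sq_le_mul univ (fun x _ => hw x)
    (fun x _ => mul_nonneg (hw x) (sq_nonneg (f x)))
    fun x _ => le_of_eq (by rw [mul_pow, sq_abs]; ring)).trans ?_
  exact mul_le_of_le_one_left (sum_nonneg fun x _ => mul_nonneg (hw x) (sq_nonneg _)) h1

theorem ip_abs_le (hw : ∀ x, 0 ≤ w x) (f g : ι → ℝ) :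
    |ip w f g| ≤ √(ip w f f) * √(ip w g g) := by
  have e : ∀ u : ι → ℝ, 0 ≤ ip w u u := fun u =>
    sum_nonneg fun x _ => by rw [mul_assoc]; exact mul_nonneg (hw x) (mul_self_nonneg _)
  rw [← sqrt_mul (e f)]
  refine abs_le_sqrt ?_
  exact sum_sq_le_sum_mul_sum_of_sq_le_mul univ
    (fun x _ => by rw [mul_assoc]; exact mul_nonneg (hw x) (mul_self_nonneg _))
    (fun x _ => by rw [mul_assoc]; exact mul_nonneg (hw x) (mul_self_nonneg _))
    fun x _ => le_of_eq (by ring)

theorem kForm_nonneg (hK : IsPsdKer w K) (f : ι → ℝ) : 0 ≤ kForm w K f := by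
  have := coef_anti hK f 0
  simp only [pwCoef, zero_add] at this
  exact sub_nonneg.2 this

theorem ip_pow_gap (hK : IsPsdKer w K) (k : ℕ) (f : ι → ℝ) :
    ip w f f - ip w f (powOp K k f) ≤ k * kForm w K f := (powerThm ι w K hK f).2.2.2.2.1 k

/-- Powers move functions of small form little. -/
theorem pow_close (hK : IsPsdKer w K) (k : ℕ) (f : ι → ℝ) :
    ip w (f - powOp K k f) (f - powOp K k f) ≤ 2 * k * kForm w K f := by
  have h := (powerThm ι w K hK f).2.2.2.2.2.2 0 k (Nat.zero_le _)
  have h2 := ip_pow_gap hK (2 * k) f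
  push_cast at h2
  exact (h.trans h2)

/-- A smoothed function has small form. -/
theorem smooth_form (hK : IsPsdKer w K) (k : ℕ) (f : ι → ℝ) :
    kForm w K (powOp K k f) ≤ ip w f f / (2 * k + 1) := by
  have h := (powerThm ι w K hK f).2.2.2.2.2.1 k
  have h2 := (powerThm ι w K hK f).1 (2 * k + 1)
  rw [le_div_iff₀ (by positivity), kForm, ← powOp_succ]
  linarith

/-- Two powers agree when the potential is flat between them. -/
theorem pow_plateau (hK : IsPsdKer w K) {k l : ℕ} (hkl : k ≤ l) (f : ι → ℝ) :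
    ip w (powOp K k f - powOp K l f) (powOp K k f - powOp K l f)
      ≤ ip w (powOp K k f) (powOp K k f) - ip w (powOp K l f) (powOp K l f) := by
  obtain ⟨-, -, h3, -, -, -, h7⟩ := powerThm ι w K hK f
  rw [h3, h3, ← two_mul, ← two_mul]
  exact h7 k l hkl

/-- A function of small form factors out of a power. -/
theorem pow_mul_close (hK : IsPsdKer w K) (h1 : ∑ x, w x ≤ 1) (k : ℕ) (u W : ι → ℝ)
    (hu : ∀ x, |u x| ≤ 1) :
    ∑ x, w x * |powOp K k (fun z => u z * W z) x - powOp K k u x * W x|
      ≤ √(2 * k * kForm w K W) := by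
  refine (l1_le_l2 hK.wnn h1 _).trans (sqrt_le_sqrt ?_)
  have hpt : ∀ x, (powOp K k (fun z => u z * W z) x - powOp K k u x * W x) ^ 2
      ≤ powOp K k (fun z => W z * W z) x - 2 * W x * powOp K k W x + W x * W x := fun x => by
    have hl : powOp K k (fun z => u z * W z) x - powOp K k u x * W x
        = powOp K k (fun z => u z * (W z - W x)) x := by
      have e : (fun z => u z * (W z - W x)) = fun z => 1 * (u z * W z) + (-W x) * u z := by
        funext z; ring
      rw [e, powOp_lin]
      ring
    rw [hl]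
    -- Jensen: bound `u (W - W x)` by `a (W - W x)² + 1 / (4 a)`
    have hr : powOp K k (fun z => (W z - W x) * (W z - W x)) x
        = powOp K k (fun z => W z * W z) x - 2 * W x * powOp K k W x + W x * W x := by
      have e : (fun z => (W z - W x) * (W z - W x))
          = fun z => 1 * (1 * (W z * W z) + (-2 * W x) * W z) + (W x * W x) * (1 : ℝ) := by
        funext z; ring
      rw [e, powOp_lin, powOp_lin, powOp_const hK]
      ring
    rw [← hr]
    set a := powOp K k (fun z => u z * (W z - W x)) x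
    set q := powOp K k (fun z => (W z - W x) * (W z - W x)) x
    have h : powOp K k (fun z => 2 * a * (u z * (W z - W x))) x
        ≤ powOp K k (fun z => 1 * ((W z - W x) * (W z - W x)) + a ^ 2 * (1 : ℝ)) x :=
      powOp_mono hK k (fun z => by
        have hu2 : u z ^ 2 ≤ 1 := (sq_le_one_iff_abs_le_one _).2 (hu z)
        nlinarith [sq_nonneg (a * u z - (W z - W x)),
          mul_le_mul_of_nonneg_left hu2 (sq_nonneg a)]) x
    have e2 : (fun z => 2 * a * (u z * (W z - W x)))
        = fun z => (2 * a) * (u z * (W z - W x)) + 0 * (1 : ℝ) := by funext z; ring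
    rw [e2, powOp_lin, powOp_lin, powOp_const hK] at h
    simp only at h
    nlinarith
  calc ∑ x, w x * (powOp K k (fun z => u z * W z) x - powOp K k u x * W x) ^ 2
      ≤ ∑ x, w x * (powOp K k (fun z => W z * W z) x - 2 * W x * powOp K k W x + W x * W x) :=
        sum_le_sum fun x _ => mul_le_mul_of_nonneg_left (hpt x) (hK.wnn x)
    _ = 2 * (ip w W W - ip w W (powOp K k W)) := by
        have e : ∑ x, w x * powOp K k (fun z => W z * W z) x = ip w W W := by
          rw [ip_one_pow hK]; exact sum_congr rfl fun x _ => by ring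
        simp only [mul_add, mul_sub, sum_add_distrib, sum_sub_distrib, e, ip, mul_sum]
        have e1 : ∀ x, w x * (2 * W x * powOp K k W x) = 2 * (w x * W x * powOp K k W x) :=
          fun x => by ring
        have e2 : ∀ x, w x * (W x * W x) = w x * W x * W x := fun x => by ring
        simp only [e1, e2, ← mul_sum]
        ring
    _ ≤ 2 * k * kForm w K W := by linarith [ip_pow_gap hK k W]

/-- Smoothed by the first kernel, a function cannot tell `F` from its average under powers of the
second kernel, when the forms compare. -/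
theorem frozen_transfer (hK : IsPsdKer w K) {ρ : ι → ℝ} {Q : ι → ι → ℝ}
    (hQ : IsPsdKer (fun x => ρ x * w x) Q) (hρ : ∀ x, ρ x ≤ 1) (h1 : ∑ x, w x ≤ 1)
    {C : ℝ} (hC : 0 ≤ C) (hle : ∀ f, kForm (fun x => ρ x * w x) Q f ≤ C * kForm w K f)
    (T H : ℕ) (F : ι → ℝ) (hF : ∀ x, |F x| ≤ 1) :
    ∑ x, w x * |powOp K T (fun z => ρ z * (F z - powOp Q H F z)) x|
      ≤ √(2 * H * (C / (2 * T + 1))) := by
  set wb := fun x => ρ x * w x with hwb
  set u := fun z => ρ z * (F z - powOp Q H F z) with hu
  set G : ι → ℝ := fun x => if 0 ≤ powOp K T u x then 1 else -1 with hG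
  have hG1 : ∀ x, |G x| ≤ 1 := fun x => by simp only [hG]; split <;> simp
  have hunit : ∀ (v : ι → ℝ) (ω : ι → ℝ), (∀ x, 0 ≤ ω x) → (∀ x, ω x ≤ w x) → (∀ x, |v x| ≤ 1) →
      ip ω v v ≤ 1 := fun v ω h0 hω hv => by
    refine (sum_le_sum fun x _ => ?_).trans h1
    rw [mul_assoc]
    exact (mul_le_of_le_one_right (h0 x) (by
      have := (sq_le_one_iff_abs_le_one (v x)).2 (hv x); linarith [sq (v x)])).trans (hω x)
  calc ∑ x, w x * |powOp K T u x| = ip w G (powOp K T u) :=
        sum_congr rfl fun x _ => by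
          simp only [hG]
          split_ifs with h
          · rw [abs_of_nonneg h]; ring
          · rw [abs_of_neg (not_le.1 h)]; ring
    _ = ip w (powOp K T G) u := ip_pow_symm hK T G u
    _ = ip wb (powOp K T G) F - ip wb (powOp K T G) (powOp Q H F) := by
        simp only [ip, hwb, hu, ← sum_sub_distrib]
        exact sum_congr rfl fun x _ => by ring
    _ = ip wb (powOp K T G - powOp Q H (powOp K T G)) F := by
        rw [ip_pow_symm hQ H]
        simp only [ip, ← sum_sub_distrib, Pi.sub_apply]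
        exact sum_congr rfl fun x _ => by ring
    _ ≤ √(ip wb (powOp K T G - powOp Q H (powOp K T G)) (powOp K T G - powOp Q H (powOp K T G)))
          * √(ip wb F F) := (le_abs_self _).trans (ip_abs_le hQ.wnn _ _)
    _ ≤ √(2 * H * (C / (2 * T + 1))) * 1 := by
        refine mul_le_mul (sqrt_le_sqrt ((pow_close hQ H _).trans ?_)) ?_ (sqrt_nonneg _)
          (sqrt_nonneg _)
        · refine mul_le_mul_of_nonneg_left ((hle _).trans ?_) (by positivity)
          rw [div_eq_mul_one_div C]
          refine mul_le_mul_of_nonneg_left ((smooth_form hK T G).trans ?_) hC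
          exact div_le_div_of_nonneg_right (hunit G w hK.wnn (fun x => le_rfl) hG1) (by positivity)
        · rw [sqrt_le_one]
          exact hunit F wb hQ.wnn (fun x => mul_le_of_le_one_left (hK.wnn x) (hρ x)) hF
    _ = _ := mul_one _

end Vale.Agent.P150.Fast
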