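import Mathlib
import Vale.Agent.P150.Fast.Cavity.ModelValue

/-!
The window value in the causal model of one site, for a sliced window and for a free one.
Used for P150 (module M4c).
-/

open MeasureTheory ProbabilityTheory Real Finset

namespace Vale.Agent.P150.Fast

variable {r : ℕ} {β κ W s C kap : ℝ} {θ : Coef (ncol r)} {ψ χ : ℝ → ℝ} {Φ : ℝ → ℝ → ℝ}
  {g : Site r → ℝ} {h : ℕ}

/-- The side field of the model is known at the start. -/
theorem hSite_upto (u : ℝ) : Upto 0 (hSite (r := r) u) := fun d d' h1 h2 _ => by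
  unfold hSite
  rw [h1 0 (by simp), h2 0 (by simp)]

@[fun_prop]
theorem measurable_hSite (u : ℝ) : Measurable fun d : Site r => hSite u d :=
  ((measurable_spinAt 0).const_mul _).add
    (((measurable_pi_apply 0).comp (measurable_fst.comp measurable_snd)).const_mul _)

/-- Truncation at `kap`. -/
noncomputable def clipE (kap u : ℝ) : ℝ := max (-kap) (min kap u)

@[fun_prop]
theorem continuous_clipE (kap : ℝ) : Continuous (clipE kap) := by unfold clipE; fun_prop

theorem abs_clipE_le (hkap : 0 ≤ kap) (u : ℝ) : |clipE kap u| ≤ kap :=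
  abs_le.2 ⟨le_max_left _ _, max_le (by linarith) (min_le_left _ _)⟩

theorem clipE_of_le {u : ℝ} (hu : |u| ≤ kap) : clipE kap u = u := by
  obtain ⟨h1, h2⟩ := abs_le.1 hu
  rw [clipE, min_eq_right h2, max_eq_right h1]

theorem clipE_neg (hkap : 0 ≤ kap) (u : ℝ) : clipE kap (-u) = -clipE kap u := by
  rcases le_total u kap with h | h <;> rcases le_total (-kap) u with h' | h' <;>
    simp only [clipE, max_def, min_def] <;> split_ifs <;> linarith

theorem psi_clip_mean (hw : WinOK W kap ψ χ) (hkap : 0 ≤ kap) :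
    ∫ e, ψ (√W * e) * clipE kap (√W * e) ∂gaussianReal 0 1 = 0 := by
  have hm : Continuous fun e => ψ (√W * e) * clipE kap (√W * e) :=
    (hw.psi_cont.comp (by fun_prop)).mul (by fun_prop)
  have h := integral_map (μ := gaussianReal 0 1) (φ := fun e : ℝ => -e) (by fun_prop)
    (f := fun e => ψ (√W * e) * clipE kap (√W * e)) hm.aestronglyMeasurable
  rw [gaussianReal_map_neg, neg_zero] at h
  simp only [mul_neg, hw.psi_even, clipE_neg hkap, integral_neg] at h
  linarith

/-- The pinned noises of a window in an image, truncated. -/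
noncomputable def clipX (θ : Coef (ncol r)) (k : Fin (ncol r)) (kap : ℝ) (h m : ℕ) (d : Site r) :
    ℝ :=
  ∑ b ∈ univ.filter (fun b : Fin r => h ≤ b.1 ∧ b.1 < m),
    zCoef θ k (ecol b.succ) * clipE kap (d.2.1 b.succ)

theorem clipX_upto (θ : Coef (ncol r)) (k : Fin (ncol r)) (kap : ℝ) (h m : ℕ) :
    Upto m (clipX θ k kap h m) := fun d d' _ h2 _ => sum_congr rfl fun b hb => by
  have := (mem_filter.1 hb).2.2
  rw [h2 b.succ (by simp; omega)]

theorem clipX_succ (θ : Coef (ncol r)) (k : Fin (ncol r)) (b : Fin r) (hb : h ≤ b.1) (d : Site r)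
    (g : ℝ × ℝ × ℝ) (x : Bool) :
    clipX θ k kap h (b.1 + 1) (upd β W b d g x)
      = clipX θ k kap h b.1 d + zCoef θ k (ecol b.succ) * clipE kap (√W * g.1) := by
  have e : univ.filter (fun t : Fin r => h ≤ t.1 ∧ t.1 < b.1 + 1)
      = insert b (univ.filter fun t : Fin r => h ≤ t.1 ∧ t.1 < b.1) := by
    ext t; simp [Fin.ext_iff]; omega
  rw [clipX, e, sum_insert (by simp), add_comm]
  congr 1
  · exact (clipX_upto θ k kap h b.1).upd_eq le_rfl d g x
  · simp [upd]

theorem clipX_bm (hkap : 0 ≤ kap) (θ : Coef (ncol r)) (k : Fin (ncol r)) (h m : ℕ) :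
    BM (clipX θ k kap h m) := by
  refine BM.sum _ fun b _ => ⟨Measurable.const_mul ((continuous_clipE kap).measurable.comp
    ((measurable_pi_apply _).comp (measurable_fst.comp measurable_snd))) _,
    |zCoef θ k (ecol b.succ)| * kap, fun d => ?_⟩
  rw [abs_mul]
  exact mul_le_mul_of_nonneg_left (abs_clipE_le hkap _) (abs_nonneg _)

theorem winN_apply (σ : Bool) (b : Fin r) (F : Site r → ℝ) (d : Site r) :
    winN β κ W s θ σ ψ (fun _ => 1) b.1 F d
      = ∫ g, ψ (√W * g.1) * F (upd β W b d g σ) ∂g3 := by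
  simp only [winN, b.2, dif_pos, kerM, Fin.eta]
  congr 1; funext g
  rw [Finset.sum_eq_single σ (fun x _ hx => by simp [winK, hx]) (by simp)]
  simp [winK, upd]

/-- The squared noise term of a sliced window. -/
theorem winM_clipX (hw : WinOK W kap ψ χ) (hkap : 0 ≤ kap) (σ : Bool) (k : Fin (ncol r)) (h m : ℕ)
    (hm : h ≤ m) (hmr : m ≤ r) : ∀ d,
    winM β κ W s θ σ ψ (fun _ => 1) h m (fun e => clipX θ k kap h m e ^ 2) d
      ≤ kap ^ 2 * winGam θ k h m := by
  induction m, hm using Nat.le_induction with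
  | base =>
    intro d
    rw [winM, iterM_of_le le_rfl, winGam_self, mul_zero, clipX,
      filter_false_of_mem fun b _ => by omega]
    simp
  | succ m hm ih =>
    intro d
    have hmr' : m < r := hmr
    have hP := winM_posOp hw.one β κ s θ σ h m
    have hT := winN_posOp hw.one β κ s θ σ m
    have hX := fun m => (clipX_bm hkap θ k h m).mul (clipX_bm hkap θ k h m)
    have hX2 : ∀ m, BM fun e => clipX θ k kap h m e ^ 2 := fun m => by
      convert hX m using 2; rw [Pi.mul_apply, sq]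
    obtain ⟨M, hM⟩ := hw.psi_bdd
    set co := zCoef θ k (ecol (⟨m, hmr'⟩ : Fin r).succ)
    have hi : ∀ f : ℝ → ℝ, Continuous f → (∃ B, ∀ u, |f u| ≤ B) →
        Integrable (fun e => ψ (√W * e) * f (√W * e)) (gaussianReal 0 1) := fun f hf ⟨B, hB⟩ =>
      Integrable.of_bound ((hw.psi_cont.comp (by fun_prop)).mul
        (hf.comp (by fun_prop))).aestronglyMeasurable (M * B) (.of_forall fun e => by
          rw [Real.norm_eq_abs, abs_mul, abs_of_nonneg (hw.psi_nonneg _)]
          exact mul_le_mul (hM _) (hB _) (abs_nonneg _) ((hw.psi_nonneg 0).trans (hM 0)))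
    have one : ∀ e, winN β κ W s θ σ ψ (fun _ => 1) m (fun e => clipX θ k kap h (m + 1) e ^ 2) e
        ≤ clipX θ k kap h m e ^ 2 + co ^ 2 * kap ^ 2 := fun e => by
      set X := clipX θ k kap h m e
      have i1 := hi (fun _ => 1) continuous_const ⟨1, by simp⟩
      have i2 := hi (clipE kap) (by fun_prop) ⟨kap, abs_clipE_le hkap⟩
      have i3 := hi (fun u => clipE kap u ^ 2) (by fun_prop) ⟨kap ^ 2, fun u => by
        rw [abs_pow]; exact pow_le_pow_left₀ (abs_nonneg _) (abs_clipE_le hkap u) 2⟩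
      rw [show m = (⟨m, hmr'⟩ : Fin r).1 from rfl, winN_apply]
      simp only [clipX_succ θ k (⟨m, hmr'⟩ : Fin r) hm]
      rw [g3_fst (f := fun a => ψ (√W * a) * (X + co * clipE kap (√W * a)) ^ 2)
        (((hw.psi_cont.comp (by fun_prop)).mul (by fun_prop)).measurable)]
      have e1 : ∀ a, ψ (√W * a) * (X + co * clipE kap (√W * a)) ^ 2
          = X ^ 2 * (ψ (√W * a) * 1) + 2 * X * co * (ψ (√W * a) * clipE kap (√W * a))
            + co ^ 2 * (ψ (√W * a) * clipE kap (√W * a) ^ 2) := fun a => by ring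
      simp only [e1]
      have i12 : Integrable (fun a => X ^ 2 * (ψ (√W * a) * 1)
          + 2 * X * co * (ψ (√W * a) * clipE kap (√W * a))) (gaussianReal 0 1) :=
        (i1.const_mul _).add (i2.const_mul _)
      rw [integral_add i12 (i3.const_mul _),
        integral_add (i1.const_mul _) (i2.const_mul _), integral_const_mul, integral_const_mul,
        integral_const_mul, psi_clip_mean hw hkap]
      simp only [mul_one, mul_zero, add_zero, hw.psi_mass]
      refine add_le_add le_rfl (mul_le_mul_of_nonneg_left ?_ (sq_nonneg _))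
      calc ∫ a, ψ (√W * a) * clipE kap (√W * a) ^ 2 ∂gaussianReal 0 1
          ≤ ∫ a, kap ^ 2 * (ψ (√W * a) * 1) ∂gaussianReal 0 1 :=
            integral_mono i3 (i1.const_mul _) fun a => by
              rw [mul_one, mul_comm (kap ^ 2)]
              exact mul_le_mul_of_nonneg_left (sq_le_sq' (abs_le.1 (abs_clipE_le hkap _)).1
                (abs_le.1 (abs_clipE_le hkap _)).2) (hw.psi_nonneg _)
        _ = kap ^ 2 := by rw [integral_const_mul]; simp [hw.psi_mass]
    rw [winM, iterM_succ hm, ← winM]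
    refine (hP.mono (hT.bm (hX2 _)) ((hX2 m).add (BM.const _)) one d).trans ?_
    rw [hP.add (hX2 m) (BM.const _), Pi.add_apply, hP.const,
      show winM β κ W s θ σ ψ (fun _ => 1) h m (fun _ => 1) = fun _ => 1 from
        iterM_fix fun b _ _ => winN_one_one hw.toWinBase β κ s θ σ b,
      winGam_last θ k (⟨m, hmr'⟩ : Fin r) hm]
    have := ih hmr'.le d
    linarith

/-- An identity propagated backwards through a window. -/
theorem winM_backward (σ : Bool) {t : ℕ} (ht : h ≤ t) (htr : t ≤ r)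
    {G : ℕ → Site r → ℝ} (hstep : ∀ b : Fin r, h ≤ b.1 → b.1 < t →
      winN β κ W s θ σ ψ (fun _ => 1) b.1 (G (b.1 + 1)) = G b.1) :
    winM β κ W s θ σ ψ (fun _ => 1) h t (G t) = G h := by
  have : ∀ m, h ≤ m → m ≤ t → winM β κ W s θ σ ψ (fun _ => 1) h m (G m) = G h := by
    intro m hm
    induction m, hm using Nat.le_induction with
    | base => intro _; rw [winM, iterM_of_le le_rfl]
    | succ m hm ih =>
      intro hmt
      rw [winM, iterM_succ hm, show winN β κ W s θ σ ψ (fun _ => 1) m (G (m + 1)) = G m from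
        hstep ⟨m, by omega⟩ hm (by simp; omega), ← winM, ih (by omega)]
  exact this t ht le_rfl

theorem mean_bm (hΦ : TestOK Φ) {a : Site r → ℝ} (ha : Measurable a) (hgm : Measurable g) (v : ℝ) :
    BM fun d => nE (a d) v fun u => Φ u (g d) :=
  ⟨(hΦ.cont_nE v).measurable.comp (ha.prodMk hgm), 1, fun d =>
    abs_nE_le_one (fun u => hΦ.bd u (g d)) _ _⟩

theorem test_bm (hΦ : TestOK Φ) {a : Site r → ℝ} (ha : Measurable a) (hgm : Measurable g) :
    BM fun d => Φ (a d) (g d) := by
  have := mean_bm hΦ ha hgm 0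
  simpa [nE] using this

theorem window_mass (hθ : NetOK C θ) (hw : WinBase W ψ χ) (σ : Bool) {t : Fin (r + 1)}
    (ht : h ≤ t.1) (d : Site r) :
    condM β κ W s θ true h t (winWt κ s θ σ ψ χ h t) d
      = winM β κ W s θ σ ψ χ h t (fun _ => 1) d ∧
    0 ≤ condM β κ W s θ true h t (winWt κ s θ σ ψ χ h t) d ∧
    condM β κ W s θ true h t (winWt κ s θ σ ψ χ h t) d ≤ 1 := by
  have e : condM β κ W s θ true h t (winWt κ s θ σ ψ χ h t)
      = winM β κ W s θ σ ψ χ h t (fun _ => 1) := by
    rw [← condM_winWt hθ σ ψ χ ht (Nat.le_of_lt_succ t.2)]; congr 1; funext x; simp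
  have hM := winM_posOp hw β κ s θ σ h t.1
  have h0 := hM.mono (BM.const 0) (BM.const 1) (fun _ => zero_le_one) d
  rw [hM.const, zero_mul] at h0
  have h1 := winM_diff hw β κ s θ σ h t.1 (fun _ => 1) (BM.const 1) (fun _ => by simp) d
  rw [show winM β κ W s θ σ ψ (fun _ => 1) h t.1 (fun _ => 1) = fun _ => 1 from
    iterM_fix fun b _ _ => winN_one_one hw β κ s θ σ b] at h1
  rw [e]
  exact ⟨rfl, h0, by linarith [neg_le_of_abs_le h1, le_of_abs_le h1]⟩

/-- The window value: the weighted field at the end is normal given the past up to `h`. -/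
theorem condM_window (hθ : NetOK C θ) (hkap : 0 ≤ kap) (σ : Bool) (hw : WinOK W kap ψ χ)
    {t : Fin (r + 1)} (ht : h ≤ t.1) (hb : ∀ u v, |Φ u v| ≤ 1)
    (hl : ∀ u v u' v', |Φ u v - Φ u' v'| ≤ |u - u'| + |v - v'|) (hgu : Upto h g)
    (hgm : Measurable g) (d : Site r) :
    0 ≤ condM β κ W s θ true h t (winWt κ s θ σ ψ χ h t) d ∧
    condM β κ W s θ true h t (winWt κ s θ σ ψ χ h t) d ≤ 1 ∧
    |condM β κ W s θ true h t
          (fun e => winWt κ s θ σ ψ χ h t e * Φ (zSite θ e (xcol t)) (g e)) d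
        - nE (zSite θ (cutAt σ h d) (xcol t)) (vWin β θ h t (xcol t)) (fun u => Φ u (g d))|
      ≤ (1 - condM β κ W s θ true h t (winWt κ s θ σ ψ χ h t) d)
        + kap * √(winGam θ (xcol t) h t) := by
  have hΦ : TestOK Φ := ⟨hb, hl⟩
  have hwb := hw.toWinBase
  obtain ⟨em, h0, h1⟩ := window_mass (β := β) (κ := κ) (s := s) hθ hwb σ ht d
  refine ⟨h0, h1, ?_⟩
  have htr : t.1 ≤ r := Nat.le_of_lt_succ t.2
  set k := xcol t
  set F : Site r → ℝ := fun e => Φ (zSite θ e k) (g e)
  have hX := fun m => clipX_bm hkap θ k h m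
  set G : ℕ → Site r → ℝ := fun m e =>
    nE (zSite θ (cutAt σ m e) k - clipX θ k kap h m e) (vWin β θ m t k) fun u => Φ u (g e)
  have hGb : ∀ m, BM (G m) := fun m => mean_bm hΦ
    (((measurable_zSite θ k).comp (measurable_cutAt σ m)).sub (hX m).1) hgm _
  have hFb : BM F := test_bm hΦ (measurable_zSite θ k) hgm
  have hback : winM β κ W s θ σ ψ (fun _ => 1) h t (G t) = G h := by
    refine winM_backward σ ht htr fun b hhb hbt => funext fun e => ?_
    rw [winN_apply]
    have es : ∀ y : ℝ × ℝ × ℝ, ψ (√W * y.1) * G (b.1 + 1) (upd β W b e y σ)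
        = ψ (√W * y.1) * nE (zSite θ (cutAt σ b.1 e) k - clipX θ k kap h b.1 e
          + θ.al k (ecol b.succ) * β * y.2.1 + θ.al k (xcol b.succ) * β * y.2.2)
          (vWin β θ (b.1 + 1) t k) (fun u => Φ u (g e)) := fun y => by
      rcases lt_or_ge kap |√W * y.1| with hy | hy
      · rw [hw.psi_supp _ hy, zero_mul, zero_mul]
      · simp only [G, zSite_upd, clipX_succ θ k b hhb, hgu.upd_eq hhb, clipE_of_le hy]
        ring_nf
    simp only [es]
    rw [smooth_step hwb hΦ _ _ _ _ (vWin_nonneg β θ (b.1 + 1) t k), ← vWin_step β θ b hbt]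
  have hP := winM_posOp hw.one β κ s θ σ h t.1
  have hP1 : winM β κ W s θ σ ψ (fun _ => 1) h t.1 (fun _ => 1) = fun _ => 1 :=
    iterM_fix fun b _ _ => winN_one_one hwb β κ s θ σ b
  have hdiff : ∀ e, |F e - G t e| ≤ |clipX θ k kap h t e| := fun e => by
    have e0 : G t e = Φ (zSite θ e k - clipX θ k kap h t e) (g e) := by
      simp only [G, vWin_self, k, zSite_cut hθ]; simp [nE]
    rw [e0]
    refine (hl _ _ _ _).trans (le_of_eq ?_)
    simp
  have habs : BM fun e => |clipX θ k kap h t.1 e| := by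
    obtain ⟨B, hB⟩ := (hX t.1).2
    exact ⟨continuous_abs.measurable.comp (hX t.1).1, B, fun e => by rw [abs_abs]; exact hB e⟩
  have hsum : winM β κ W s θ σ ψ (fun _ => 1) h t (fun e => |clipX θ k kap h t e|) d
      ≤ kap * √(winGam θ k h t) := by
    refine le_of_forall_pos_le_add fun ε hε => ?_
    set l := kap * √(winGam θ k h t) + ε
    have hl0 : 0 < l := by positivity
    have hq : kap ^ 2 * winGam θ k h t ≤ l ^ 2 := by
      have : kap ^ 2 * winGam θ k h t = (kap * √(winGam θ k h t)) ^ 2 := by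
        rw [mul_pow, sq_sqrt (winGam_nonneg θ k h t)]
      rw [this]
      exact pow_le_pow_left₀ (by positivity) (le_add_of_nonneg_right hε.le) 2
    have hX2 : BM fun e => clipX θ k kap h t.1 e ^ 2 := by
      convert (hX t.1).mul (hX t.1) using 2; rw [Pi.mul_apply, sq]
    refine (hP.mono habs
      ((hX2.smul (2 * l)⁻¹).add (BM.const (l / 2))) (fun e => ?_) d).trans ?_
    · simp only [Pi.add_apply, Pi.smul_apply, smul_eq_mul]
      rw [inv_mul_eq_div, div_add_div _ _ (by positivity) two_ne_zero, le_div_iff₀ (by positivity)]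
      linarith [sq_nonneg (|clipX θ k kap h t e| - l), sq_abs (clipX θ k kap h t e)]
    · rw [hP.add (hX2.smul _) (BM.const _), hP.smul, Pi.add_apply, Pi.smul_apply, hP.const, hP1,
        mul_one, smul_eq_mul]
      have := winM_clipX (β := β) (κ := κ) (s := s) (θ := θ) hw hkap σ k h t ht htr d
      have h2 : (2 * l)⁻¹ * l ^ 2 = l / 2 := by field_simp
      linarith [mul_le_mul_of_nonneg_left (this.trans hq) (inv_nonneg.2 (by positivity : (0 : ℝ) ≤ 2 * l))]
  have hPd := hP.abs_map_le (hFb.sub (hGb t.1)) habs hdiff d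
  rw [hP.sub hFb (hGb t.1), Pi.sub_apply, hback] at hPd
  have hd := winM_diff hwb β κ s θ σ h t.1 F hFb (fun e => hb _ _) d
  have eF : condM β κ W s θ true h t (fun e => winWt κ s θ σ ψ χ h t e * F e) d
      = winM β κ W s θ σ ψ χ h t F d := by
    rw [← condM_winWt hθ σ ψ χ ht htr]; rfl
  have eh : G h d = nE (zSite θ (cutAt σ h d) k) (vWin β θ h t k) fun u => Φ u (g d) := by
    have : clipX θ k kap h h d = 0 := by rw [clipX, filter_false_of_mem fun b _ => by omega]; simp
    simp only [G, this, sub_zero]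
  have h5 := abs_sub_le (winM β κ W s θ σ ψ χ h t F d)
    (winM β κ W s θ σ ψ (fun _ => 1) h t F d) (G h d)
  rw [show (fun e => winWt κ s θ σ ψ χ h t e * Φ (zSite θ e k) (g e))
    = fun e => winWt κ s θ σ ψ χ h t e * F e from rfl, eF, ← eh, em]
  linarith

/-- The window value without slice: the noises add their variance. -/
theorem condM_window_free (hθ : NetOK C θ) (σ : Bool) (hW : 0 ≤ W) (hc : Continuous χ)
    (hc1 : ∀ u, 0 ≤ χ u ∧ χ u ≤ 1) {t : Fin (r + 1)} (ht : h ≤ t.1) (hb : ∀ u v, |Φ u v| ≤ 1)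
    (hl : ∀ u v u' v', |Φ u v - Φ u' v'| ≤ |u - u'| + |v - v'|) (hgu : Upto h g)
    (hgm : Measurable g) (d : Site r) :
    0 ≤ condM β κ W s θ true h t (winWt κ s θ σ (fun _ => 1) χ h t) d ∧
    condM β κ W s θ true h t (winWt κ s θ σ (fun _ => 1) χ h t) d ≤ 1 ∧
    |condM β κ W s θ true h t
          (fun e => winWt κ s θ σ (fun _ => 1) χ h t e * Φ (zSite θ e (xcol t)) (g e)) d
        - nE (zSite θ (cutAt σ h d) (xcol t))
            (vWin β θ h t (xcol t) + W * winGam θ (xcol t) h t) (fun u => Φ u (g d))|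
      ≤ 1 - condM β κ W s θ true h t (winWt κ s θ σ (fun _ => 1) χ h t) d := by
  have hΦ : TestOK Φ := ⟨hb, hl⟩
  have hw := WinBase.free W hc hc1
  obtain ⟨em, h0, h1⟩ := window_mass (β := β) (κ := κ) (s := s) hθ hw σ ht d
  refine ⟨h0, h1, ?_⟩
  have htr : t.1 ≤ r := Nat.le_of_lt_succ t.2
  set k := xcol t
  set F : Site r → ℝ := fun e => Φ (zSite θ e k) (g e)
  set G : ℕ → Site r → ℝ := fun m e =>
    nE (zSite θ (cutAt σ m e) k) (vWin β θ m t k + W * winGam θ k m t) fun u => Φ u (g e)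
  have hFb : BM F := test_bm hΦ (measurable_zSite θ k) hgm
  have eG : G t.1 = F := funext fun e => by
    simp only [G, F, vWin_self, winGam_self, k, zSite_cut hθ]; simp [nE]
  have hback : winM β κ W s θ σ (fun _ => 1) (fun _ => 1) h t (G t) = G h := by
    refine winM_backward σ ht htr fun b hhb hbt => funext fun e => ?_
    rw [winN_apply]
    have hv : 0 ≤ vWin β θ (b.1 + 1) t k + W * winGam θ k (b.1 + 1) t :=
      add_nonneg (vWin_nonneg β θ _ _ _) (mul_nonneg hW (winGam_nonneg θ k _ _))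
    have es : ∀ y : ℝ × ℝ × ℝ, 1 * G (b.1 + 1) (upd β W b e y σ)
        = nE (zSite θ (cutAt σ b.1 e) k + zCoef θ k (ecol b.succ) * (√W * y.1)
          + θ.al k (ecol b.succ) * β * y.2.1 + θ.al k (xcol b.succ) * β * y.2.2)
          (vWin β θ (b.1 + 1) t k + W * winGam θ k (b.1 + 1) t) (fun u => Φ u (g e)) := fun y => by
      simp only [G, zSite_upd, hgu.upd_eq hhb, one_mul, mul_assoc]
    simp only [es]
    rw [free_step hW hΦ _ _ _ _ _ hv]
    simp only [G]
    congr 1
    rw [vWin_step β θ b hbt, winGam_first θ k b hbt]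
    ring
  have hd := winM_diff hw β κ s θ σ h t.1 F hFb (fun e => hb _ _) d
  rw [← eG, hback, eG] at hd
  have eF : condM β κ W s θ true h t (fun e => winWt κ s θ σ (fun _ => 1) χ h t e * F e) d
      = winM β κ W s θ σ (fun _ => 1) χ h t F d := by
    rw [← condM_winWt hθ σ _ χ ht htr]; rfl
  rw [show (fun e => winWt κ s θ σ (fun _ => 1) χ h t e * Φ (zSite θ e k) (g e))
    = fun e => winWt κ s θ σ (fun _ => 1) χ h t e * F e from rfl, eF, em]
  exact hd

end Vale.Agent.P150.Fast
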