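import Mathlib
import Vale.Agent.P150.Fast.ChainStmt

/-!
Configurations whose single-site conditional law is far from the Gibbs one carry little mass when
the single-site entropies are small (P150).
-/

open Real Finset
open scoped Matrix

namespace Vale.Agent.P150.Fast

variable {n : ℕ}

theorem phi_ge_sqrt {g c : ℝ} (hg : 0 < g) (hc : 0 < c) : (√c - √g) ^ 2 ≤ Ent.phi g c := by
  have hsg : 0 < √g := sqrt_pos.2 hg
  have h := log_le_sub_one_of_pos (div_pos (sqrt_pos.2 hc) hsg)
  rw [log_div (sqrt_pos.2 hc).ne' hsg.ne', log_sqrt hc.le, log_sqrt hg.le] at h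
  have h2 := mul_le_mul_of_nonneg_left h (mul_nonneg (by norm_num : (0 : ℝ) ≤ 2) hg.le)
  have e : g * (√c / √g) = √c * √g := by
    rw [mul_div_assoc', div_eq_iff hsg.ne', mul_assoc, mul_self_sqrt hg.le, mul_comm]
  rw [Ent.phi, sub_sq, sq_sqrt hc.le, sq_sqrt hg.le]
  nlinarith

/-- A pair whose second member is too light for the weights costs entropy. -/
theorem pair_light {a b f g r : ℝ} (ha : 0 < a) (hb : 0 < b) (hf : 0 < f) (hg : 0 < g) (hr : 0 < r)
    (hr4 : r ≤ 1 / 4) (hab : r * a ≤ b) (hl : b * g ≤ r ^ 3 * (a * f)) :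
    r * (a * f) ≤ 8 * (b * Ent.phi g ((a * f + b * g) / (a + b))) := by
  set c := (a * f + b * g) / (a + b) with hc
  have hS : 0 < a + b := add_pos ha hb
  have hcp : 0 < c := div_pos (add_pos (mul_pos ha hf) (mul_pos hb hg)) hS
  have hcs : c * (a + b) = a * f + b * g := div_mul_cancel₀ _ hS.ne'
  have h1 : a * f ≤ c * (a + b) := by rw [hcs]; linarith [mul_pos hb hg]
  have h2 : 4 * g ≤ c := by
    have k1 : b * g ≤ r ^ 3 * (c * (a + b)) :=
      hl.trans (mul_le_mul_of_nonneg_left h1 (by positivity))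
    have k2 : r ^ 3 * (a + b) ≤ 1 / 4 * b := by
      have p1 : r ^ 3 * a ≤ r ^ 2 * b := by
        have := mul_le_mul_of_nonneg_left hab (sq_nonneg r)
        nlinarith
      have p2 : r ^ 2 ≤ 1 / 16 := by nlinarith
      have p3 : r ^ 3 ≤ 1 / 16 := by nlinarith [mul_le_mul p2 hr4 hr.le (by norm_num)]
      nlinarith [mul_le_mul_of_nonneg_right p2 hb.le, mul_le_mul_of_nonneg_right p3 hb.le]
    have k3 : b * g ≤ b * (c / 4) := k1.trans (by nlinarith [mul_le_mul_of_nonneg_left k2 hcp.le])
    linarith [le_of_mul_le_mul_left k3 hb]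
  have h3 : c / 4 ≤ Ent.phi g c := by
    refine le_trans ?_ (phi_ge_sqrt hg hcp)
    have hsq : 2 * √g ≤ √c := by
      rw [le_sqrt (by positivity) hcp.le, mul_pow, sq_sqrt hg.le]
      linarith
    have := pow_le_pow_left₀ (by positivity) (show √c / 2 ≤ √c - √g by linarith) 2
    rw [div_pow, sq_sqrt hcp.le] at this
    linarith
  have h4 : r * (a * f) ≤ 2 * (b * c) := by
    have k : r * (a + b) ≤ 2 * b := by nlinarith
    nlinarith [mul_le_mul_of_nonneg_left h1 hr.le, mul_le_mul_of_nonneg_left k hcp.le]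
  have := mul_le_mul_of_nonneg_left h3 hb.le
  linarith

/-- The field at site `i` from the other sites. -/
def locField (A : Matrix (Fin n) (Fin n) ℝ) (x : Conf n) (i : Fin n) : ℝ :=
  (A *ᵥ vec x) i - A i i * vec x i

theorem vec_flip (x : Conf n) (i : Fin n) :
    vec (flipAt x i) = fun j => vec x j - if j = i then 2 * vec x i else 0 := by
  funext j
  rcases eq_or_ne j i with h | h
  · subst h
    simp only [vec, flipAt, Function.update_self, if_true, spin_not]
    ring
  · simp [vec, flipAt, h]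

theorem locField_flip (A : Matrix (Fin n) (Fin n) ℝ) (x : Conf n) (i : Fin n) :
    locField A (flipAt x i) i = locField A x i := by
  have e : (A *ᵥ vec (flipAt x i)) i = (A *ᵥ vec x) i - A i i * (2 * vec x i) := by
    simp only [vec_flip, Matrix.mulVec, dotProduct, mul_sub, sum_sub_distrib, mul_ite, mul_zero,
      sum_ite_eq', mem_univ, if_true]
  rw [locField, e, locField, vec_flip]
  simp only [if_true]
  ring

theorem coupW_flip {A : Matrix (Fin n) (Fin n) ℝ} (hA : A.transpose = A) (h : Fin n → ℝ)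
    (x : Conf n) (i : Fin n) :
    Ent.coupW A h (flipAt x i)
      = exp (-(2 * vec x i * (locField A x i + h i))) * Ent.coupW A h x := by
  have hq : ∀ v : Fin n → ℝ, Ent.qform A v = v ⬝ᵥ (A *ᵥ v) := fun v => by
    simp only [Ent.qform, dotProduct, Matrix.mulVec, mul_sum]
    exact sum_congr rfl fun _ _ => sum_congr rfl fun _ _ => by ring
  have hd : vec (flipAt x i) = vec x - Pi.single i (2 * vec x i) := by
    rw [vec_flip]; funext j; simp [Pi.single_apply]
  have hl : ∀ z : Conf n, Ent.lin h z = h ⬝ᵥ vec z := fun _ => rfl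
  simp only [Ent.coupW, ← exp_add, hl]
  congr 1
  change Ent.qform A (vec (flipAt x i)) / 2 + _ = _ + (Ent.qform A (vec x) / 2 + _)
  rw [hq, hq, hd]
  set d := 2 * vec x i with hdd
  have hs : (A *ᵥ Pi.single i d) ⬝ᵥ vec x = d * (A *ᵥ vec x) i := by
    rw [dotProduct_comm, Matrix.dotProduct_mulVec, ← Matrix.mulVec_transpose, hA, dotProduct_single]
    ring
  have hd2 : Pi.single i d ⬝ᵥ (A *ᵥ Pi.single i d) = A i i * d ^ 2 := by
    rw [single_dotProduct, Matrix.mulVec, dotProduct_single]
    ring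
  rw [Matrix.mulVec_sub, sub_dotProduct, dotProduct_sub, dotProduct_sub, dotProduct_sub,
    dotProduct_comm (vec x) (A *ᵥ Pi.single i d), hs, hd2, single_dotProduct, dotProduct_single,
    hdd, locField]
  ring

/-- The mass of the configurations whose flip at `i` is too light. -/
theorem sum_light_le {A : Matrix (Fin n) (Fin n) ℝ} (hA : A.transpose = A) (h : Fin n → ℝ)
    {ν : Conf n → ℝ} (hν : ∀ x, 0 < ν x) (i : Fin n) {B : ℝ} (hB : 2 ≤ B) :
    ∑ x, (if |locField A x i + h i| ≤ B ∧ ν (flipAt x i) ≤ exp (-(6 * B)) * ν x then ν x else 0)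
      ≤ 8 * exp (2 * B) * Ent.entSite (Ent.coupW A h) (fun z => ν z / Ent.coupW A h z) i := by
  set W := Ent.coupW A h with hW
  set u : Conf n → ℝ := fun z => ν z / W z with hu
  have hWp : ∀ z, 0 < W z := fun z => exp_pos _
  have hup : ∀ z, 0 < u z := fun z => div_pos (hν z) (hWp z)
  have hWu : ∀ z, W z * u z = ν z := fun z => mul_div_cancel₀ _ (hWp z).ne'
  set G : Conf n → ℝ := fun z => W z * Ent.phi (u z) (Ent.pairAvg W u i z) with hG
  have hG0 : ∀ z, 0 ≤ G z := fun z =>
    mul_nonneg (hWp z).le (Ent.phi_nonneg (hup z) (Ent.pairAvg_pos hWp hup i z))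
  rw [Ent.entSite, mul_sum]
  refine le_trans ?_ (le_of_eq (Ent.sum_flip i fun x => 8 * exp (2 * B) * G x))
  refine sum_le_sum fun x _ => ?_
  split_ifs with hx
  · have hlog := log_two_lt_d9
    have hr4 : exp (-(2 * B)) ≤ 1 / 4 := by
      refine (exp_le_exp.2 (show -(2 * B) ≤ -(2 * log 2) by linarith)).trans (le_of_eq ?_)
      rw [exp_neg, mul_comm 2 (log 2), mul_two, exp_add, exp_log two_pos]
      norm_num
    have hab : exp (-(2 * B)) * W x ≤ W (flipAt x i) := by
      rw [hW, coupW_flip hA]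
      refine mul_le_mul_of_nonneg_right (exp_le_exp.2 ?_) (exp_pos _).le
      have : |vec x i * (locField A x i + h i)| ≤ B := by
        rw [abs_mul, show |vec x i| = 1 from abs_spin _, one_mul]; exact hx.1
      linarith [abs_le.1 this]
    have hl : W (flipAt x i) * u (flipAt x i) ≤ exp (-(2 * B)) ^ 3 * (W x * u x) := by
      rw [hWu, hWu, ← exp_nat_mul, show ((3 : ℕ) : ℝ) * -(2 * B) = -(6 * B) by push_cast; ring]
      exact hx.2
    have h := pair_light (hWp x) (hWp _) (hup x) (hup _) (exp_pos _) hr4 hab hl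
    rw [hWu, exp_neg, inv_mul_le_iff₀ (exp_pos _)] at h
    refine h.trans (le_of_eq ?_)
    have ep : Ent.pairAvg W u i (flipAt x i) = (W x * u x + W (flipAt x i) * u (flipAt x i))
        / (W x + W (flipAt x i)) := by rw [Ent.pairAvg_flip, Ent.pairAvg]
    simp only [hG, ep, hWu]
    ring
  · exact mul_nonneg (mul_nonneg (by norm_num) (exp_pos _).le) (hG0 _)

end Vale.Agent.P150.Fast
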