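import Mathlib
import Vale.Agent.P150.Fast.Cavity.Light
import Vale.Agent.P150.Fast.Cavity.SliceLaw

/-!
A frozen step is controlled by its reweighted version, up to tails of the noise (P150).
-/

open MeasureTheory ProbabilityTheory Real Finset
open scoped Matrix

namespace Vale.Agent.P150.Fast

variable {n : ℕ} {ν : Conf n → ℝ} {s : Step n} {A : Matrix (Fin n) (Fin n) ℝ}

theorem chan_translate_le (hA : A.PosDef) (i : Fin n) (x : Conf n) (y : Fin n → ℝ) {B T t : ℝ}
    (hp : |(y - A *ᵥ vec x) i| ≤ B) (ht : |t| ≤ T) :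
    chan A x y ≤ exp (T * B + T ^ 2 * A i i / 2) * chan A x (y + t • (A *ᵥ Pi.single i 1)) := by
  rw [chan_eq, chanV_shift hA (A *ᵥ vec x) y i t]
  refine mul_le_mul_of_nonneg_right (exp_le_exp.2 (add_le_add ?_ ?_)) (chanV_pos hA _ _).le
  · refine (le_abs_self _).trans ?_
    rw [abs_mul]
    exact mul_le_mul ht hp (abs_nonneg _) ((abs_nonneg _).trans ht)
  · have : t ^ 2 ≤ T ^ 2 := sq_le_sq' (abs_le.1 ht).1 (abs_le.1 ht).2
    have := mul_le_mul_of_nonneg_right this hA.diag_pos.le (a := A i i)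
    linarith

theorem chan_flip_ge (hA : A.PosDef) (i : Fin n) (x : Conf n) (y : Fin n → ℝ) {B : ℝ}
    (hp : |(y - A *ᵥ vec x) i| ≤ B) :
    exp (-(2 * B + 2 * A i i)) * chan A x y ≤ chan A (flipAt x i) y := by
  set t := 2 * vec x i with ht
  have hv : vec (flipAt x i) = vec x - t • (Pi.single i 1 : Fin n → ℝ) := by
    rw [vec_flip]; funext j
    rcases eq_or_ne j i with h | h
    · subst h; simp [ht]
    · simp [h]
  have e : chan A (flipAt x i) y = chanV A (A *ᵥ vec x) (y + t • (A *ᵥ Pi.single i 1)) := by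
    rw [chan_eq, hv, Matrix.mulVec_sub, Matrix.mulVec_smul]
    simp only [chanV]
    congr 3
    abel_nf
  rw [e, chan_eq, chanV_shift hA (A *ᵥ vec x) y i t, ← mul_assoc, ← exp_add]
  refine mul_le_of_le_one_left (chanV_pos hA _ _).le (exp_le_one_iff.2 ?_)
  have h1 : |vec x i| = 1 := abs_spin _
  have h2 : t ^ 2 = 4 := by rw [ht, mul_pow, ← sq_abs (vec x i), h1]; norm_num
  have h3 : t * (y - A *ᵥ vec x) i ≤ 2 * B := by
    refine (le_abs_self _).trans ?_
    rw [abs_mul, ht, abs_mul, h1, abs_two, mul_one]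
    linarith
  rw [h2]
  linarith

theorem sliceU_shift (hA : A.PosDef) (i : Fin n) (b : Bool) (y : Fin n → ℝ) (t : ℝ) :
    sliceU A i b (y + t • (A *ᵥ Pi.single i 1)) = sliceU A i b y + t := by
  rw [sliceU, sliceU, Matrix.mulVec_add, Matrix.mulVec_smul, Matrix.mulVec_mulVec,
    Matrix.nonsing_inv_mul _ (Ne.isUnit hA.det_pos.ne'), Matrix.one_mulVec]
  simp only [Pi.add_apply, Pi.smul_apply, Pi.single_eq_same, smul_eq_mul, mul_one]
  ring

theorem sq_diff_le {a b M : ℝ} (ha : |a| ≤ M) (hb : |b| ≤ M) : (a - b) ^ 2 ≤ 4 * M ^ 2 := by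
  rw [show 4 * M ^ 2 = (2 * M) ^ 2 by ring]
  exact sq_le_sq' (by linarith [abs_le.1 ha, abs_le.1 hb]) (by linarith [abs_le.1 ha, abs_le.1 hb])

/-- The tails that spoil the comparison at a field. -/
noncomputable def spoil (ν : Conf n → ℝ) (A : Matrix (Fin n) (Fin n) ℝ) (i : Fin n) (b : Bool)
    (B R : ℝ) (y : Fin n → ℝ) : ℝ :=
  ∑ x, onVal i b x * ν x * chan A x y
    * (outB B ((y - A *ᵥ vec x) i) + outB R (sliceU A i b y))

theorem spoil_nonneg (hν : ∀ x, 0 < ν x) (hA : A.PosDef) (i : Fin n) (b : Bool) (B R : ℝ)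
    (y : Fin n → ℝ) : 0 ≤ spoil ν A i b B R y :=
  sum_nonneg fun x _ => mul_nonneg
    (mul_nonneg (mul_nonneg (onVal_nonneg i b x) (hν x).le) (chanV_pos hA _ _).le)
    (add_nonneg (outB_mem _ _).1 (outB_mem _ _).1)

theorem cvY_freeze_le_shifts (hν : ∀ x, 0 < ν x) (hA : s.A.PosDef) {i : Fin n} (b : Bool)
    {g : ℝ → ℝ} (hg0 : ∀ u, 0 ≤ g u) {w0 κ : ℝ} (hw : 0 < w0) (hκ : 0 < κ)
    (hlow : ∀ u, |u| ≤ κ → w0 ≤ g u) {B M : ℝ} {f : Conf n → ℝ} (hf : ∀ x, |f x| ≤ M) (N : ℕ)
    (y : Fin n → ℝ) :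
    cvY ν (s.freeze i) (onVal i b) f y
      ≤ exp (N * κ * B + (N * κ) ^ 2 * s.A i i / 2) / w0 * ∑ k ∈ Icc (-(N : ℤ)) N,
          g (sliceU s.A i b (y + ((k : ℝ) * κ) • (s.A *ᵥ Pi.single i 1)))
            * cvY ν (s.freeze i) (onVal i b) f (y + ((k : ℝ) * κ) • (s.A *ᵥ Pi.single i 1))
        + 4 * M ^ 2 * spoil ν s.A i b B (N * κ) y := by
  set E := exp (N * κ * B + (N * κ) ^ 2 * s.A i i / 2) with hE
  have hM0 : 0 ≤ M := (abs_nonneg _).trans (hf fun _ => true)
  have hS0 : ∀ k : ℤ, 0 ≤ g (sliceU s.A i b (y + ((k : ℝ) * κ) • (s.A *ᵥ Pi.single i 1)))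
      * cvY ν (s.freeze i) (onVal i b) f (y + ((k : ℝ) * κ) • (s.A *ᵥ Pi.single i 1)) := fun k =>
    mul_nonneg (hg0 _) (cvY_nonneg (s := s.freeze i) hν hA (onVal_nonneg i b) f _)
  by_cases hu : |sliceU s.A i b y| ≤ N * κ
  · set k : ℤ := -⌊sliceU s.A i b y / κ⌋ with hk
    have hkN : |(k : ℝ)| ≤ N := by
      obtain ⟨h1, h2⟩ := abs_le.1 hu
      have a1 : (-(N : ℤ)) ≤ ⌊sliceU s.A i b y / κ⌋ :=
        Int.le_floor.2 (by push_cast; rw [le_div_iff₀ hκ]; linarith)
      have a2 : ⌊sliceU s.A i b y / κ⌋ ≤ (N : ℤ) := by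
        have a3 : (⌊sliceU s.A i b y / κ⌋ : ℝ) ≤ ((N : ℤ) : ℝ) :=
          (Int.floor_le _).trans (by push_cast; rw [div_le_iff₀ hκ]; exact h2)
        exact_mod_cast a3
      have : |k| ≤ (N : ℤ) := by rw [hk, abs_neg, abs_le]; exact ⟨a1, a2⟩
      exact_mod_cast this
    set y' := y + ((k : ℝ) * κ) • (s.A *ᵥ Pi.single i 1) with hy'
    have hu' : |sliceU s.A i b y'| ≤ κ := by
      rw [hy', sliceU_shift hA, hk]
      push_cast
      have h1 := mul_le_mul_of_nonneg_right (Int.floor_le (sliceU s.A i b y / κ)) hκ.le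
      have h2 := mul_le_mul_of_nonneg_right (Int.lt_floor_add_one (sliceU s.A i b y / κ)).le hκ.le
      rw [div_mul_cancel₀ _ hκ.ne'] at h1 h2
      rw [abs_le]
      constructor <;> linarith
    have h1 := cvY_le (s := s.freeze i) hν hA (onVal_nonneg i b) (onVal_fib s i b) f
      (condE ν (s.freeze i) f y') (fun x z hz => condE_const f y' hz) y
    have h2 : ∑ x, onVal i b x * ν x * chan s.A x y * (f x - condE ν (s.freeze i) f y' x) ^ 2
        ≤ E * cvY ν (s.freeze i) (onVal i b) f y' + 4 * M ^ 2 * spoil ν s.A i b B (N * κ) y := by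
      rw [cvY, spoil, mul_sum, mul_sum, ← sum_add_distrib]
      refine sum_le_sum fun x _ => ?_
      have c0 : 0 ≤ onVal i b x * ν x := mul_nonneg (onVal_nonneg i b x) (hν x).le
      have d0 := sq_nonneg (f x - condE ν (s.freeze i) f y' x)
      have c1 : 0 ≤ chan s.A x y := (chanV_pos hA _ _).le
      have c2 : 0 ≤ chan s.A x y' := (chanV_pos hA _ _).le
      have o := add_nonneg (outB_mem B ((y - s.A *ᵥ vec x) i)).1
        (outB_mem (N * κ) (sliceU s.A i b y)).1
      by_cases hp : |(y - s.A *ᵥ vec x) i| ≤ B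
      · have ht : |(k : ℝ) * κ| ≤ N * κ := by
          rw [abs_mul, abs_of_pos hκ]; exact mul_le_mul_of_nonneg_right hkN hκ.le
        have := mul_le_mul_of_nonneg_right (mul_le_mul_of_nonneg_left
          (chan_translate_le hA i x y hp ht) c0) d0
        refine le_add_of_le_of_nonneg (this.trans_eq ?_) (by positivity)
        change _ = E * (onVal i b x * ν x * chan s.A x y' * (f x - condE ν (s.freeze i) f y' x) ^ 2)
        ring
      · refine le_add_of_nonneg_of_le (by positivity) ?_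
        have hd : (f x - condE ν (s.freeze i) f y' x) ^ 2 ≤ 4 * M ^ 2 :=
          sq_diff_le (hf x) (abs_condE_le (s := s.freeze i) hν hA hf y' x)
        have ho : (1 : ℝ) ≤ outB B ((y - s.A *ᵥ vec x) i) + outB (N * κ) (sliceU s.A i b y) := by
          have := (outB_mem (N * κ) (sliceU s.A i b y)).1
          rw [outB, if_pos (not_le.1 hp)]
          linarith
        refine (mul_le_mul_of_nonneg_left hd (mul_nonneg c0 c1)).trans ?_
        have := mul_le_mul_of_nonneg_left ho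
          (show 0 ≤ 4 * M ^ 2 * (onVal i b x * ν x * chan s.A x y) by positivity)
        linarith
    refine h1.trans (h2.trans (add_le_add ?_ le_rfl))
    have hkm : k ∈ Icc (-(N : ℤ)) N := by
      obtain ⟨a, c⟩ := abs_le.1 hkN
      exact mem_Icc.2 ⟨by exact_mod_cast a, by exact_mod_cast c⟩
    have h3 := single_le_sum (f := fun k : ℤ =>
      g (sliceU s.A i b (y + ((k : ℝ) * κ) • (s.A *ᵥ Pi.single i 1)))
        * cvY ν (s.freeze i) (onVal i b) f (y + ((k : ℝ) * κ) • (s.A *ᵥ Pi.single i 1)))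
      (fun k _ => hS0 k) hkm
    refine le_trans ?_ (mul_le_mul_of_nonneg_left h3 (div_nonneg (exp_pos _).le hw.le))
    rw [div_mul_eq_mul_div, le_div_iff₀ hw, mul_assoc, mul_comm _ w0]
    exact mul_le_mul_of_nonneg_left (mul_le_mul_of_nonneg_right (hlow _ hu')
      (cvY_nonneg (s := s.freeze i) hν hA (onVal_nonneg i b) f y')) (exp_pos _).le
  · refine le_add_of_nonneg_of_le (mul_nonneg (div_nonneg (exp_pos _).le hw.le)
      (sum_nonneg fun k _ => hS0 k)) ?_
    refine (cvY_le (s := s.freeze i) hν hA (onVal_nonneg i b) (onVal_fib s i b) f (fun _ => 0)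
      (fun _ _ _ => rfl) y).trans ?_
    rw [spoil, mul_sum]
    refine sum_le_sum fun x _ => ?_
    have c0 : 0 ≤ onVal i b x * ν x * chan s.A x y :=
      mul_nonneg (mul_nonneg (onVal_nonneg i b x) (hν x).le) (chanV_pos hA _ _).le
    have ho : (1 : ℝ) ≤ outB B ((y - s.A *ᵥ vec x) i) + outB (N * κ) (sliceU s.A i b y) := by
      have := (outB_mem B ((y - s.A *ᵥ vec x) i)).1
      rw [outB, outB, if_pos (not_le.1 hu)]
      rw [outB] at this
      linarith
    refine (mul_le_mul_of_nonneg_left (sq_diff_le (hf x) (by rwa [abs_zero])) c0).trans ?_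
    have := mul_le_mul_of_nonneg_left ho
      (show 0 ≤ 4 * M ^ 2 * (onVal i b x * ν x * chan s.A x y) by positivity)
    linarith

theorem tailTerm_integrable (hA : A.PosDef) (x : Conf n) {H : (Fin n → ℝ) → ℝ} (hH : Measurable H)
    (h1 : ∀ y, 0 ≤ H y ∧ H y ≤ 1) (c : ℝ) : Integrable fun y => c * (chan A x y * H y) :=
  (chanV_bdd hA _ hH (M := 1) fun y => by
    rw [abs_of_nonneg (h1 y).1]; exact (h1 y).2).const_mul c

theorem spoil_int (hν : ∀ x, 0 < ν x) (hν1 : ∑ x, ν x = 1) (hA : A.PosDef) (i : Fin n) (b : Bool)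
    {B R t u : ℝ} (ht : 0 ≤ t) (hu : 0 ≤ u) :
    Integrable (spoil ν A i b B R) ∧ ∫ y, spoil ν A i b B R y
      ≤ 2 * exp (t ^ 2 * A i i / 2 - t * B) + 2 * exp (u ^ 2 * A⁻¹ i i / 2 - u * R) := by
  have mp : ∀ x, Measurable fun y => outB B ((y - A *ᵥ vec x) i) := fun x =>
    (measurable_outB B).comp ((measurable_pi_apply i).comp (measurable_id.sub_const _))
  have mu : Measurable fun y => outB R (sliceU A i b y) :=
    (measurable_outB R).comp (continuous_sliceU A i b).measurable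
  have i1 := fun x => tailTerm_integrable hA x (mp x) (fun y => outB_mem _ _) (onVal i b x * ν x)
  have i2 := fun x => tailTerm_integrable hA x mu (fun y => outB_mem _ _) (onVal i b x * ν x)
  have e : spoil ν A i b B R = fun y =>
      ∑ x, onVal i b x * ν x * (chan A x y * outB B ((y - A *ᵥ vec x) i))
        + ∑ x, onVal i b x * ν x * (chan A x y * outB R (sliceU A i b y)) := by
    funext y; rw [spoil, ← sum_add_distrib]; exact sum_congr rfl fun x _ => by ring
  have I1 := integrable_finsetSum univ fun x _ => i1 x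
  have I2 := integrable_finsetSum univ fun x _ => i2 x
  rw [e]
  refine ⟨I1.add I2, ?_⟩
  rw [integral_add I1 I2, integral_finsetSum _ fun x _ => i1 x,
    integral_finsetSum _ fun x _ => i2 x]
  simp only [integral_const_mul]
  refine add_le_add ?_ ?_
  · calc ∑ x, onVal i b x * ν x * ∫ y, chan A x y * outB B ((y - A *ᵥ vec x) i)
        ≤ ∑ x, ν x * (2 * exp (t ^ 2 * A i i / 2 - t * B)) := sum_le_sum fun x _ => by
          refine mul_le_mul ?_ (tail_coord hA i x ht) (integral_nonneg fun y =>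
            mul_nonneg (chanV_pos hA _ _).le (outB_mem _ _).1) (hν x).le
          rw [onVal]; split <;> simp [(hν x).le]
      _ = _ := by rw [← sum_mul, hν1, one_mul]
  · calc ∑ x, onVal i b x * ν x * ∫ y, chan A x y * outB R (sliceU A i b y)
        ≤ ∑ x, ν x * (2 * exp (u ^ 2 * A⁻¹ i i / 2 - u * R)) := sum_le_sum fun x _ => by
          rw [onVal]
          by_cases hx : x i = b
          · rw [if_pos hx, one_mul]
            exact mul_le_mul_of_nonneg_left (tail_noise hA i hx hu) (hν x).le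
          · rw [if_neg hx, zero_mul, zero_mul]
            exact mul_nonneg (hν x).le (by positivity)
      _ = _ := by rw [← sum_mul, hν1, one_mul]

/-- The frozen step is at most the reweighted one, up to tails. -/
theorem freeze_le_slice (hν : ∀ x, 0 < ν x) (hν1 : ∑ x, ν x = 1) (hA : s.A.PosDef) {i : Fin n}
    (b : Bool) {g : ℝ → ℝ} {P M : ℝ}
    (hG : SliceW (s.freeze i) (onVal i b) (fun y => g (sliceU s.A i b y)) P M) (hg0 : ∀ u, 0 ≤ g u)
    {w0 κ : ℝ} (hw : 0 < w0) (hκ : 0 < κ) (hlow : ∀ u, |u| ≤ κ → w0 ≤ g u)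
    {f : Conf n → ℝ} {F : ℝ} (hf : ∀ x, |f x| ≤ F) (N : ℕ) {B t u : ℝ} (ht : 0 ≤ t) (hu : 0 ≤ u) :
    kForm (fun x => onVal i b x * ν x) (kerOf (pR ν) (s.freeze i)) f
      ≤ (2 * N + 1) * (exp (N * κ * B + (N * κ) ^ 2 * s.A i i / 2) / w0)
          * (P * kForm (fun x => onVal i b x * ν x)
              (sliceKer ν (s.freeze i) (onVal i b) (fun y => g (sliceU s.A i b y)) P) f)
        + 4 * F ^ 2 * (2 * exp (t ^ 2 * s.A i i / 2 - t * B)
          + 2 * exp (u ^ 2 * s.A⁻¹ i i / 2 - u * (N * κ))) := by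
  have hfr : (s.freeze i).A.PosDef := hA
  rw [kForm_ker (s := s.freeze i) hν hfr (onVal_fib s i b),
    kForm_slice (s := s.freeze i) hν hfr hG (onVal_fib s i b), mul_div_cancel₀ _ hG.pos.ne']
  obtain ⟨is, hs⟩ := spoil_int hν hν1 hA i b (B := B) (R := N * κ) ht hu
  set G : (Fin n → ℝ) → ℝ := fun y => g (sliceU s.A i b y)
  set E := exp (N * κ * B + (N * κ) ^ 2 * s.A i i / 2) / w0
  have ic : Integrable fun y => G y * cvY ν (s.freeze i) (onVal i b) f y :=
    cvY_integrable (s := s.freeze i) hν hfr _ f hG.meas (M := M) fun y => by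
      rw [abs_of_nonneg (hG.nn y)]; exact hG.bdd y
  set c : ℤ → Fin n → ℝ := fun k => ((k : ℝ) * κ) • (s.A *ᵥ Pi.single i 1)
  have ik : ∀ k, Integrable fun y => G (y + c k) * cvY ν (s.freeze i) (onVal i b) f (y + c k) :=
    fun k => ic.comp_add_right (c k)
  have IS : Integrable fun y => E * ∑ k ∈ Icc (-(N : ℤ)) N,
      G (y + c k) * cvY ν (s.freeze i) (onVal i b) f (y + c k) :=
    (integrable_finsetSum _ fun k _ => ik k).const_mul _
  have i0 : Integrable fun y => cvY ν (s.freeze i) (onVal i b) f y := by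
    simpa using cvY_integrable (s := s.freeze i) hν hfr (onVal i b) f
      (measurable_const (a := (1 : ℝ))) (M := 1) fun _ => (abs_one).le
  refine (integral_mono i0 (IS.add (is.const_mul (4 * F ^ 2)))
    fun y => cvY_freeze_le_shifts hν hA b hg0 hw hκ hlow hf N y).trans ?_
  simp only [Pi.add_apply]
  rw [integral_add IS (is.const_mul _), integral_const_mul, integral_const_mul,
    integral_finsetSum _ fun k _ => ik k]
  refine add_le_add (le_of_eq ?_) (mul_le_mul_of_nonneg_left hs (by positivity))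
  have e : ∀ k, ∫ y, G (y + c k) * cvY ν (s.freeze i) (onVal i b) f (y + c k)
      = ∫ y, G y * cvY ν (s.freeze i) (onVal i b) f y := fun k =>
    integral_add_right_eq_self (fun y => G y * cvY ν (s.freeze i) (onVal i b) f y) (c k)
  simp only [e, sum_const, Int.card_Icc, nsmul_eq_mul]
  rw [show ((N : ℤ) + 1 - -(N : ℤ)).toNat = 2 * N + 1 by omega]
  push_cast
  ring

end Vale.Agent.P150.Fast
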