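import Mathlib
import Vale.Agent.P150.Fast.Cavity.SliceCmp

/-!
A free step is controlled by a frozen one, and functions of small Dirichlet form are nearly
invariant under single flips (P150).
-/

open MeasureTheory ProbabilityTheory Real Finset
open scoped Matrix

namespace Vale.Agent.P150.Fast

variable {n : ℕ} {ν : Conf n → ℝ} {s : Step n} {A : Matrix (Fin n) (Fin n) ℝ}

/-- The mass of the states whose flip at `i` is lighter by the factor `r`. -/
noncomputable def lightMass (ν : Conf n → ℝ) (i : Fin n) (r : ℝ) : ℝ :=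
  ∑ x, if ν (flipAt x i) ≤ r * ν x then ν x else 0

theorem light_tail_int (hν : ∀ x, 0 < ν x) (hν1 : ∑ x, ν x = 1) (hA : A.PosDef) (i : Fin n)
    {B r t : ℝ} (ht : 0 ≤ t) :
    Integrable (fun y => ∑ x, ν x * chan A x y
      * ((if ν (flipAt x i) ≤ r * ν x then 1 else 0) + outB B ((y - A *ᵥ vec x) i))) ∧
    ∫ y, ∑ x, ν x * chan A x y
      * ((if ν (flipAt x i) ≤ r * ν x then 1 else 0) + outB B ((y - A *ᵥ vec x) i))
      ≤ lightMass ν i r + 2 * exp (t ^ 2 * A i i / 2 - t * B) := by
  have mp : ∀ x, Measurable fun y => outB B ((y - A *ᵥ vec x) i) := fun x =>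
    (measurable_outB B).comp ((measurable_pi_apply i).comp (measurable_id.sub_const _))
  have i1 : ∀ x, Integrable fun y =>
      (if ν (flipAt x i) ≤ r * ν x then ν x else 0) * chan A x y := fun x =>
    (chanV_integrable hA _).const_mul _
  have i2 := fun x => tailTerm_integrable hA x (mp x) (fun y => outB_mem _ _) (ν x)
  have e : ∀ y, ∑ x, ν x * chan A x y
      * ((if ν (flipAt x i) ≤ r * ν x then 1 else 0) + outB B ((y - A *ᵥ vec x) i))
      = ∑ x, (if ν (flipAt x i) ≤ r * ν x then ν x else 0) * chan A x y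
        + ∑ x, ν x * (chan A x y * outB B ((y - A *ᵥ vec x) i)) := fun y => by
    rw [← sum_add_distrib]
    refine sum_congr rfl fun x _ => ?_
    split <;> ring
  simp only [e]
  have I1 := integrable_finsetSum univ fun x _ => i1 x
  have I2 := integrable_finsetSum univ fun x _ => i2 x
  refine ⟨I1.add I2, ?_⟩
  rw [integral_add I1 I2, integral_finsetSum _ fun x _ => i1 x,
    integral_finsetSum _ fun x _ => i2 x]
  simp only [integral_const_mul]
  refine add_le_add (le_of_eq ?_) ?_
  · exact sum_congr rfl fun x _ => by rw [chan_eq, chanV_mass hA, mul_one]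
  · calc ∑ x, ν x * ∫ y, chan A x y * outB B ((y - A *ᵥ vec x) i)
        ≤ ∑ x, ν x * (2 * exp (t ^ 2 * A i i / 2 - t * B)) :=
          sum_le_sum fun x _ => mul_le_mul_of_nonneg_left (tail_coord hA i x ht) (hν x).le
      _ = _ := by rw [← sum_mul, hν1, one_mul]

theorem pair_good (hν : ∀ x, 0 < ν x) (hA : A.PosDef) (i : Fin n) (x : Conf n) (y : Fin n → ℝ)
    {B r : ℝ} (hl : ¬ ν (flipAt x i) ≤ r * ν x)
    (hp : |(y - A *ᵥ vec x) i| ≤ B) :
    r * exp (-(2 * B + 2 * A i i)) * (ν x * chan A x y)
      ≤ ν (flipAt x i) * chan A (flipAt x i) y := by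
  have := mul_le_mul (not_le.1 hl).le (chan_flip_ge hA i x y hp)
    (mul_nonneg (exp_pos _).le (chanV_pos hA _ _).le) (hν _).le
  linarith

/-- A function of small form is nearly invariant under the flip of a free site. -/
theorem flip_invariance (hν : ∀ x, 0 < ν x) (hν1 : ∑ x, ν x = 1) (hA : s.A.PosDef) {i : Fin n}
    (hi : i ∉ s.S) {f : Conf n → ℝ} {M : ℝ} (hf : ∀ x, |f x| ≤ M) {B r t : ℝ} (hr : 0 < r)
    (ht : 0 ≤ t) :
    ∑ x, ν x * (f x - f (flipAt x i)) ^ 2
      ≤ (2 + 2 * (exp (2 * B + 2 * s.A i i) / r))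
          * kForm (fun x => (1 : ℝ) * ν x) (kerOf (pR ν) s) f
        + 4 * M ^ 2 * (lightMass ν i r + 2 * exp (t ^ 2 * s.A i i / 2 - t * B)) := by
  rw [kForm_ker (φ := fun _ => 1) hν hA (fun _ _ _ => rfl)]
  obtain ⟨il, hl⟩ := light_tail_int hν hν1 hA i (B := B) (r := r) ht
  set c := exp (2 * B + 2 * s.A i i) / r with hc
  have hc0 : 0 < c := by positivity
  have icv : Integrable fun y => cvY ν s (fun _ => 1) f y := by
    simpa using cvY_integrable hν hA (fun _ => 1) f (measurable_const (a := (1 : ℝ))) (M := 1)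
      fun _ => (abs_one).le
  have e : ∑ x, ν x * (f x - f (flipAt x i)) ^ 2
      = ∫ y, ∑ x, ν x * (f x - f (flipAt x i)) ^ 2 * chan s.A x y := by
    simp only [chan_eq]
    rw [integral_finsetSum _ fun x _ => (chanV_integrable hA _).const_mul _]
    exact sum_congr rfl fun x _ => by rw [integral_const_mul, chanV_mass hA, mul_one]
  rw [e]
  refine le_trans (integral_mono (integrable_finsetSum _ fun x _ => (chanV_integrable hA _).const_mul _)
    ((icv.const_mul (2 + 2 * c)).add (il.const_mul (4 * M ^ 2))) fun y => ?_) ?_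
  · have hfl : ∀ x, condE ν s f y (flipAt x i) = condE ν s f y x := fun x =>
      condE_const f y (mem_filter.2 ⟨mem_univ _, fun j hj => by
        simp [flipAt, Function.update_of_ne (ne_of_mem_of_not_mem hj hi)]⟩)
    set G : Conf n → ℝ := fun x =>
      1 * ν x * chan s.A x y * (f x - condE ν s f y x) ^ 2 with hG
    have hG0 : ∀ x, 0 ≤ G x := fun x =>
      mul_nonneg (mul_nonneg (by simpa using (hν x).le) (chanV_pos hA _ _).le) (sq_nonneg _)
    simp only [Pi.add_apply, cvY]
    rw [add_mul, mul_sum, mul_sum, mul_sum]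
    change _ ≤ ∑ x, 2 * G x + ∑ x, 2 * c * G x + _
    rw [← Ent.sum_flip i fun x => 2 * c * G x, ← sum_add_distrib, ← sum_add_distrib]
    refine sum_le_sum fun x _ => ?_
    have c0 : 0 ≤ ν x * chan s.A x y := mul_nonneg (hν x).le (chanV_pos hA _ _).le
    have o1 := (outB_mem B ((y - s.A *ᵥ vec x) i)).1
    have o2 : (0 : ℝ) ≤ if ν (flipAt x i) ≤ r * ν x then 1 else 0 := by split <;> norm_num
    by_cases hg : ¬ ν (flipAt x i) ≤ r * ν x ∧ |(y - s.A *ᵥ vec x) i| ≤ B
    · refine le_add_of_le_of_nonneg ?_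
        (mul_nonneg (by positivity) (mul_nonneg c0 (add_nonneg o2 o1)))
      have h1 : ν x * chan s.A x y ≤ c * (ν (flipAt x i) * chan s.A (flipAt x i) y) := by
        have := pair_good hν hA i x y hg.1 hg.2
        rw [exp_neg, ← le_div_iff₀' (by positivity)] at this
        refine this.trans_eq ?_
        rw [hc]; field_simp
      have hd : (f x - f (flipAt x i)) ^ 2
          ≤ 2 * (f x - condE ν s f y x) ^ 2 + 2 * (f (flipAt x i) - condE ν s f y x) ^ 2 := by
        nlinarith [sq_nonneg (f x - condE ν s f y x + (f (flipAt x i) - condE ν s f y x))]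
      have k1 := mul_le_mul_of_nonneg_left hd c0
      have k2 := mul_le_mul_of_nonneg_right h1
        (sq_nonneg (f (flipAt x i) - condE ν s f y x))
      simp only [hG, hfl]
      linarith
    · refine le_add_of_nonneg_of_le (add_nonneg (mul_nonneg zero_le_two (hG0 _))
        (mul_nonneg (by positivity) (hG0 _))) ?_
      have ho : (1 : ℝ) ≤ (if ν (flipAt x i) ≤ r * ν x then 1 else 0)
          + outB B ((y - s.A *ᵥ vec x) i) := by
        by_cases h : ν (flipAt x i) ≤ r * ν x
        · rw [if_pos h]; linarith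
        · rw [if_neg h, outB, if_pos (not_le.1 fun h' => hg ⟨h, h'⟩), zero_add]
      have := mul_le_mul (sq_diff_le (hf x) (hf (flipAt x i))) ho zero_le_one (by positivity)
      have := mul_le_mul_of_nonneg_left this c0
      linarith
  · simp only [Pi.add_apply]
    rw [integral_add (icv.const_mul _) (il.const_mul _), integral_const_mul, integral_const_mul]
    exact add_le_add le_rfl (mul_le_mul_of_nonneg_left hl (by positivity))

/-- For a function blind to the site, the free step is at most the frozen one, up to light pairs. -/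
theorem normal_le_freeze (hν : ∀ x, 0 < ν x) (hν1 : ∑ x, ν x = 1) (hA : s.A.PosDef) {i : Fin n}
    (hi : i ∉ s.S) (b : Bool) {f : Conf n → ℝ} {M : ℝ} (hW : ∀ x, f (flipAt x i) = f x)
    (hf : ∀ x, |f x| ≤ M) {B r t : ℝ} (hr : 0 < r) (ht : 0 ≤ t) :
    kForm (fun x => (1 : ℝ) * ν x) (kerOf (pR ν) s) f
      ≤ (1 + exp (2 * B + 2 * s.A i i) / r)
          * kForm (fun x => onVal i b x * ν x) (kerOf (pR ν) (s.freeze i)) f
        + 4 * M ^ 2 * (lightMass ν i r + 2 * exp (t ^ 2 * s.A i i / 2 - t * B)) := by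
  rw [kForm_ker (φ := fun _ => 1) hν hA (fun _ _ _ => rfl),
    kForm_ker (s := s.freeze i) hν hA (onVal_fib s i b)]
  obtain ⟨il, hl⟩ := light_tail_int hν hν1 hA i (B := B) (r := r) ht
  set τ := r * exp (-(2 * B + 2 * s.A i i)) with hτd
  have hτ : 0 < τ := by positivity
  have icv : ∀ (s' : Step n) (φ : Conf n → ℝ), s'.A.PosDef →
      Integrable fun y => cvY ν s' φ f y := fun s' φ h => by
    simpa using cvY_integrable (s := s') hν h φ f (measurable_const (a := (1 : ℝ))) (M := 1)
      fun _ => (abs_one).le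
  have ifz : Integrable fun y => cvY ν (s.freeze i) (onVal i b) f y := icv _ _ hA
  refine le_trans (integral_mono (icv s _ hA)
    ((ifz.const_mul (1 + 1 / τ)).add (il.const_mul (4 * M ^ 2))) fun y => ?_) ?_
  · simp only [Pi.add_apply]
    refine (cvY_le_freeze hν hA hi b hτ hW hf y).trans
      (add_le_add le_rfl (mul_le_mul_of_nonneg_left ?_ (by positivity)))
    refine sum_le_sum fun x _ => ?_
    have c0 : 0 ≤ ν x * chan s.A x y := mul_nonneg (hν x).le (chanV_pos hA _ _).le
    have o1 := (outB_mem B ((y - s.A *ᵥ vec x) i)).1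
    have o2 : (0 : ℝ) ≤ if ν (flipAt x i) ≤ r * ν x then 1 else 0 := by split <;> norm_num
    split_ifs with h h' <;> try nlinarith
    refine le_mul_of_one_le_right c0 ?_
    rw [zero_add, outB, if_pos]
    by_contra hp
    have := pair_good hν hA i x y h' (not_lt.1 hp)
    rw [← hτd] at this
    linarith
  · simp only [Pi.add_apply]
    rw [integral_add (ifz.const_mul _) (il.const_mul _), integral_const_mul, integral_const_mul]
    refine add_le_add (le_of_eq ?_) (mul_le_mul_of_nonneg_left hl (by positivity))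
    rw [hτd, exp_neg]
    field_simp

end Vale.Agent.P150.Fast
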