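import Mathlib
import Vale.Agent.P150.Fast.Cavity.Stmt
import Vale.Agent.P150.Fast.ChainPath

/-!
The joint law of the side field and the state, and its disintegration along the field (P150).
-/

open MeasureTheory ProbabilityTheory Real Finset
open scoped Matrix

namespace Vale.Agent.P150.Fast

variable {n : ℕ} {ν : Conf n → ℝ}

/-- The expectation over the state and the side field it produces. -/
noncomputable def jointE (u : ℝ) (ν : Conf n → ℝ) (Φ : (Fin n → ℝ) → Conf n → ℝ) : ℝ :=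
  ∑ x, ν x * ∫ g, Φ (sideField u x g) x ∂gp (Fin n)

theorem priorDen_pos (A : Matrix (Fin n) (Fin n) ℝ) (s : ℝ) (hν : ∀ x, 0 < ν x) (h : Fin n → ℝ) :
    0 < ∑ z, ν z * exp (lin h (vec z) - s / 2 * (vec z ⬝ᵥ (A *ᵥ vec z))) :=
  sum_pos (fun z _ => mul_pos (hν z) (exp_pos _)) univ_nonempty

theorem priorAt_pos (A : Matrix (Fin n) (Fin n) ℝ) (s : ℝ) (hν : ∀ x, 0 < ν x) (h : Fin n → ℝ)
    (x : Conf n) : 0 < priorAt A s ν h x :=
  div_pos (mul_pos (hν x) (exp_pos _)) (priorDen_pos A s hν h)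

theorem priorAt_sum (A : Matrix (Fin n) (Fin n) ℝ) (s : ℝ) (hν : ∀ x, 0 < ν x) (h : Fin n → ℝ) :
    ∑ x, priorAt A s ν h x = 1 := by
  simp only [priorAt, ← sum_div]
  exact div_self (priorDen_pos A s hν h).ne'

theorem priorAt_le_one (A : Matrix (Fin n) (Fin n) ℝ) (s : ℝ) (hν : ∀ x, 0 < ν x) (h : Fin n → ℝ)
    (x : Conf n) : priorAt A s ν h x ≤ 1 :=
  (single_le_sum (fun z _ => (priorAt_pos A s hν h z).le) (mem_univ x)).trans_eq
    (priorAt_sum A s hν h)

theorem measurable_priorAt (A : Matrix (Fin n) (Fin n) ℝ) (s : ℝ) (ν : Conf n → ℝ) (x : Conf n) :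
    Measurable fun h => priorAt A s ν h x := by
  unfold priorAt lin
  fun_prop

@[fun_prop]
theorem continuous_sideField (u : ℝ) (x : Conf n) : Continuous (sideField u x) := by
  unfold sideField; fun_prop

theorem posDef_smul_one {u : ℝ} (hu : 0 < u) : (u • (1 : Matrix (Fin n) (Fin n) ℝ)).PosDef :=
  Matrix.PosDef.one.smul hu

/-- The side field has the law of an isotropic channel. -/
theorem field_law {u : ℝ} (hu : 0 < u) (x : Conf n) (G : (Fin n → ℝ) → ℝ) :
    ∫ g, G (sideField u x g) ∂gp (Fin n)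
      = ∫ h, chan (u • (1 : Matrix (Fin n) (Fin n) ℝ)) x h * G h := by
  have hd : (√u • (1 : Matrix (Fin n) (Fin n) ℝ)).det ≠ 0 := by
    simp [(sqrt_pos.2 hu).ne']
  have hB : (√u • (1 : Matrix (Fin n) (Fin n) ℝ)) * (√u • (1 : Matrix (Fin n) (Fin n) ℝ)).transpose
      = u • 1 := by
    rw [Matrix.transpose_smul, Matrix.transpose_one, smul_mul_smul_comm, one_mul,
      mul_self_sqrt hu.le]
  rw [chan_eq, (chan_integral hB hd _ G).1]
  simp only [sideField, Matrix.smul_mulVec, Matrix.one_mulVec]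

theorem vec_dot_self (x : Conf n) : vec x ⬝ᵥ vec x = n := by
  simp [dotProduct, vec, ← pow_two, ← sq_abs (spin _), abs_spin]

/-- The prior after the side field is the posterior of the channel. -/
theorem priorAt_eq (A : Matrix (Fin n) (Fin n) ℝ) {u : ℝ} (hu : 0 < u) (h : Fin n → ℝ)
    (x : Conf n) :
    priorAt A 0 ν h x = ν x * chan (u • (1 : Matrix (Fin n) (Fin n) ℝ)) x h
      / ∑ z, ν z * chan (u • (1 : Matrix (Fin n) (Fin n) ℝ)) z h := by
  have huI := posDef_smul_one (n := n) hu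
  have e : ∀ z : Conf n, chan (u • (1 : Matrix (Fin n) (Fin n) ℝ)) z h
      = chanV (u • 1) 0 h * exp (-(u * n / 2)) * exp (lin h (vec z)) := fun z => by
    have k := coupW_chan huI 0 z h
    rw [add_zero] at k
    simp only [Ent.coupW] at k
    rw [show (fun i => spin (z i)) = vec z from rfl, qform_eq_dot, lin_eq_dot, lin_eq_dot,
      zero_dotProduct, add_zero, Matrix.smul_mulVec, Matrix.one_mulVec, dotProduct_smul,
      smul_eq_mul, vec_dot_self] at k
    have hl : lin h (vec z) = h ⬝ᵥ vec z := by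
      simp [lin, dotProduct, mul_comm]
    rw [hl, mul_right_comm, ← k, mul_comm (exp _) (chan _ _ _), mul_assoc, ← exp_add,
      add_neg_cancel, exp_zero, mul_one]
  simp only [priorAt, e, zero_div, zero_mul, sub_zero,
    mul_left_comm (ν _) (chanV (u • 1) 0 h * exp (-(u * n / 2))), ← mul_sum]
  rw [mul_div_mul_left _ _ (mul_pos (chanV_pos huI _ _) (exp_pos _)).ne']

/-- Averaging over the side field, then over the prior after it, is the joint law. -/
theorem fieldE_prior (A : Matrix (Fin n) (Fin n) ℝ) (hν : ∀ x, 0 < ν x) (hν1 : ∑ x, ν x = 1)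
    {u : ℝ} (hu : 0 ≤ u) {Φ : (Fin n → ℝ) → Conf n → ℝ} (hΦ : ∀ x, Measurable fun h => Φ h x)
    {B : ℝ} (hB : ∀ h x, |Φ h x| ≤ B) :
    fieldE u ν (fun h => ∑ g, priorAt A 0 ν h g * Φ h g) = jointE u ν Φ := by
  set G : (Fin n → ℝ) → ℝ := fun h => ∑ g, priorAt A 0 ν h g * Φ h g with hG
  show fieldE u ν G = _
  rcases eq_or_lt_of_le hu with h0 | hu
  · subst h0
    have e0 : ∀ x g, sideField 0 x g = (0 : Fin n → ℝ) := fun x g => by simp [sideField]
    have eG : G 0 = ∑ g, ν g * Φ 0 g := by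
      refine sum_congr rfl fun g _ => ?_
      simp [priorAt, lin, hν1]
    simp [fieldE, jointE, e0, eG, ← sum_mul, hν1]
  · simp only [fieldE, jointE]
    rw [sum_congr rfl fun x _ => by rw [field_law hu x G],
      sum_congr rfl fun x (_ : x ∈ univ) => show ν x * ∫ g, Φ (sideField u x g) x ∂gp (Fin n)
        = ν x * ∫ h, chan (u • (1 : Matrix (Fin n) (Fin n) ℝ)) x h * Φ h x by
        rw [field_law hu x fun h => Φ h x]]
    have huI := posDef_smul_one (n := n) hu
    have hGm : Measurable G := Finset.measurable_sum _ fun g _ =>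
      (measurable_priorAt A 0 ν g).mul (hΦ g)
    have hGb : ∀ h, |G h| ≤ B := fun h =>
      avg_bound (fun g => (priorAt_pos A 0 hν h g).le) (priorAt_sum A 0 hν h) (hB h)
    simp only [← integral_const_mul, chan_eq]
    rw [← integral_finsetSum _ fun x _ => (chanV_bdd huI _ hGm hGb).const_mul _,
      ← integral_finsetSum _ fun x _ => (chanV_bdd huI _ (hΦ x) fun h => hB h x).const_mul _]
    refine integral_congr_ae (ae_of_all _ fun h => ?_)
    simp only [hG, priorAt_eq A hu, ← mul_assoc, ← sum_mul]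
    rw [mul_sum]
    refine sum_congr rfl fun g _ => ?_
    have hd : (∑ z, ν z * chan (u • (1 : Matrix (Fin n) (Fin n) ℝ)) z h) ≠ 0 :=
      (sum_pos (fun z _ => mul_pos (hν z) (chanV_pos huI _ _)) univ_nonempty).ne'
    simp only [chan_eq] at hd ⊢
    field_simp

theorem jointE_mono (hν : ∀ x, 0 ≤ ν x) {u : ℝ} {Φ Ψ : (Fin n → ℝ) → Conf n → ℝ}
    (hΦ : ∀ x, Measurable fun h => Φ h x) (hΨ : ∀ x, Measurable fun h => Ψ h x) {B : ℝ}
    (hBΦ : ∀ h x, |Φ h x| ≤ B) (hBΨ : ∀ h x, |Ψ h x| ≤ B) (hle : ∀ h x, Φ h x ≤ Ψ h x) :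
    jointE u ν Φ ≤ jointE u ν Ψ := by
  refine sum_le_sum fun x _ => mul_le_mul_of_nonneg_left ?_ (hν x)
  exact integral_mono
    (Integrable.of_bound ((hΦ x).comp (continuous_sideField u x).measurable).aestronglyMeasurable B
      (.of_forall fun g => hBΦ _ x))
    (Integrable.of_bound ((hΨ x).comp (continuous_sideField u x).measurable).aestronglyMeasurable B
      (.of_forall fun g => hBΨ _ x))
    fun g => hle _ _

end Vale.Agent.P150.Fast
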