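import Mathlib
import Vale.Agent.P150.Fast.Cavity.Light
import Vale.Agent.P150.Fast.Cavity.Gibbs

/-!
Small single-site entropy gives the exchange identity between a configuration and its flip, in
mean absolute value (P150).
-/

open Real Finset
open scoped Matrix

namespace Vale.Agent.P150.Fast

variable {n : ℕ}

theorem sqrt_sub_sq_le_phi {f c : ℝ} (hf : 0 < f) (hc : 0 < c) : (√f - √c) ^ 2 ≤ Ent.phi f c := by
  rw [show √f - √c = -(√c - √f) by ring, neg_sq]
  exact phi_ge_sqrt hf hc

/-- The exchange identity at a site. -/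
theorem pair_l1 {A : Matrix (Fin n) (Fin n) ℝ} (hA : A.transpose = A) (h : Fin n → ℝ)
    {ν : Conf n → ℝ} (hν : ∀ x, 0 < ν x) (hν1 : ∑ x, ν x = 1) (i : Fin n) :
    ∑ x, |ν x * sig (!x i) (locField A x i + h i) - ν (flipAt x i) * sig (x i) (locField A x i + h i)|
      ≤ 2 * √(Ent.entSite (Ent.coupW A h) (fun z => ν z / Ent.coupW A h z) i) := by
  set W := Ent.coupW A h with hWdef
  set f : Conf n → ℝ := fun z => ν z / W z
  have hW : ∀ z, 0 < W z := fun z => exp_pos _
  have hf : ∀ z, 0 < f z := fun z => div_pos (hν z) (hW z)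
  have hWf : ∀ z, W z * f z = ν z := fun z => mul_div_cancel₀ _ (hW z).ne'
  set c := Ent.pairAvg W f i with hcdef
  have hc : ∀ z, 0 < c z := Ent.pairAvg_pos hW hf i
  have key : ∀ x, ν x * sig (!x i) (locField A x i + h i)
      - ν (flipAt x i) * sig (x i) (locField A x i + h i) = W x * (f x - c x) := by
    intro x
    set u := locField A x i + h i with hu
    have hflip : W (flipAt x i) = exp (-(2 * vec x i * u)) * W x := coupW_flip hA h x i
    have hden : exp u + exp (-u) ≠ 0 := (add_pos (exp_pos _) (exp_pos _)).ne'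
    rw [mul_sub, hWf, hcdef, Ent.pairAvg, hWf, hWf, hflip]
    have hx := (hW x).ne'
    cases hb : x i <;>
      simp only [sig, spin, vec, hb, Bool.not_true, Bool.not_false, if_true, Bool.false_eq_true,
        if_false, one_mul, mul_one, neg_mul, mul_neg, neg_neg, exp_neg, two_mul, exp_add]
    · field_simp
      ring
    · field_simp
      ring
  simp only [key]
  have hmc : ∑ x, W x * c x = 1 := by
    have h1 : ∀ x, W x * c x + W (flipAt x i) * c x = ν x + ν (flipAt x i) := fun x => by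
      rw [← add_mul, hcdef, Ent.pairAvg, mul_div_cancel₀ _ (add_pos (hW _) (hW _)).ne', hWf, hWf]
    have h2 : ∑ x, W (flipAt x i) * c x = ∑ x, W x * c x := by
      rw [← Ent.sum_flip i fun x => W x * c x]
      exact sum_congr rfl fun x _ => by rw [hcdef, Ent.pairAvg_flip]
    have h3 := sum_congr rfl (fun x (_ : x ∈ (univ : Finset (Conf n))) => h1 x)
    rw [sum_add_distrib, sum_add_distrib, h2, Ent.sum_flip i ν, hν1] at h3
    linarith
  have hs : ∀ a : ℝ, 0 < a → √a * √a = a := fun a ha => mul_self_sqrt ha.le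
  have hb : ∑ x, W x * (√(f x) + √(c x)) ^ 2 ≤ 4 := by
    refine le_trans (sum_le_sum fun x _ => mul_le_mul_of_nonneg_left
      (show (√(f x) + √(c x)) ^ 2 ≤ 2 * (f x + c x) by
        nlinarith [sq_nonneg (√(f x) - √(c x)), hs _ (hf x), hs _ (hc x)]) (hW x).le) ?_
    simp only [mul_add, sum_add_distrib, mul_left_comm _ (2 : ℝ), ← mul_sum, hWf, hmc, hν1]
    norm_num
  have hD : ∑ x, W x * (√(f x) - √(c x)) ^ 2 ≤ Ent.entSite W f i :=
    sum_le_sum fun x _ => mul_le_mul_of_nonneg_left (sqrt_sub_sq_le_phi (hf x) (hc x)) (hW x).le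
  have e : ∀ x, |W x * (f x - c x)| = W x * |√(f x) - √(c x)| * (√(f x) + √(c x)) := fun x => by
    rw [abs_mul, abs_of_pos (hW x), mul_assoc]
    congr 1
    rw [show f x - c x = (√(f x) - √(c x)) * (√(f x) + √(c x)) by
        linear_combination hs _ (hc x) - hs _ (hf x),
      abs_mul, abs_of_nonneg (add_nonneg (sqrt_nonneg (f x)) (sqrt_nonneg (c x)))]
  simp only [e]
  have hcs := sum_sq_le_sum_mul_sum_of_sq_le_mul univ
    (r := fun x => W x * |√(f x) - √(c x)| * (√(f x) + √(c x)))
    (f := fun x => W x * (√(f x) - √(c x)) ^ 2) (g := fun x => W x * (√(f x) + √(c x)) ^ 2)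
    (fun x _ => mul_nonneg (hW x).le (sq_nonneg _)) (fun x _ => mul_nonneg (hW x).le (sq_nonneg _))
    fun x _ => le_of_eq (by rw [mul_pow, mul_pow, sq_abs]; ring)
  have hE0 : 0 ≤ Ent.entSite W f i :=
    (sum_nonneg fun x _ => mul_nonneg (hW x).le (sq_nonneg _)).trans hD
  refine le_trans (le_sqrt_of_sq_le (hcs.trans (mul_le_mul hD hb
    (sum_nonneg fun x _ => mul_nonneg (hW x).le (sq_nonneg _)) hE0))) (le_of_eq ?_)
  rw [show Ent.entSite W f i * 4 = 2 ^ 2 * Ent.entSite W f i by ring, sqrt_mul (by norm_num),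
    sqrt_sq zero_le_two]

end Vale.Agent.P150.Fast
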